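import Crest.Agent.R6.Defs

/-! Row 6: Andréief's identity (as a sup bound, applied twice) and the Cauchy determinant. -/

set_option autoImplicit false

namespace Crest.Agent.R6

open Finset MeasureTheory

namespace Andreief

/-- Andréief's identity -/
theorem integral_det {Ω : Type} [MeasurableSpace Ω] (μ : Measure Ω) [SigmaFinite μ] {n : ℕ}
    (φ ψ : Fin n → Ω → ℝ) (h : ∀ r k, Integrable (fun x => φ r x * ψ k x) μ) :
    ∫ x : Fin n → Ω, (Matrix.of fun r i => φ r (x i)).det * (Matrix.of fun k i => ψ k (x i)).det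
      ∂(Measure.pi fun _ => μ) =
      (n.factorial : ℝ) * (Matrix.of fun r k => ∫ x, φ r x * ψ k x ∂μ).det := by
  have e : ∀ x : Fin n → Ω,
      (Matrix.of fun r i => φ r (x i)).det * (Matrix.of fun k i => ψ k (x i)).det =
      ∑ τ : Equiv.Perm (Fin n), ∑ σ : Equiv.Perm (Fin n),
        (((Equiv.Perm.sign τ : ℤ) : ℝ) * ((Equiv.Perm.sign σ : ℤ) : ℝ)) *
          ∏ i, (φ (σ i) (x i) * ψ (τ i) (x i)) := by
    intro x
    rw [Matrix.det_apply', Matrix.det_apply', mul_comm, Finset.sum_mul_sum]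
    refine Finset.sum_congr rfl fun τ _ => Finset.sum_congr rfl fun σ _ => ?_
    simp only [Matrix.of_apply, Finset.prod_mul_distrib]
    ring
  have hi : ∀ τ σ : Equiv.Perm (Fin n), Integrable (fun x : Fin n → Ω =>
      (((Equiv.Perm.sign τ : ℤ) : ℝ) * ((Equiv.Perm.sign σ : ℤ) : ℝ)) *
        ∏ i, (φ (σ i) (x i) * ψ (τ i) (x i))) (Measure.pi fun _ => μ) := fun τ σ =>
    (Integrable.fintype_prod (f := fun i x => φ (σ i) x * ψ (τ i) x) (μ := fun _ => μ)
      fun i => h _ _).const_mul _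
  simp_rw [e]
  rw [integral_finsetSum _ fun τ _ => integrable_finsetSum _ fun σ _ => hi τ σ]
  have e2 : ∀ τ : Equiv.Perm (Fin n), ∫ x : Fin n → Ω, ∑ σ : Equiv.Perm (Fin n),
      (((Equiv.Perm.sign τ : ℤ) : ℝ) * ((Equiv.Perm.sign σ : ℤ) : ℝ)) *
        ∏ i, (φ (σ i) (x i) * ψ (τ i) (x i)) ∂(Measure.pi fun _ => μ) =
      (Matrix.of fun r k => ∫ x, φ r x * ψ k x ∂μ).det := by
    intro τ
    rw [integral_finsetSum _ fun σ _ => hi τ σ]
    have e3 : ∀ σ : Equiv.Perm (Fin n), ∫ x : Fin n → Ω,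
        (((Equiv.Perm.sign τ : ℤ) : ℝ) * ((Equiv.Perm.sign σ : ℤ) : ℝ)) *
          ∏ i, (φ (σ i) (x i) * ψ (τ i) (x i)) ∂(Measure.pi fun _ => μ) =
        ((Equiv.Perm.sign τ : ℤ) : ℝ) * (((Equiv.Perm.sign σ : ℤ) : ℝ) *
          ∏ i, ((Matrix.of fun r k => ∫ x, φ r x * ψ k x ∂μ).submatrix id τ) (σ i) i) := by
      intro σ
      rw [integral_const_mul, integral_fintype_prod_eq_prod
        (fun i x => φ (σ i) x * ψ (τ i) x) (μ := fun _ => μ), mul_assoc]
      rfl
    simp_rw [e3]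
    rw [← Finset.mul_sum, ← Matrix.det_apply', Matrix.det_permute', ← mul_assoc, ← Int.cast_mul,
      ← Units.val_mul, Int.units_mul_self]
    simp
  simp_rw [e2]
  rw [Finset.sum_const, Finset.card_univ, Fintype.card_perm, Fintype.card_fin, nsmul_eq_mul]

theorem det_bound {Ω : Type} [MeasurableSpace Ω] (μ : Measure Ω) [IsFiniteMeasure μ] {n : ℕ}
    (φ ψ : Fin n → Ω → ℝ) (h : ∀ r k, Integrable (fun x => φ r x * ψ k x) μ) {T : Set Ω}
    (hT : ∀ᵐ x ∂μ, x ∈ T) {c B : ℝ} (hc : 0 ≤ c)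
    (hB : ∀ x : Fin n → Ω, (∀ i, x i ∈ T) →
      c * |(Matrix.of fun r i => φ r (x i)).det| * |(Matrix.of fun k i => ψ k (x i)).det| ≤ B) :
    c * |(Matrix.of fun r k => ∫ x, φ r x * ψ k x ∂μ).det| ≤ μ.real Set.univ ^ n * B := by
  have h1 : ∀ᵐ x ∂(Measure.pi fun _ : Fin n => μ), ∀ i, x i ∈ T :=
    ae_all_iff.2 fun i => Measure.tendsto_eval_ae_ae.eventually hT
  have h2 := norm_integral_le_of_norm_le_const (μ := Measure.pi fun _ : Fin n => μ)
    (f := fun x => c * ((Matrix.of fun r i => φ r (x i)).det *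
      (Matrix.of fun k i => ψ k (x i)).det)) (C := B) (h1.mono fun x hx => by
      rw [Real.norm_eq_abs, abs_mul, abs_mul, abs_of_nonneg hc, ← mul_assoc]
      exact hB x hx)
  have h3 : (Measure.pi fun _ : Fin n => μ).real Set.univ = μ.real Set.univ ^ n := by
    rw [measureReal_def, Measure.pi_univ, Finset.prod_const, Finset.card_univ, Fintype.card_fin,
      ENNReal.toReal_pow, measureReal_def]
  rw [integral_const_mul, integral_det μ φ ψ h, h3, Real.norm_eq_abs, abs_mul, abs_mul,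
    abs_of_nonneg hc, Nat.abs_cast, mul_comm B] at h2
  refine le_trans (mul_le_mul_of_nonneg_left ?_ hc) h2
  have h4 : (1 : ℝ) ≤ n.factorial := by exact_mod_cast n.factorial_pos
  exact le_mul_of_one_le_left (abs_nonneg _) h4

/-- one step of Gaussian elimination -/
theorem det_succ {n : ℕ} (M : Matrix (Fin (n + 1)) (Fin (n + 1)) ℝ) (h : M 0 0 ≠ 0) :
    M.det = M 0 0 *
      (Matrix.of fun i j : Fin n => M i.succ j.succ - M i.succ 0 / M 0 0 * M 0 j.succ).det := by
  let c : Fin (n + 1) → ℝ := Fin.cons 0 fun i => M i.succ 0 / M 0 0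
  have h1 : M.det = (Matrix.of fun i j => M i j - c i * M 0 j).det :=
    Matrix.det_eq_of_forall_row_eq_smul_add_const c 0 rfl fun i j => by simp [c]
  rw [h1, Matrix.det_succ_column_zero, Fin.sum_univ_succ, Finset.sum_eq_zero, add_zero]
  · simp only [Fin.val_zero, pow_zero, one_mul, Matrix.of_apply, c, Fin.cons_zero, zero_mul,
      sub_zero, Fin.succAbove_zero]
    rfl
  · intro i _
    simp [c, h]

theorem entry {p q r t u v : ℝ} (hp : p ≠ 0) (hq : q ≠ 0) (hr : r ≠ 0)
    (h : q * r - p * t = u * v) : p⁻¹ - q⁻¹ / t⁻¹ * r⁻¹ = u * q⁻¹ * (v * r⁻¹ * p⁻¹) := by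
  field_simp
  linear_combination h

theorem cauchy_gen (n : ℕ) (a b s : Fin n → ℝ) (hd : ∀ i j, a i - b i * s j ≠ 0) :
    (Matrix.of fun i j => (a i - b i * s j)⁻¹).det * ∏ i, ∏ j, (a i - b i * s j) =
      ∏ i, ∏ j ∈ Ioi i, ((a i * b j - a j * b i) * (s j - s i)) := by
  induction n with
  | zero => simp
  | succ n ih =>
    have h1 := ih (fun i => a i.succ) (fun i => b i.succ) (fun i => s i.succ) fun i j => hd _ _
    rw [det_succ _ (by simpa using hd 0 0)]
    have e : (Matrix.of fun i j : Fin n =>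
        (Matrix.of fun i j => (a i - b i * s j)⁻¹) i.succ j.succ -
          (Matrix.of fun i j => (a i - b i * s j)⁻¹) i.succ 0 /
            (Matrix.of fun i j => (a i - b i * s j)⁻¹) 0 0 *
            (Matrix.of fun i j => (a i - b i * s j)⁻¹) 0 j.succ) =
        Matrix.of fun i j : Fin n =>
          ((a 0 * b i.succ - a i.succ * b 0) * (a i.succ - b i.succ * s 0)⁻¹) *
          (Matrix.of fun i j : Fin n => ((s j.succ - s 0) * (a 0 - b 0 * s j.succ)⁻¹) *
            (Matrix.of fun i j : Fin n => (a i.succ - b i.succ * s j.succ)⁻¹) i j) i j := by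
      ext i j
      simp only [Matrix.of_apply]
      exact entry (hd _ _) (hd _ _) (hd _ _) (by ring)
    rw [e, Matrix.det_mul_column, Matrix.det_mul_row]
    simp only [Fin.prod_univ_succ, Fin.prod_Ioi_zero, Fin.prod_Ioi_succ, Matrix.of_apply]
    rw [← h1]
    simp only [Finset.prod_mul_distrib, Finset.prod_inv_distrib]
    have h2 : ∏ i : Fin n, (a i.succ - b i.succ * s 0) ≠ 0 :=
      Finset.prod_ne_zero_iff.2 fun i _ => hd _ _
    have h3 : ∏ j : Fin n, (a 0 - b 0 * s j.succ) ≠ 0 :=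
      Finset.prod_ne_zero_iff.2 fun i _ => hd _ _
    have h4 := hd 0 0
    generalize ∏ i : Fin n, (a i.succ - b i.succ * s 0) = p at h2 ⊢
    generalize ∏ j : Fin n, (a 0 - b 0 * s j.succ) = q at h3 ⊢
    generalize a 0 - b 0 * s 0 = r at h4 ⊢
    generalize (Matrix.of fun i j : Fin n => (a i.succ - b i.succ * s j.succ)⁻¹).det = t
    generalize ∏ i : Fin n, (a 0 * b i.succ - a i.succ * b 0) = u
    field_simp

end Andreief

open Andreief

theorem andreief : AndreiefStmt := by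
  intro n F Q K B h1 h2 h3
  have hI : ∀ a b : ℝ, IsFiniteMeasure (volume.restrict (Set.Ioo a b)) := fun a b =>
    isFiniteMeasure_restrict.2 (by simp)
  have h := det_bound (volume.restrict (Set.Ioo (-1 : ℝ) 1)) F
    (fun k x => ∫ s in Set.Ioo (0 : ℝ) 1, K x s * Q k s) h1 (T := Set.Ioo (-1) 1)
    (ae_restrict_mem measurableSet_Ioo) (c := 1) (B := B) zero_le_one fun x hx => by
      have h4 := det_bound (volume.restrict (Set.Ioo (0 : ℝ) 1)) (fun i s => K (x i) s) Q
        (fun i k => h2 (x i) (hx i) k) (T := Set.Ioo 0 1) (ae_restrict_mem measurableSet_Ioo)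
        (abs_nonneg (Matrix.of fun r i => F r (x i)).det) (B := B) fun s hs => h3 x s hx hs
      rw [one_mul, ← Matrix.det_transpose (Matrix.of fun k i => ∫ s in Set.Ioo (0 : ℝ) 1,
        K (x i) s * Q k s)]
      have e : (volume.restrict (Set.Ioo (0 : ℝ) 1)).real Set.univ = 1 := by
        simp [measureReal_def]
      rw [e, one_pow, one_mul] at h4
      exact h4
  have e : (volume.restrict (Set.Ioo (-1 : ℝ) 1)).real Set.univ = 2 := by
    simp [measureReal_def]
    norm_num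
  rwa [one_mul, e] at h

theorem cauchy : CauchyStmt := by
  intro n x s hx hs
  have hd : ∀ i j, 0 < 1 + x i ^ 2 - 2 * x i * s j := fun i j => by
    have h1 := (hs j).1
    have h2 := (hs j).2
    nlinarith [sq_nonneg (x i - s j)]
  have h := cauchy_gen n (fun i => 1 + x i ^ 2) (fun i => 2 * x i) s fun i j => (hd i j).ne'
  have hp : 0 < ∏ i, ∏ j, (1 + x i ^ 2 - 2 * x i * s j) :=
    Finset.prod_pos fun i _ => Finset.prod_pos fun j _ => hd i j
  have e : (Matrix.of fun i j => ker (x i) (s j)) =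
      (2 : ℝ) • Matrix.of fun i j => (1 + x i ^ 2 - 2 * x i * s j)⁻¹ := by
    ext i j
    simp [ker, div_eq_mul_inv]
  rw [e, Matrix.det_smul, Fintype.card_fin, eq_div_iff hp.ne', abs_mul,
    abs_of_pos (by positivity : (0 : ℝ) < 2 ^ n), mul_assoc, ← abs_of_pos hp, ← abs_mul, h,
    mul_assoc, mul_assoc, vand, vand, Finset.abs_prod, ← Finset.prod_mul_distrib,
    ← Finset.prod_mul_distrib]
  congr 1
  refine Finset.prod_congr rfl fun i _ => ?_
  rw [Finset.abs_prod, ← Finset.prod_mul_distrib, ← Finset.prod_mul_distrib]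
  refine Finset.prod_congr rfl fun j _ => ?_
  have h1 : 0 < 1 - x i * x j := by
    have := abs_lt.2 (hx i)
    have := abs_lt.2 (hx j)
    have h2 : |x i * x j| < 1 := by
      rw [abs_mul]
      exact mul_lt_one_of_nonneg_of_lt_one_left (abs_nonneg _) ‹_› (le_of_lt ‹_›)
    linarith [(abs_lt.1 h2).2]
  have e2 : ((1 + x i ^ 2) * (2 * x j) - (1 + x j ^ 2) * (2 * x i)) * (s j - s i) =
      (2 * (1 - x i * x j)) * ((x i - x j) * (s i - s j)) := by ring
  rw [e2, abs_mul, abs_mul, abs_mul, abs_of_pos h1, abs_two]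

end Crest.Agent.R6
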