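import Crest.Agent.R6.ArithSmall

/-! Row 6: the sum over primes and the product formula. -/

set_option autoImplicit false

namespace Crest.Agent.R6
namespace Arith

open Finset Filter Topology Asymptotics

theorem eodd_le (N p : ℕ) :
    2 * eodd N p + 2 * (51 * N - 2 * p) + 2 * (49 * N - 2 * p) + 2 * (37 * N - 2 * p) ≤
      (98 * N - 2 * p) + (88 * N - 2 * p) + (86 * N - 2 * p) + (60 * N - 2 * p) +
        2 * (43 * N - 2 * p) := by
  unfold eodd r12 r2 k1 k2
  split_ifs <;> omega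

theorem eodd_zero {N p : ℕ} (hp : 0 < p) (h : 49 * N ≤ p) : eodd N p = 0 := by
  unfold eodd r12 r2 k1 k2
  split_ifs <;> omega

/-- `∑_{t<Y} θ(t/2)`. -/
noncomputable def GG (Y : ℕ) : ℝ := ∑ t ∈ range Y, Chebyshev.theta (t / 2)

theorem GG_eq (M Y : ℕ) (h : Y ≤ 2 * M) :
    ∑ p ∈ (range M).filter Nat.Prime, ((Y - 2 * p : ℕ) : ℝ) * Real.log p = GG Y := by
  induction Y with
  | zero => simp [GG]
  | succ Y ih =>
    rw [GG, sum_range_succ, ← GG, ← ih (by omega), Chebyshev.theta, Nat.floor_div_ofNat,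
      Nat.floor_natCast]
    have e : (Ioc 0 (Y / 2)).filter Nat.Prime =
        ((range M).filter Nat.Prime).filter fun p => 2 * p ≤ Y := by
      ext p
      simp only [mem_filter, mem_Ioc, mem_range]
      constructor
      · rintro ⟨⟨h1, h2⟩, h3⟩; exact ⟨⟨by omega, h3⟩, by omega⟩
      · rintro ⟨⟨h1, h2⟩, h3⟩; exact ⟨⟨h2.pos, by omega⟩, h2⟩
    rw [e, sum_filter (fun p => 2 * p ≤ Y), ← sum_add_distrib]
    refine sum_congr rfl fun p _ => ?_
    split_ifs with hp
    · rw [show Y + 1 - 2 * p = Y - 2 * p + 1 by omega]; push_cast; ring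
    · rw [show Y + 1 - 2 * p = Y - 2 * p by omega, add_zero]

theorem sum_range_cast (Y : ℕ) : ∑ t ∈ range Y, (t : ℝ) = ((Y : ℝ) ^ 2 - Y) / 2 := by
  induction Y with
  | zero => simp
  | succ Y ih => rw [sum_range_succ, ih]; push_cast; ring

theorem GG_approx (h : PNTStmt) {ε : ℝ} (hε : 0 < ε) :
    ∀ᶠ Y : ℕ in atTop, |GG Y - (Y : ℝ) ^ 2 / 4| ≤ ε * (Y : ℝ) ^ 2 := by
  have h1 : (fun t : ℕ => Chebyshev.theta (t / 2) - (t : ℝ) / 2) =o[atTop] fun t : ℕ => (t : ℝ) := by
    have h2 : Tendsto (fun t : ℕ => (t : ℝ) / 2) atTop atTop :=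
      tendsto_natCast_atTop_atTop.atTop_div_const (by norm_num)
    have h3 := ((h.comp h2).sub_const 1).div_const 2
    rw [sub_self, zero_div] at h3
    refine (isLittleO_iff_tendsto' ?_).2 (h3.congr' ?_)
    · filter_upwards [eventually_gt_atTop 0] with t ht h0
      exact absurd h0 (by positivity)
    · filter_upwards [eventually_gt_atTop 0] with t ht
      have : (t : ℝ) ≠ 0 := by positivity
      simp only [Function.comp]
      field_simp
  have h2 : Tendsto (fun Y : ℕ => ∑ t ∈ range Y, (t : ℝ)) atTop atTop := by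
    refine tendsto_atTop_mono' atTop ?_ tendsto_natCast_atTop_atTop
    filter_upwards [eventually_ge_atTop 3] with Y hY
    have : (3 : ℝ) ≤ Y := by exact_mod_cast hY
    rw [sum_range_cast]
    nlinarith
  have h3 := (h1.sum_range (fun _ => by positivity) h2).bound hε
  have h4 : ∀ᶠ Y : ℕ in atTop, 1 / ε ≤ (Y : ℝ) :=
    tendsto_natCast_atTop_atTop.eventually_ge_atTop _
  filter_upwards [h3, h4] with Y hY hY'
  rw [sum_sub_distrib, ← sum_div, sum_range_cast, ← GG, Real.norm_eq_abs, Real.norm_eq_abs] at hY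
  have hY0 : (0 : ℝ) ≤ Y := by positivity
  have h5 : |((Y : ℝ) ^ 2 - Y) / 2| ≤ (Y : ℝ) ^ 2 / 2 := by
    rw [← sum_range_cast, abs_of_nonneg (by positivity), sum_range_cast]
    linarith
  have h6 : (Y : ℝ) ≤ ε * (Y : ℝ) ^ 2 := by
    rw [div_le_iff₀ hε] at hY'
    nlinarith
  have h7 := mul_le_mul_of_nonneg_left h5 hε.le
  rw [abs_le] at hY ⊢
  constructor <;> linarith [hY.1, hY.2]

theorem GG_mul (h : PNTStmt) {ε : ℝ} (hε : 0 < ε) (b : ℕ) (hb : 0 < b) (hb' : b ≤ 98) :
    ∀ᶠ N : ℕ in atTop, |∑ p ∈ (range (49 * N)).filter Nat.Prime,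
      ((b * N - 2 * p : ℕ) : ℝ) * Real.log p - (b : ℝ) ^ 2 / 4 * (N : ℝ) ^ 2| ≤ ε * (N : ℝ) ^ 2 := by
  have h1 : Tendsto (fun N : ℕ => b * N) atTop atTop := tendsto_id.const_mul_atTop' hb
  filter_upwards [h1.eventually (GG_approx h (ε := ε / b ^ 2) (by positivity))] with N hN
  rw [GG_eq _ _ (by nlinarith)]
  push_cast at hN
  convert hN using 1
  · congr 1; ring
  · field_simp

theorem log_den_le {q : ℚ} {p : ℕ} [hp : Fact p.Prime] (h : p ∣ q.den) {B : ℝ}
    (hB : ‖(q : ℚ_[p])‖ ≤ B) : (q.den.factorization p : ℝ) * Real.log p ≤ Real.log B := by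
  have hq : q ≠ 0 := by
    rintro rfl
    exact hp.out.one_lt.ne' (Nat.dvd_one.1 h)
  have h1 : padicValInt p q.num = 0 := by
    refine padicValInt.eq_zero_of_not_dvd fun h' => hp.out.one_lt.ne' ?_
    exact Nat.eq_one_of_dvd_coprimes q.reduced (Int.natCast_dvd.1 h') h
  rw [Padic.norm_eq_zpow_neg_valuation (by exact_mod_cast hq), Padic.valuation_ratCast,
    padicValRat_def, h1] at hB
  simp only [Nat.cast_zero, zero_sub, neg_neg, zpow_natCast] at hB
  rw [Nat.factorization_def _ hp.out, ← Real.log_pow]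
  exact Real.log_le_log (pow_pos (by exact_mod_cast hp.out.pos) _) hB

theorem small_bound (D : ℝ) (hD : 1 ≤ D) {ε : ℝ} (hε : 0 < ε) : ∀ᶠ N : ℕ in atTop,
    ((Nat.sqrt (100 * N) + 1 : ℕ) : ℝ) * Real.log (((50 * N : ℝ) ^ 4 * D) ^ (36 * N)) ≤
      ε * (N : ℝ) ^ 2 := by
  set C : ℝ := 4 * Real.log 50 + Real.log D with hC
  have hC0 : 0 ≤ C := add_nonneg (mul_nonneg (by norm_num) (Real.log_nonneg (by norm_num)))
    (Real.log_nonneg hD)
  have h1 : Tendsto (fun N : ℕ => √(√(N : ℝ))) atTop atTop :=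
    Real.tendsto_sqrt_atTop.comp (Real.tendsto_sqrt_atTop.comp tendsto_natCast_atTop_atTop)
  filter_upwards [h1.eventually_ge_atTop 1, h1.eventually_ge_atTop (396 * (C + 16) / ε)]
    with N hs1 hs2
  set s := √(√(N : ℝ)) with hs
  have hs0 : 0 < s := by linarith
  have e1 : s ^ 2 = √(N : ℝ) := Real.sq_sqrt (Real.sqrt_nonneg _)
  have e2 : (N : ℝ) = s ^ 4 := by
    rw [show s ^ 4 = (s ^ 2) ^ 2 by ring, e1, Real.sq_sqrt (by positivity)]
  have h2 : ((Nat.sqrt (100 * N) + 1 : ℕ) : ℝ) ≤ 11 * s ^ 2 := by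
    have h3 : ((Nat.sqrt (100 * N) : ℕ) : ℝ) ^ 2 ≤ (10 * s ^ 2) ^ 2 := by
      have : ((Nat.sqrt (100 * N) : ℕ) : ℝ) ^ 2 ≤ 100 * N := by
        exact_mod_cast Nat.sqrt_le' (100 * N)
      rw [e2] at this
      linarith
    have h5 := abs_le_of_sq_le_sq' h3 (by positivity)
    push_cast
    nlinarith [h5.2]
  have h3 : Real.log (((50 * N : ℝ) ^ 4 * D) ^ (36 * N)) ≤ 36 * s ^ 4 * ((C + 16) * s) := by
    have hN0 : (0 : ℝ) < N := by rw [e2]; positivity
    rw [Real.log_pow, Real.log_mul (by positivity) (by positivity), Real.log_pow,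
      Real.log_mul (by norm_num) hN0.ne']
    push_cast
    rw [← e2]
    refine mul_le_mul_of_nonneg_left ?_ (by positivity)
    have h4 : Real.log N = 4 * Real.log s := by rw [e2, Real.log_pow]; norm_num
    have h5 := Real.log_le_sub_one_of_pos hs0
    nlinarith
  have h4 : 0 ≤ Real.log (((50 * N : ℝ) ^ 4 * D) ^ (36 * N)) := by
    have hN1 : (1 : ℝ) ≤ N := by rw [e2]; exact one_le_pow₀ hs1
    exact Real.log_nonneg (one_le_pow₀
      (one_le_mul_of_one_le_of_one_le (one_le_pow₀ (by linarith)) hD))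
  refine (mul_le_mul h2 h3 h4 (by positivity)).trans ?_
  rw [e2]
  rw [div_le_iff₀ hε] at hs2
  have h5 := mul_le_mul_of_nonneg_left hs2 (pow_pos hs0 7).le
  nlinarith

end Arith

open Arith Finset Filter

theorem primeSum : PNTStmt → PrimeSumStmt := by
  intro h ε hε
  have hε' : 0 < ε / 10 := by positivity
  filter_upwards [GG_mul h hε' 98 (by norm_num) (by norm_num), GG_mul h hε' 88 (by norm_num) (by norm_num),
    GG_mul h hε' 86 (by norm_num) (by norm_num), GG_mul h hε' 60 (by norm_num) (by norm_num),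
    GG_mul h hε' 51 (by norm_num) (by norm_num), GG_mul h hε' 49 (by norm_num) (by norm_num),
    GG_mul h hε' 43 (by norm_num) (by norm_num), GG_mul h hε' 37 (by norm_num) (by norm_num)]
    with N h1 h2 h3 h4 h5 h6 h7 h8
  have key : ∑ p ∈ (range (49 * N)).filter Nat.Prime,
      ((2 * eodd N p + 2 * (51 * N - 2 * p) + 2 * (49 * N - 2 * p) + 2 * (37 * N - 2 * p) : ℕ) : ℝ)
        * Real.log p ≤ ∑ p ∈ (range (49 * N)).filter Nat.Prime,
      (((98 * N - 2 * p) + (88 * N - 2 * p) + (86 * N - 2 * p) + (60 * N - 2 * p) +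
        2 * (43 * N - 2 * p) : ℕ) : ℝ) * Real.log p :=
    sum_le_sum fun p _ => mul_le_mul_of_nonneg_right (Nat.cast_le.2 (eodd_le N p))
      (Real.log_natCast_nonneg p)
  simp only [Nat.cast_add, Nat.cast_mul 2 (eodd N _), Nat.cast_mul 2 (_ - _), Nat.cast_ofNat,
    add_mul, mul_assoc, sum_add_distrib, ← mul_sum] at key
  rw [abs_le] at h1 h2 h3 h4 h5 h6 h7 h8
  have h0 : 0 ≤ ε * (N : ℝ) ^ 2 := by positivity
  push_cast at h1 h2 h3 h4 h5 h6 h7 h8
  nlinarith [h1.2, h2.2, h3.2, h4.2, h5.1, h6.1, h7.2, h8.1]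

theorem arith : TwoStmt → OddBigStmt → OddSmallStmt → PrimeSumStmt → ArithStmt := by
  intro h2 hbig hsmall hsum x
  have hD : (1 : ℝ) ≤ x.den := by exact_mod_cast x.pos
  filter_upwards [h2 x (1 / 10) (by norm_num), hsum (1 / 10) (by norm_num),
    small_bound x.den hD (ε := 1 / 10) (by norm_num), eventually_ge_atTop 10,
    eventually_ge_atTop (x.den ^ 2)] with N H2 Hs Hm hN hN' hq
  set q := (mat x N).det with hqd
  set b2 : ℝ := (529 / 4 * Real.log 2 + 1 / 10) * (N : ℝ) ^ 2 with hb2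
  set B : ℝ := Real.log (((50 * N : ℝ) ^ 4 * x.den) ^ (36 * N)) with hB
  have hN1 : (1 : ℝ) ≤ N := by exact_mod_cast (by omega : 1 ≤ N)
  have hl2 : 0 < Real.log 2 := Real.log_pos (by norm_num)
  have hb20 : 0 ≤ b2 := by positivity
  have hB0 : 0 ≤ B := Real.log_nonneg (one_le_pow₀
    (one_le_mul_of_one_le_of_one_le (one_le_pow₀ (by linarith)) hD))
  have h1 : Real.log q.den ≤ ∑ p ∈ q.den.primeFactors, ((if p = 2 then b2 else 0) +
      (if p < Nat.sqrt (100 * N) + 1 then B else 0) +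
      (if p < 49 * N then (eodd N p : ℝ) * Real.log p else 0)) := by
    rw [Real.log_nat_eq_sum_factorization, Finsupp.sum, Nat.support_factorization]
    refine sum_le_sum fun p hp => ?_
    have hpp := Nat.prime_of_mem_primeFactors hp
    have hpd := Nat.dvd_of_mem_primeFactors hp
    have := Fact.mk hpp
    have t1 : 0 ≤ (if p = 2 then b2 else 0) := by split_ifs <;> [exact hb20; exact le_rfl]
    have t2 : 0 ≤ (if p < Nat.sqrt (100 * N) + 1 then B else 0) := by
      split_ifs <;> [exact hB0; exact le_rfl]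
    have t3 : 0 ≤ (if p < 49 * N then (eodd N p : ℝ) * Real.log p else 0) := by
      split_ifs
      · exact mul_nonneg (by positivity) (Real.log_natCast_nonneg p)
      · exact le_rfl
    by_cases hp2 : p = 2
    · subst hp2
      have := log_den_le hpd H2
      rw [Real.log_exp] at this
      rw [if_pos rfl]
      linarith
    by_cases hps : p < Nat.sqrt (100 * N) + 1
    · have := log_den_le hpd (hsmall x N p (by omega) hp2)
      rw [if_pos hps]
      linarith
    · have hp3 : 100 * N < p ^ 2 := Nat.sqrt_lt'.1 (by omega)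
      have hp4 : ¬ p ∣ x.den := fun h => by
        have h5 := Nat.pow_le_pow_left (Nat.le_of_dvd x.pos h) 2
        omega
      have := log_den_le hpd (hbig x N p hN hp3 hp4)
      rw [Real.log_pow] at this
      split_ifs with h49
      · linarith
      · rw [eodd_zero hpp.pos (by omega)] at this
        simpa using this
  rw [sum_add_distrib, sum_add_distrib] at h1
  have s1 : ∑ p ∈ q.den.primeFactors, (if p = 2 then b2 else 0) ≤ b2 := by
    rw [sum_ite_eq']
    split_ifs <;> [exact le_rfl; exact hb20]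
  have s2 : ∑ p ∈ q.den.primeFactors, (if p < Nat.sqrt (100 * N) + 1 then B else 0) ≤
      ((Nat.sqrt (100 * N) + 1 : ℕ) : ℝ) * B := by
    rw [← sum_filter, sum_const, nsmul_eq_mul]
    refine mul_le_mul_of_nonneg_right (Nat.cast_le.2 ?_) hB0
    refine (card_le_card (t := range (Nat.sqrt (100 * N) + 1)) fun p hp => ?_).trans (by simp)
    exact mem_range.2 (mem_filter.1 hp).2
  have s3 : ∑ p ∈ q.den.primeFactors, (if p < 49 * N then (eodd N p : ℝ) * Real.log p else 0) ≤
      ∑ p ∈ (range (49 * N)).filter Nat.Prime, (eodd N p : ℝ) * Real.log p := by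
    rw [← sum_filter]
    refine sum_le_sum_of_subset_of_nonneg (fun p hp => ?_) fun p _ _ =>
      mul_nonneg (by positivity) (Real.log_natCast_nonneg p)
    exact mem_filter.2 ⟨mem_range.2 (mem_filter.1 hp).2,
      Nat.prime_of_mem_primeFactors (mem_filter.1 hp).1⟩
  have h3 : Real.log q.den ≤ 25045 / 10 * (N : ℝ) ^ 2 := by
    have h4 := Real.log_two_lt_d9
    have h5 : b2 ≤ 918 / 10 * (N : ℝ) ^ 2 :=
      mul_le_mul_of_nonneg_right (by linarith) (by positivity)
    linarith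
  have hden : (0 : ℝ) < q.den := by exact_mod_cast q.pos
  have h4 : 1 / (q.den : ℝ) ≤ |(q : ℝ)| := by
    rw [Rat.cast_def, abs_div, abs_of_pos hden]
    refine div_le_div_of_nonneg_right ?_ hden.le
    exact_mod_cast Int.one_le_abs (Rat.num_ne_zero.2 hq)
  refine le_trans ?_ h4
  rw [one_div, ← Real.exp_log hden, ← Real.exp_neg, Real.exp_le_exp]
  linarith

end Crest.Agent.R6
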