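import Crest.Agent.R6.Defs

/-! Row 6: the trivial `p`-adic bound for small odd primes. -/

set_option autoImplicit false

namespace Crest.Agent.R6
namespace Arith

open Polynomial Finset

variable {p : ℕ} [hp : Fact p.Prime]

/-- the `p`-adic norm of a rational number. -/
noncomputable def nv (p : ℕ) [Fact p.Prime] (q : ℚ) : ℝ := ‖(q : ℚ_[p])‖

theorem nv_nonneg (q : ℚ) : 0 ≤ nv p q := norm_nonneg _

theorem nv_zero : nv p 0 = 0 := by simp [nv]

theorem nv_mul (a b : ℚ) : nv p (a * b) = nv p a * nv p b := by simp [nv]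

theorem nv_mul_le {a b : ℚ} {A B : ℝ} (ha : nv p a ≤ A) (hb : nv p b ≤ B) :
    nv p (a * b) ≤ A * B := by
  rw [nv_mul]
  exact mul_le_mul ha hb (nv_nonneg _) ((nv_nonneg _).trans ha)

theorem nv_add_le {a b : ℚ} {A : ℝ} (ha : nv p a ≤ A) (hb : nv p b ≤ A) : nv p (a + b) ≤ A := by
  unfold nv at *
  push_cast
  exact (Padic.nonarchimedean _ _).trans (max_le ha hb)

theorem nv_neg (a : ℚ) : nv p (-a) = nv p a := by simp [nv]

theorem nv_sub_le {a b : ℚ} {A : ℝ} (ha : nv p a ≤ A) (hb : nv p b ≤ A) : nv p (a - b) ≤ A := by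
  rw [sub_eq_add_neg]
  exact nv_add_le ha (by rwa [nv_neg])

theorem nv_sum_le {ι : Type} {s : Finset ι} {f : ι → ℚ} {A : ℝ} (hA : 0 ≤ A)
    (h : ∀ i ∈ s, nv p (f i) ≤ A) : nv p (∑ i ∈ s, f i) ≤ A := by
  unfold nv at *
  push_cast
  exact IsUltrametricDist.norm_sum_le_of_forall_le_of_nonneg hA h

theorem nv_int (z : ℤ) : nv p z ≤ 1 := by
  unfold nv
  push_cast
  exact Padic.norm_int_le_one z

theorem nv_nat (z : ℕ) : nv p z ≤ 1 := by simpa using nv_int (p := p) z

theorem nv_inv_nat {k : ℕ} (hk : k ≠ 0) : nv p (k : ℚ)⁻¹ = (p : ℝ) ^ padicValNat p k := by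
  unfold nv
  push_cast
  rw [Padic.norm_eq_zpow_neg_valuation (inv_ne_zero (Nat.cast_ne_zero.2 hk)), Padic.valuation_inv,
    Padic.valuation_natCast, neg_neg, zpow_natCast]

theorem nv_inv_nat_le (k : ℕ) : nv p (k : ℚ)⁻¹ ≤ k := by
  rcases eq_or_ne k 0 with rfl | hk
  · simp [nv_zero]
  · rw [nv_inv_nat hk]
    exact_mod_cast Nat.le_of_dvd (Nat.pos_of_ne_zero hk) pow_padicValNat_dvd

theorem nv_inv_four_pow (h2 : p ≠ 2) (a : ℕ) : nv p ((4 ^ a : ℕ) : ℚ)⁻¹ = 1 := by
  rw [nv_inv_nat (by positivity), padicValNat.eq_zero_of_not_dvd, pow_zero]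
  intro h
  have h4 := hp.out.dvd_of_dvd_pow h
  have := (Nat.prime_dvd_prime_iff_eq hp.out Nat.prime_two).1
    (hp.out.dvd_of_dvd_pow (n := 2) (m := 2) h4)
  exact h2 this

theorem nv_le_den (x : ℚ) : nv p x ≤ x.den := by
  have := nv_mul_le (nv_int (p := p) x.num) (nv_inv_nat_le (p := p) x.den)
  rwa [← div_eq_mul_inv, Rat.num_div_den, one_mul] at this

theorem be_even (a : ℕ) : be (2 * a) = (a.centralBinom : ℚ) * ((4 ^ a : ℕ) : ℚ)⁻¹ := by
  induction a with
  | zero => simp
  | succ a ih =>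
    have h : ((a + 1 : ℕ) : ℚ) * (a + 1).centralBinom = 2 * (2 * a + 1) * a.centralBinom := by
      exact_mod_cast Nat.succ_mul_centralBinom_succ a
    have h' : ((a + 1).centralBinom : ℚ) = 2 * (2 * a + 1) * a.centralBinom / (a + 1) := by
      rw [eq_div_iff (by positivity), ← h]; push_cast; ring
    rw [show 2 * (a + 1) = 2 * a + 2 by ring, be_add_two, ih, h']
    push_cast
    field_simp
    ring

theorem be_mul_succ (k : ℕ) : be k * be (k + 1) * (k + 1) = 1 := by
  induction k with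
  | zero => simp
  | succ k ih =>
    rw [be_add_two]
    push_cast
    have h : (k : ℚ) + 2 ≠ 0 := by positivity
    calc be (k + 1) * (be k * (k + 1) / (k + 2)) * (k + 1 + 1)
        = be k * be (k + 1) * (k + 1) := by field_simp; ring
      _ = 1 := ih

theorem be_odd (a : ℕ) : be (2 * a + 1) =
    ((4 ^ a : ℕ) : ℚ) * (((2 * a + 1 : ℕ) : ℚ)⁻¹ * (a.centralBinom : ℚ)⁻¹) := by
  have h := be_mul_succ (2 * a)
  rw [be_even] at h
  have h0 : (a.centralBinom : ℚ) ≠ 0 := by exact_mod_cast a.centralBinom_ne_zero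
  push_cast at h ⊢
  field_simp at h ⊢
  linarith

theorem nv_be_even (h2 : p ≠ 2) {k : ℕ} (hk : k % 2 = 0) : nv p (be k) ≤ 1 := by
  obtain ⟨a, rfl⟩ : ∃ a, k = 2 * a := ⟨k / 2, by omega⟩
  rw [be_even, nv_mul, nv_inv_four_pow h2, mul_one]
  exact nv_nat _

theorem nv_be_le (h2 : p ≠ 2) {k : ℕ} {T : ℝ} (hT : 1 ≤ T) (hk : (k : ℝ) ≤ T) :
    nv p (be k) ≤ T ^ 2 := by
  rcases Nat.mod_two_eq_zero_or_one k with h | h
  · exact (nv_be_even h2 h).trans (one_le_pow₀ hT)
  · obtain ⟨a, rfl⟩ : ∃ a, k = 2 * a + 1 := ⟨k / 2, by omega⟩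
    have h1 : nv p (a.centralBinom : ℚ)⁻¹ ≤ T := by
      rw [nv_inv_nat a.centralBinom_ne_zero]
      rcases Nat.eq_zero_or_pos a with rfl | ha
      · simpa using hT
      · have := Nat.pow_factorization_choose_le (p := p) (n := 2 * a) (k := a) (by omega)
        rw [Nat.factorization_def _ hp.out, ← Nat.centralBinom_eq_two_mul_choose] at this
        refine le_trans ?_ hk
        exact_mod_cast this.trans (Nat.le_succ _)
    have := nv_mul_le (nv_nat (p := p) (4 ^ a))
      (nv_mul_le ((nv_inv_nat_le (p := p) (2 * a + 1)).trans hk) h1)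
    rwa [← be_odd, one_mul, ← sq] at this

theorem nv_al_le (h2 : p ≠ 2) {k : ℕ} {T : ℝ} (hT : 1 ≤ T) (hk : (k : ℝ) + 1 ≤ T) :
    nv p (al k) ≤ T ^ 2 := by
  unfold al
  split_ifs
  · exact nv_be_le h2 hT (by exact_mod_cast hk)
  · rw [nv_zero]; positivity

theorem nv_inv_succ {k : ℕ} {T : ℝ} (hk : (k : ℝ) + 1 ≤ T) : nv p ((k : ℚ) + 1)⁻¹ ≤ T := by
  have := nv_inv_nat_le (p := p) (k + 1)
  push_cast at this
  exact this.trans hk

theorem nv_tA (h2 : p ≠ 2) {T : ℝ} (hT : 1 ≤ T) (i j : ℕ) (hi : (i : ℝ) ≤ T) (hj : (j : ℝ) ≤ T) :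
    nv p (tA i j) ≤ T ^ 4 := by
  have hT0 : 0 ≤ T := by linarith
  have h34 : T ^ 2 * T ≤ T ^ 4 := by
    rw [← pow_succ]; exact pow_le_pow_right₀ hT (by norm_num)
  induction j generalizing i with
  | zero =>
    rw [tA_zero_right, colA]
    split_ifs with h
    · have := nv_mul_le (nv_be_even h2 h) (nv_sum_le (p := p) (s := range i)
        (f := fun n => al n ^ 2) (A := T ^ 4) (by positivity) fun n hn => by
          have h1 : (n : ℝ) + 1 ≤ T := le_trans (by exact_mod_cast mem_range.1 hn) hi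
          have := nv_mul_le (nv_al_le h2 hT h1) (nv_al_le h2 hT h1)
          rwa [← sq, ← pow_add] at this)
      rwa [one_mul] at this
    · refine (nv_mul_le (nv_be_le h2 hT hi) (nv_sum_le hT0 fun k hk => ?_)).trans h34
      split_ifs
      · rw [one_div]
        exact (nv_inv_nat_le k).trans
          (le_trans (by exact_mod_cast Nat.lt_succ_iff.1 (mem_range.1 hk)) hi)
      · rw [nv_zero]; exact hT0
  | succ j ih =>
    push_cast at hj
    have hj' : (j : ℝ) ≤ T := by linarith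
    cases i with
    | zero =>
      rw [tA_zero_succ, rowA]
      have hk' : ∀ k ∈ range j, (k : ℝ) + 1 ≤ T := fun k hk =>
        le_trans (by exact_mod_cast mem_range.1 hk) hj'
      rcases Nat.mod_two_eq_zero_or_one j with h | h
      · have := nv_mul_le (nv_be_even h2 h) (nv_sum_le (p := p) (s := range j)
          (f := fun k => if (k + 1) % 2 = j % 2 then be k / (k + 1) else 0) (A := T ^ 4)
          (by positivity) fun k hk => by
            split_ifs
            · rw [div_eq_mul_inv]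
              exact (nv_mul_le (nv_be_le h2 hT (by linarith [hk' k hk]))
                (nv_inv_succ (hk' k hk))).trans h34
            · rw [nv_zero]; positivity)
        rwa [one_mul] at this
      · refine (nv_mul_le (nv_be_le h2 hT hj') (nv_sum_le hT0 fun k hk => ?_)).trans h34
        split_ifs with h'
        · rw [div_eq_mul_inv]
          have := nv_mul_le (nv_be_even h2 (k := k) (by omega)) (nv_inv_succ (p := p) (hk' k hk))
          rwa [one_mul] at this
        · rw [nv_zero]; exact hT0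
    | succ i =>
      push_cast at hi
      rw [tA_succ_succ]
      refine nv_sub_le (ih i (by linarith) hj') ?_
      rw [div_eq_mul_inv]
      exact (nv_mul_le (nv_al_le h2 hT hi) (nv_inv_succ hj)).trans h34

theorem nv_harm {T : ℝ} (hT : 1 ≤ T) (l : ℕ) (hl : (l : ℝ) ≤ T) :
    nv p (harmonic l / l) ≤ T ^ 4 := by
  rw [div_eq_mul_inv, harmonic]
  refine (nv_mul_le (nv_sum_le (A := T) (by linarith) fun k hk => ?_)
    ((nv_inv_nat_le l).trans hl)).trans ?_
  · exact (nv_inv_nat_le (k + 1)).trans (le_trans (by exact_mod_cast mem_range.1 hk) hl)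
  · rw [← sq]; exact pow_le_pow_right₀ hT (by norm_num)

theorem nv_tZ {T : ℝ} (hT : 1 ≤ T) (l j : ℕ) (hl : (l : ℝ) ≤ T) (hj : (j : ℝ) ≤ T) :
    nv p (tZ l j) ≤ T ^ 4 := by
  induction j generalizing l with
  | zero => rw [tZ_zero_right]; exact nv_harm hT l hl
  | succ j ih =>
    cases l with
    | zero =>
      rw [tZ_zero_succ]
      have := nv_harm (p := p) hT (j + 1) hj
      push_cast at this
      exact this
    | succ l =>
      push_cast at hl hj
      rw [tZ_succ_succ]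
      refine nv_sub_le (ih l (by linarith) (by linarith)) ?_
      rw [one_div, mul_inv]
      refine (nv_mul_le (nv_inv_succ hl) (nv_inv_succ hj)).trans ?_
      rw [← sq]; exact pow_le_pow_right₀ hT (by norm_num)

theorem nv_tG (h2 : p ≠ 2) (i j : ℕ) : nv p (tG i j) ≤ 1 := by
  unfold tG
  split_ifs with h
  · have := nv_mul_le (nv_nat (p := p) 2) (nv_be_even h2 h.2)
    rw [one_mul] at this
    exact_mod_cast this
  · rw [nv_zero]; exact zero_le_one

theorem nv_lin {a : ℕ → ℚ} {P : ℤ[X]} {A : ℝ} (hA : 0 ≤ A)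
    (h : ∀ i, i ≤ P.natDegree → nv p (a i) ≤ A) : nv p (lin a P) ≤ A := by
  rw [lin_eq_range a P (Nat.lt_succ_self _)]
  refine nv_sum_le hA fun i hi => ?_
  have := nv_mul_le (nv_int (p := p) (P.coeff i)) (h i (Nat.lt_succ_iff.1 (mem_range.1 hi)))
  rwa [one_mul] at this

theorem deg_pd (u : ℕ) : (pp u).natDegree ≤ u ∧ ((1 - X ^ 2) * dd u).natDegree ≤ u + 1 ∧
    (dd u).natDegree ≤ u := by
  induction u with
  | zero => simp
  | succ u ih =>
    obtain ⟨h1, h2, h3⟩ := ih
    have h4 : (dd (u + 1)).natDegree ≤ u := by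
      rw [dd_succ]; exact natDegree_add_le_of_degree_le h1 h3
    refine ⟨?_, ?_, by omega⟩
    · rw [pp_succ]; exact natDegree_add_le_of_degree_le (by omega) h2
    · have h5 : (1 - X ^ 2 : ℤ[X]).natDegree ≤ 2 := by compute_degree
      exact natDegree_mul_le.trans (by omega)

theorem deg_one_sub (h : ℕ) : ((1 - X : ℤ[X]) ^ h).natDegree ≤ h := by
  have h5 : (1 - X : ℤ[X]).natDegree ≤ 1 := by compute_degree
  simpa using natDegree_pow_le_of_le h h5

theorem deg_rowP (c h : ℕ) (u : ℤ) (hu : u.natAbs ≤ c) : (rowP c h u).natDegree ≤ c + h := by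
  have h1 := (deg_pd u.natAbs).1
  have h2 := deg_one_sub h
  have h3 := natDegree_X_pow_le (R := ℤ) (c - 1 - u.natAbs)
  refine natDegree_mul_le.trans ((Nat.add_le_add_right natDegree_mul_le _).trans ?_)
  omega

theorem deg_rowD (c h : ℕ) (u : ℤ) (hu : u.natAbs ≤ c) : (rowD c h u).natDegree ≤ c + h := by
  have h1 := (deg_pd u.natAbs).2.2
  have h2 := deg_one_sub h
  have h3 : (C u.sign * X ^ (c - u.natAbs) : ℤ[X]).natDegree ≤ c - u.natAbs :=
    natDegree_C_mul_X_pow_le _ _
  refine natDegree_mul_le.trans ((Nat.add_le_add_right natDegree_mul_le _).trans ?_)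
  omega

theorem deg_colQ (N k : ℕ) : (colQ N k).natDegree ≤ 6 * N + k + 2 * N :=
  natDegree_mul_le.trans (Nat.add_le_add (natDegree_X_pow_le _) (deg_one_sub _))

theorem nv_det {n : ℕ} (M : Matrix (Fin n) (Fin n) ℚ) {A : ℝ} (hA : 0 ≤ A)
    (h : ∀ i j, nv p (M i j) ≤ A) : nv p M.det ≤ A ^ n := by
  rw [Matrix.det_apply']
  refine nv_sum_le (by positivity) fun σ _ => ?_
  have h1 : nv p (∏ i, M (σ i) i) ≤ A ^ n := by
    unfold nv at *
    push_cast
    rw [norm_prod]
    have := Finset.prod_le_prod (s := univ) (fun i _ => norm_nonneg ((M (σ i) i : ℚ) : ℚ_[p]))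
      fun i _ => h (σ i) i
    simpa using this
  have := nv_mul_le (nv_int (p := p) (Equiv.Perm.sign σ : ℤ)) h1
  rwa [one_mul] at this

end Arith

open Arith in
theorem oddSmall : OddSmallStmt := by
  intro x N p _ hN h2
  have hN' : (1 : ℝ) ≤ N := by exact_mod_cast hN
  have hT : (1 : ℝ) ≤ 50 * N := by linarith
  have hD : (1 : ℝ) ≤ x.den := by exact_mod_cast x.pos
  have hT4 : (1 : ℝ) ≤ (50 * N) ^ 4 := one_le_pow₀ hT
  have h1 : (50 * N : ℝ) ^ 4 ≤ (50 * N) ^ 4 * x.den := le_mul_of_one_le_right (by linarith) hD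
  have hc : ∀ i : ℕ, i ≤ 47 * N + 2 * N → (i : ℝ) ≤ 50 * N := fun i hi => by
    exact_mod_cast (by omega : i ≤ 50 * N)
  refine nv_det (mat x N) (by positivity) fun r k => ?_
  have hu : (((r : ℕ) : ℤ) - 3 * N).natAbs ≤ 47 * N := by have := r.2; omega
  refine nv_lin (by positivity) fun j hj => ?_
  have hj' : (j : ℝ) ≤ 50 * N := hc j (by have := deg_colQ N k; have := k.2; omega)
  refine nv_sub_le (nv_lin (by positivity) fun i hi => nv_add_le ?_ ?_) ?_
  · exact (nv_tA h2 hT i j (hc i (hi.trans (deg_rowP _ _ _ hu))) hj').trans h1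
  · refine (nv_mul_le (nv_le_den x) (nv_tG h2 i j)).trans ?_
    rw [mul_one]
    exact le_mul_of_one_le_left (by linarith) hT4
  · have h34 : nv p (3 / 4) ≤ 1 := by
      have := nv_mul_le (nv_nat (p := p) 3) (nv_inv_four_pow h2 1).le
      norm_num at this ⊢
      exact this
    have := nv_mul_le h34 (nv_lin (a := fun l => tZ l j)
      (P := rowD (47 * N) (2 * N) (((r : ℕ) : ℤ) - 3 * N)) (by positivity) fun l hl =>
        (nv_tZ hT l j (hc l (hl.trans (deg_rowD _ _ _ hu))) hj').trans h1)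
    rwa [one_mul] at this

end Crest.Agent.R6
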