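import Crest.Agent.R6.Red

/-! Row 6: congruences for `be`. -/

set_option autoImplicit false

namespace Crest.Agent.R6

open Polynomial Finset

theorem be_pos (k : ℕ) : 0 < be k := by
  induction k using Nat.twoStepInduction with
  | zero => simp
  | one => simp
  | more k ih _ => rw [be_add_two]; positivity

theorem be_mul_be (k : ℕ) : ((k : ℚ) + 1) * be k * be (k + 1) = 1 := by
  induction k with
  | zero => simp
  | succ k ih =>
    rw [be_add_two]
    push_cast
    field_simp
    linear_combination ((k : ℚ) + 2) * ih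

theorem be_succ (k : ℕ) : be (k + 1) = (((k : ℚ) + 1) * be k)⁻¹ :=
  eq_inv_of_mul_eq_one_right (be_mul_be k)

theorem be_two_mul (a : ℕ) : be (2 * a) = (a.centralBinom : ℚ) / 4 ^ a := by
  induction a with
  | zero => simp
  | succ a ih =>
    have h : ((a : ℚ) + 1) * (a + 1).centralBinom = 2 * (2 * a + 1) * a.centralBinom := by
      exact_mod_cast Nat.succ_mul_centralBinom_succ a
    rw [show 2 * (a + 1) = 2 * a + 2 by ring, be_add_two, ih, eq_div_of_mul_eq (by positivity)
      ((mul_comm _ _).trans h)]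
    push_cast
    field_simp
    ring

variable {p : ℕ} [hp : Fact p.Prime]

theorem chi_mul_chi : chi p * chi p = 1 := by
  rw [chi, ← mul_pow]; simp

theorem chi_ne_zero : chi p ≠ 0 := left_ne_zero_of_mul_eq_one chi_mul_chi

theorem chi_inv : (chi p)⁻¹ = chi p := inv_eq_of_mul_eq_one_right chi_mul_chi

namespace Beta

theorem small (k : ℕ) (hk : k < p) : Red p (be k) (be k) ∧ (be k : ZMod p) ≠ 0 := by
  induction k with
  | zero => simpa using Red.one
  | succ k ih =>
    obtain ⟨h1, h2⟩ := ih (by omega)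
    have h3 : ((k : ZMod p) + 1) * be k ≠ 0 :=
      mul_ne_zero (by exact_mod_cast natCast_ne_zero_of_lt k.succ_ne_zero hk) h2
    have h4 := ((((Red.natCast k).add Red.one).mul h1).inv h3).congr_left (be_succ k).symm
    exact ⟨Red.self h4.1, h4.2 ▸ inv_ne_zero h3⟩

theorem cast_succ {k : ℕ} (hk : k + 1 < p) :
    (be (k + 1) : ZMod p) = (((k : ZMod p) + 1) * be k)⁻¹ :=
  (((((Red.natCast k).add Red.one).mul (small k (by omega)).1).inv (mul_ne_zero
    (by exact_mod_cast natCast_ne_zero_of_lt k.succ_ne_zero hk)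
    (small k (by omega)).2)).congr_left (be_succ k).symm).2

theorem coeff_one_sub (H a : ℕ) :
    ((1 - X : (ZMod p)[X]) ^ H).coeff a = (-1) ^ a * (H.choose a : ZMod p) := by
  have : (1 - X : (ZMod p)[X]) ^ H = ((1 + X) ^ H).comp (C (-1) * X) := by
    simp [sub_eq_add_neg]
  rw [this, comp_C_mul_X_coeff, coeff_one_add_X_pow, mul_comm]

theorem gp_eq (H : ℕ) : ((1 - X ^ 2 : (ZMod p)[X])) ^ H = expand (ZMod p) 2 ((1 - X) ^ H) := by
  simp

theorem even_eq (h2 : p ≠ 2) (a : ℕ) (ha : 2 * a < p) :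
    (be (2 * a) : ZMod p) = (-1) ^ a * ((p / 2).choose a : ZMod p) := by
  have hodd := hp.out.eq_two_or_odd.resolve_left h2
  induction a with
  | zero => simp
  | succ a ih =>
    have h1 : ((2 * a + 1 : ℕ) : ZMod p) ≠ 0 := natCast_ne_zero_of_lt (by omega) (by omega)
    have h3 : ((2 * a + 1 + 1 : ℕ) : ZMod p) ≠ 0 := natCast_ne_zero_of_lt (by omega) (by omega)
    have h4 : (((p / 2).choose (a + 1) * (a + 1) : ℕ) : ZMod p) =
        ((p / 2).choose a * (p / 2 - a) : ℕ) := by rw [Nat.choose_succ_right_eq]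
    have h5 : ((2 * (p / 2 - a) + (2 * a + 1) : ℕ) : ZMod p) = 0 := by
      rw [show 2 * (p / 2 - a) + (2 * a + 1) = p by omega, ZMod.natCast_self]
    have h6 := (small (p := p) (2 * a) (by omega)).2
    rw [show 2 * (a + 1) = 2 * a + 1 + 1 by ring, cast_succ (k := 2 * a + 1) (by omega),
      cast_succ (k := 2 * a) (by omega)]
    have ih := ih (by omega)
    push_cast at h1 h3 h4 h5 ⊢
    field_simp
    rw [ih]
    linear_combination (-1) ^ a * 2 * h4 + (-1) ^ a * ((p / 2).choose a : ZMod p) * h5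

theorem coeff_gp (h2 : p ≠ 2) (r : ℕ) (hr : r < p) : (gp p).coeff r = cc p r := by
  rw [gp, gp_eq, coeff_expand two_pos, cc]
  by_cases h : 2 ∣ r
  · obtain ⟨a, rfl⟩ := h
    rw [if_pos (dvd_mul_right _ _), if_pos (by omega), even_eq h2 a hr, coeff_one_sub,
      Nat.mul_div_cancel_left _ two_pos]
  · rw [if_neg h, if_neg (by omega)]

theorem cc_symm (h2 : p ≠ 2) (r : ℕ) (hr : r < p) : cc p (p - 1 - r) = chi p * cc p r := by
  have hodd := hp.out.eq_two_or_odd.resolve_left h2
  unfold cc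
  by_cases h : 2 ∣ r
  · obtain ⟨a, rfl⟩ := h
    rw [if_pos (by omega), if_pos (by omega), show p - 1 - 2 * a = 2 * (p / 2 - a) by omega,
      even_eq h2 a hr, even_eq h2 _ (by omega), Nat.choose_symm (by omega), chi, ← mul_assoc,
      ← pow_add, show p / 2 + a = p / 2 - a + 2 * a by omega, pow_add, pow_mul]
    simp
  · rw [if_neg (by omega), if_neg (by omega), mul_zero]

theorem be_pred (h2 : p ≠ 2) : (be (p - 1) : ZMod p) = chi p := by
  have hodd := hp.out.eq_two_or_odd.resolve_left h2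
  have h := cc_symm h2 0 hp.out.pos
  rw [cc, cc, if_pos (by omega), if_pos rfl] at h
  simpa using h

theorem sum_sq (h2 : p ≠ 2) : ∑ r ∈ range p, cc p r ^ 2 = chi p := by
  have hodd := hp.out.eq_two_or_odd.resolve_left h2
  have h1 : (1 - X : (ZMod p)[X]) ^ (p - 1) = ∑ i ∈ range p, X ^ i := by
    refine mul_left_cancel₀ (a := 1 - X) (fun h => by simpa using congrArg (coeff · 0) h) ?_
    rw [mul_neg_geom_sum, ← pow_succ', Nat.sub_add_cancel hp.out.pos, sub_pow_char, one_pow]
  have h3 : (gp p * gp p).coeff (p - 1) = 1 := by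
    rw [gp, ← pow_add, gp_eq, show p / 2 + p / 2 = p - 1 by omega, h1, coeff_expand two_pos,
      if_pos (by omega), finsetSum_coeff]
    simp only [coeff_X_pow, sum_ite_eq, mem_range]
    exact if_pos (by omega)
  rw [coeff_mul, Finset.Nat.sum_antidiagonal_eq_sum_range_succ_mk, Nat.succ_eq_add_one,
    Nat.sub_add_cancel hp.out.pos] at h3
  rw [← mul_one (chi p), ← h3, mul_sum]
  refine sum_congr rfl fun r hr => ?_
  have hr := mem_range.1 hr
  rw [coeff_gp h2 r hr, coeff_gp h2 _ (by omega), cc_symm h2 r hr]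
  linear_combination (-(cc p r) ^ 2) * chi_mul_chi (p := p)

theorem even_int (h2 : p ≠ 2) (k : ℕ) (hk : k % 2 = 0) : ¬ p ∣ (be k).den := by
  obtain ⟨a, rfl⟩ : ∃ a, k = 2 * a := ⟨k / 2, by omega⟩
  have h : ((2 : ℕ) : ZMod p) ≠ 0 :=
    natCast_ne_zero_of_lt two_ne_zero (lt_of_le_of_ne hp.out.two_le h2.symm)
  have h4 : ((4 : ℕ) : ZMod p) ≠ 0 := by
    rw [show 4 = 2 * 2 from rfl, Nat.cast_mul]; exact mul_ne_zero h h
  rw [be_two_mul]
  exact ((Red.natCast _).div ((Red.natCast 4).pow a) (pow_ne_zero _ h4)).1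

theorem lucas (h2 : p ≠ 2) (k₁ : ℕ) : k₁ < p → ∀ k₀, k₀ < p →
    (k₀ % 2 = 0 → k₁ % 2 = 0 → Red p (be (p * k₁ + k₀)) (be k₀ * be k₁)) ∧
    (k₀ % 2 = 0 → k₁ % 2 = 1 → Red p (p * be (p * k₁ + k₀)) (chi p * be k₀ * be k₁)) ∧
    (k₀ % 2 = 1 → k₁ % 2 = 0 → Red p (be (p * k₁ + k₀)) (be k₀ / be k₁)) ∧
    (k₀ % 2 = 1 → k₁ % 2 = 1 → Red p (be (p * k₁ + k₀) / p) (chi p * be k₀ / be k₁)) := by
  have hodd := hp.out.eq_two_or_odd.resolve_left h2
  have hp0 : (p : ℚ) ≠ 0 := Nat.cast_ne_zero.2 hp.out.ne_zero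
  have hpp := hp.out.pos
  have hc := chi_ne_zero (p := p)
  have hcc := chi_mul_chi (p := p)
  have step : ∀ k₁, k₁ < p → (k₁ % 2 = 0 → Red p (be (p * k₁)) (be k₁)) →
      (k₁ % 2 = 1 → Red p (p * be (p * k₁)) (chi p * be k₁)) → ∀ k₀, k₀ < p →
      (k₀ % 2 = 0 → k₁ % 2 = 0 → Red p (be (p * k₁ + k₀)) (be k₀ * be k₁)) ∧
      (k₀ % 2 = 0 → k₁ % 2 = 1 → Red p (p * be (p * k₁ + k₀)) (chi p * be k₀ * be k₁)) ∧
      (k₀ % 2 = 1 → k₁ % 2 = 0 → Red p (be (p * k₁ + k₀)) (be k₀ / be k₁)) ∧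
      (k₀ % 2 = 1 → k₁ % 2 = 1 → Red p (be (p * k₁ + k₀) / p) (chi p * be k₀ / be k₁)) := by
    intro k₁ hk₁ a b k₀
    induction k₀ with
    | zero => exact fun _ => ⟨fun _ => by simpa using a, fun _ => by simpa using b,
        fun h => by omega, fun h => by omega⟩
    | succ k ih =>
      intro hk
      obtain ⟨i1, i2, i3, i4⟩ := ih (by omega)
      have n0 := (small k (by omega : k < p)).2
      have n1 := (small k₁ hk₁).2
      have n2 : (k : ZMod p) + 1 ≠ 0 := by
        exact_mod_cast natCast_ne_zero_of_lt k.succ_ne_zero hk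
      have n3 := (be_pos (p * k₁ + k)).ne'
      have r : Red p (((p * k₁ + k : ℕ) : ℚ) + 1) ((k : ZMod p) + 1) :=
        ((Red.natCast _).add Red.one).congr_right (by simp)
      have n4 : ((p * k₁ + k : ℕ) : ℚ) + 1 ≠ 0 := by positivity
      rw [← add_assoc, be_succ (p * k₁ + k), cast_succ hk]
      refine ⟨fun h h' => ?_, fun h h' => ?_, fun h h' => ?_, fun h h' => ?_⟩
      · exact ((r.mul (i3 (by omega) h')).inv (by simp [*])).congr_right (by field_simp)
      · refine ((r.mul (i4 (by omega) h')).inv (by simp [*])).congr (by field_simp) ?_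
        field_simp
        linear_combination -hcc
      · exact ((r.mul (i1 (by omega) h')).inv (by simp [*])).congr_right (by field_simp)
      · refine ((r.mul (i2 (by omega) h')).inv (by simp [*])).congr (by field_simp) ?_
        field_simp
        linear_combination -hcc
  induction k₁ with
  | zero => exact fun h => step 0 h (fun _ => by simpa using Red.one) fun h => by omega
  | succ k ih =>
    intro hk
    obtain ⟨i1, i2, -⟩ := ih (by omega) (p - 1) (by omega)
    have n1 := (small k (by omega : k < p)).2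
    have n2 : (k : ZMod p) + 1 ≠ 0 := by exact_mod_cast natCast_ne_zero_of_lt k.succ_ne_zero hk
    have n3 := (be_pos (p * k + (p - 1))).ne'
    have r : Red p ((k : ℚ) + 1) ((k : ZMod p) + 1) := (Red.natCast _).add Red.one
    have e : p * (k + 1) = p * k + (p - 1) + 1 := by rw [mul_add]; omega
    have e' : ((p * k + (p - 1) : ℕ) : ℚ) + 1 = p * (k + 1) := by exact_mod_cast e.symm
    rw [be_pred h2] at i1 i2
    refine step _ hk (fun h => ?_) fun h => ?_ <;> rw [e, be_succ, e', cast_succ hk]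
    · refine ((r.mul (i2 (by omega) (by omega))).inv (by simp [*])).congr (by field_simp) ?_
      rw [hcc, one_mul]
    · refine ((r.mul (i1 (by omega) (by omega))).inv (by simp [*])).congr (by field_simp) ?_
      field_simp
      linear_combination -hcc

end Beta

theorem beta : BetaStmt := fun _ _ h2 =>
  ⟨Beta.small, fun k₀ k₁ h₀ h₁ => Beta.lucas h2 k₁ h₁ k₀ h₀,
    fun r hr => ⟨Beta.coeff_gp h2 r hr, Beta.cc_symm h2 r hr⟩, Beta.sum_sq h2, Beta.even_int h2⟩

end Crest.Agent.R6
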