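import Crest.Agent.R6.CertA

set_option autoImplicit false

namespace Crest.Agent.R6.Cert

theorem hW1 : chkL (TW Z1) ((-60323986) * 4294967296) 8388608 0 bs1 = true := by
  decide +kernel

theorem cert2 : Cert 8 193 648 := by
  have := cert_of_check 8 193 648 Y2 Z2 (-43897381) (-57842845) bx2 bs2 (by decide +kernel) (by decide +kernel)
    (by decide +kernel) (by decide +kernel) (by decide +kernel)
  exact_mod_cast this

end Crest.Agent.R6.Cert
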