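import Crest.Agent.R6.CertV
import Crest.Agent.R6.CertW

set_option autoImplicit false

namespace Crest.Agent.R6

open Cert in
theorem cert : CertStmt := by
  refine ⟨?_, cert2⟩
  have := cert_of_check 14 49 0 Y1 Z1 (-2916786) (-60323986) bx1 bs1 (by decide +kernel) (by decide +kernel)
    hV1 hW1 (by decide +kernel)
  exact_mod_cast this

end Crest.Agent.R6
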