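import Mathlib

/-! Verified upper bounds for logarithms and for sums of logarithms of quadratics on intervals. -/

set_option autoImplicit false

namespace Crest.Agent.R6.Cert

open Real Finset

theorem natdiv_le (a b : ℕ) (hb : 0 < b) : (a : ℝ) / b ≤ ((a / b + 1 : ℕ) : ℝ) := by
  have h : a < b * (a / b + 1) := Nat.lt_mul_div_succ a hb
  have hb' : (0 : ℝ) < b := by exact_mod_cast hb
  rw [div_le_iff₀ hb', mul_comm]
  exact_mod_cast h.le

theorem intdiv_le (a b : ℤ) (hb : 0 < b) : (a : ℝ) / b ≤ ((a / b : ℤ) : ℝ) + 1 := by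
  have h : a < (a / b + 1) * b := Int.lt_ediv_add_one_mul_self a hb
  have hb' : (0 : ℝ) < b := by exact_mod_cast hb
  rw [div_le_iff₀ hb']
  exact_mod_cast h.le

theorem le_intdiv (a b : ℤ) (hb : 0 < b) : ((a / b : ℤ) : ℝ) ≤ (a : ℝ) / b := by
  have h : a / b * b ≤ a := Int.ediv_mul_le a hb.ne'
  have hb' : (0 : ℝ) < b := by exact_mod_cast hb
  rw [le_div_iff₀ hb']
  exact_mod_cast h

/-- series for `2^32 log ((d+n)/(d-n))`. -/
def ser (n d : ℕ) : ℕ :=
  (8589934592 * n / d + 1) + (8589934592 * n ^ 3 / (3 * d ^ 3) + 1) +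
  (8589934592 * n ^ 5 / (5 * d ^ 5) + 1) + (8589934592 * n ^ 7 / (7 * d ^ 7) + 1) +
  (8589934592 * n ^ 9 / (9 * d ^ 9) + 1) + (8589934592 * n ^ 11 / (11 * d ^ 11) + 1) +
  (8589934592 * n ^ 13 / (d ^ 11 * (d ^ 2 - n ^ 2)) + 1)

theorem ser_sound (n d : ℕ) (h : n < d) :
    log (((d : ℝ) + n) / (d - n)) ≤ ser n d / 4294967296 := by
  have hd : 0 < d := by omega
  have hd' : (0 : ℝ) < d := by exact_mod_cast hd
  have hnd : (n : ℝ) < d := by exact_mod_cast h
  have h0 : (0 : ℝ) ≤ n / d := by positivity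
  have h1 : (n : ℝ) / d < 1 := by rw [div_lt_one hd']; exact hnd
  have key := log_div_le_sum_range_add h0 h1 6
  have e : (1 + (n : ℝ) / d) / (1 - n / d) = (d + n) / (d - n) := by
    have : (d : ℝ) - n ≠ 0 := by linarith
    field_simp
  rw [e] at key
  have hsq : n ^ 2 < d ^ 2 := Nat.pow_lt_pow_left h (by norm_num)
  have hsq' : (n : ℝ) ^ 2 < (d : ℝ) ^ 2 := by exact_mod_cast hsq
  have a1 := natdiv_le (8589934592 * n) d hd
  have a3 := natdiv_le (8589934592 * n ^ 3) (3 * d ^ 3) (by positivity)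
  have a5 := natdiv_le (8589934592 * n ^ 5) (5 * d ^ 5) (by positivity)
  have a7 := natdiv_le (8589934592 * n ^ 7) (7 * d ^ 7) (by positivity)
  have a9 := natdiv_le (8589934592 * n ^ 9) (9 * d ^ 9) (by positivity)
  have a11 := natdiv_le (8589934592 * n ^ 11) (11 * d ^ 11) (by positivity)
  have a13 := natdiv_le (8589934592 * n ^ 13) (d ^ 11 * (d ^ 2 - n ^ 2))
    (Nat.mul_pos (by positivity) (by omega))
  have b13 : ((8589934592 * n ^ 13 : ℕ) : ℝ) / ((d ^ 11 * (d ^ 2 - n ^ 2) : ℕ) : ℝ) =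
      8589934592 * (((n : ℝ) / d) ^ (2 * 6 + 1) / (1 - ((n : ℝ) / d) ^ 2)) := by
    rw [Nat.cast_mul (d ^ 11), Nat.cast_sub hsq.le]
    push_cast
    have : (d : ℝ) ^ 2 - (n : ℝ) ^ 2 ≠ 0 := by linarith
    field_simp
  rw [b13] at a13
  have b : ∀ j : ℕ, 0 < j → ((8589934592 * n ^ j : ℕ) : ℝ) / ((j * d ^ j : ℕ) : ℝ) =
      8589934592 * (((n : ℝ) / d) ^ j / j) := by
    intro j hj
    have : (j : ℝ) ≠ 0 := by positivity
    push_cast; rw [div_pow]; field_simp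
  rw [b 3 (by norm_num)] at a3
  rw [b 5 (by norm_num)] at a5
  rw [b 7 (by norm_num)] at a7
  rw [b 9 (by norm_num)] at a9
  rw [b 11 (by norm_num)] at a11
  have b1 : ((8589934592 * n : ℕ) : ℝ) / (d : ℝ) = 8589934592 * ((n : ℝ) / d) := by
    push_cast; ring
  rw [b1] at a1
  rw [le_div_iff₀ (by norm_num)]
  simp only [sum_range_succ, sum_range_zero] at key
  unfold ser
  simp only [Nat.cast_add (_ + _ : ℕ)]
  norm_num at key a1 a3 a5 a7 a9 a11 a13 ⊢
  linarith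

/-- `2^32 log (a/b)` from above, `b ≤ a`. -/
def core (a b : ℕ) : ℕ :=
  ser (a * 4294967296 / b + 1 - 4294967296) (a * 4294967296 / b + 1 + 4294967296)

theorem core_sound (a b : ℕ) (hb : 0 < b) (hab : b ≤ a) :
    log ((a : ℝ) / b) ≤ core a b / 4294967296 := by
  unfold core
  have h1 := natdiv_le (a * 4294967296) b hb
  have h2 : 4294967296 ≤ a * 4294967296 / b := by
    rw [Nat.le_div_iff_mul_le hb]; nlinarith
  have hM : 4294967296 ≤ a * 4294967296 / b + 1 := by omega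
  generalize a * 4294967296 / b + 1 = M at h1 hM ⊢
  refine le_trans ?_ (ser_sound _ _ (by omega))
  have hb' : (0 : ℝ) < b := by exact_mod_cast hb
  have ha' : (0 : ℝ) < a := by exact_mod_cast (by omega : 0 < a)
  apply log_le_log (by positivity)
  rw [Nat.cast_sub hM]
  push_cast at h1 ⊢
  have : ((M : ℝ) + 4294967296 + (M - 4294967296)) / (M + 4294967296 - (M - 4294967296))
      = M / 4294967296 := by ring
  rw [this, le_div_iff₀ (by norm_num)]
  calc (a : ℝ) / b * 4294967296 = a * 4294967296 / b := by ring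
    _ ≤ M := h1

def l2 (e : ℤ) : ℤ := if 0 ≤ e then e * 2977044473 else e * 2977044470

theorem l2_sound (e : ℤ) : e * log 2 ≤ l2 e / 4294967296 := by
  have h1 := log_two_gt_d9
  have h2 := log_two_lt_d9
  rw [le_div_iff₀ (by norm_num)]
  unfold l2
  split_ifs with h
  · have : (0 : ℝ) ≤ e := by exact_mod_cast h
    push_cast; nlinarith
  · have : (e : ℝ) < 0 := by exact_mod_cast (not_le.1 h)
    push_cast; nlinarith

def lnU' (a' b' : ℕ) (e : ℤ) : ℤ :=
  if b' ≤ a' then core a' b' + l2 e else core (2 * a') b' + l2 (e - 1)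

/-- `2^32 log (a/b)` from above. -/
def lnU (a b : ℕ) : ℤ := lnU' (a * 2 ^ b.log2) (b * 2 ^ a.log2) ((a.log2 : ℤ) - b.log2)

theorem lnU_sound (a b : ℕ) (ha : 0 < a) (hb : 0 < b) :
    log ((a : ℝ) / b) ≤ lnU a b / 4294967296 := by
  have ha' : (0 : ℝ) < a := by exact_mod_cast ha
  have hb' : (0 : ℝ) < b := by exact_mod_cast hb
  have e1 : log ((a : ℝ) / b) = log (((a * 2 ^ b.log2 : ℕ) : ℝ) / ((b * 2 ^ a.log2 : ℕ) : ℝ)) +
      (((a.log2 : ℤ) - b.log2 : ℤ) : ℝ) * log 2 := by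
    push_cast
    rw [log_div ha'.ne' hb'.ne', log_div (by positivity) (by positivity),
      log_mul ha'.ne' (by positivity), log_mul hb'.ne' (by positivity), log_pow, log_pow]
    ring
  unfold lnU lnU'
  split_ifs with h
  · have := core_sound _ _ (by positivity) h
    have h2 := l2_sound ((a.log2 : ℤ) - b.log2)
    rw [e1, Int.cast_add, add_div]
    exact add_le_add (by simpa using this) h2
  · have hle : b * 2 ^ a.log2 ≤ 2 * (a * 2 ^ b.log2) := by
      have h1 : 2 ^ a.log2 ≤ a := Nat.log2_self_le ha.ne'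
      have h2 : b < 2 ^ (b.log2 + 1) := Nat.lt_log2_self
      calc b * 2 ^ a.log2 ≤ 2 ^ (b.log2 + 1) * a := Nat.mul_le_mul h2.le h1
        _ = 2 * (a * 2 ^ b.log2) := by ring
    have := core_sound _ _ (by positivity) hle
    have h2 := l2_sound ((a.log2 : ℤ) - b.log2 - 1)
    have e2 : log (((2 * (a * 2 ^ b.log2) : ℕ) : ℝ) / ((b * 2 ^ a.log2 : ℕ) : ℝ)) =
        log 2 + log (((a * 2 ^ b.log2 : ℕ) : ℝ) / ((b * 2 ^ a.log2 : ℕ) : ℝ)) := by
      rw [← log_mul (by norm_num) (by positivity)]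
      congr 1; push_cast; ring
    rw [e2] at this
    rw [e1, Int.cast_add, add_div]
    rw [Int.cast_sub _ 1, Int.cast_one, sub_mul, one_mul] at h2
    have h3 : (((core (2 * (a * 2 ^ b.log2)) (b * 2 ^ a.log2) : ℕ) : ℤ) : ℝ) =
      ((core (2 * (a * 2 ^ b.log2)) (b * 2 ^ a.log2) : ℕ) : ℝ) := by simp
    rw [h3]
    linarith

/-- `2^32 c log (a/b)` from above. -/
def clog (c : ℤ) (a b : ℕ) : ℤ := if 0 ≤ c then c * lnU a b else (-c) * lnU b a

theorem clog_sound (c : ℤ) (a b : ℕ) (ha : 0 < a) (hb : 0 < b) :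
    c * log ((a : ℝ) / b) * 4294967296 ≤ clog c a b := by
  unfold clog
  split_ifs with h
  · have h1 := lnU_sound a b ha hb
    rw [le_div_iff₀ (by norm_num)] at h1
    have : (0 : ℝ) ≤ c := by exact_mod_cast h
    push_cast
    rw [mul_assoc]
    exact mul_le_mul_of_nonneg_left h1 this
  · have h1 := lnU_sound b a hb ha
    rw [le_div_iff₀ (by norm_num)] at h1
    have : (0 : ℝ) ≤ -c := by
      have : (c : ℝ) < 0 := by exact_mod_cast (not_le.1 h)
      linarith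
    have e : log ((a : ℝ) / b) = -log ((b : ℝ) / a) := by
      rw [← log_inv, inv_div]
    push_cast
    rw [e]
    calc c * -log ((b : ℝ) / a) * 4294967296 = -c * (log ((b : ℝ) / a) * 4294967296) := by ring
      _ ≤ _ := mul_le_mul_of_nonneg_left h1 this

/-- the term `c log ((α x² + β x + κ)/den)`. -/
structure Tm where
  c : ℤ
  a : ℤ
  b : ℤ
  k : ℤ
  den : ℕ

noncomputable def Tm.q (t : Tm) (x : ℝ) : ℝ := t.a * x ^ 2 + t.b * x + t.k
noncomputable def Tm.val (t : Tm) (x : ℝ) : ℝ := t.c * log (t.q x / t.den)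

/-- accumulated bound `A + F₁ τ + F₂ τ²`. -/
structure Acc where
  ok : Bool
  A : ℤ
  F1 : ℤ
  F2 : ℤ

def tm3 (c : ℤ) (den : ℕ) (q0 q1 q2 u : ℤ) (s : Acc) : Acc :=
  if 2 * u ≤ q0 then
    ⟨s.ok && decide (0 < q0) && decide (0 < den),
      s.A + clog c q0.toNat den + (|c| * u * (|q2| * q0 + 2 * u ^ 2) * 4294967296 / q0 ^ 3 + 2),
      s.F1 + c * q1 * 4294967296 / q0,
      s.F2 + (c * (2 * q2 * q0 - q1 ^ 2) * 4294967296 / (2 * q0 ^ 2) + 1)⟩
  else
    ⟨s.ok && decide (0 < q0) && decide (0 < den) && decide (0 ≤ c),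
      s.A + clog c q0.toNat den + 1,
      s.F1 + c * q1 * 4294967296 / q0,
      s.F2 + (c * q2 * 4294967296 / q0 + 1)⟩

def tm2 (c : ℤ) (den : ℕ) (q0 q1 q2 : ℤ) (s : Acc) : Acc := tm3 c den q0 q1 q2 (|q1| + |q2|) s

/-- scale of the grid: centre `X/2^24`, radius `R/2^24`. -/
def tm (X R : ℤ) (t : Tm) (s : Acc) : Acc :=
  tm2 t.c (t.den * 281474976710656) (t.a * X ^ 2 + t.b * X * 16777216 + t.k * 281474976710656)
    ((2 * t.a * X + t.b * 16777216) * R) (t.a * R ^ 2) s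

theorem log_taylor {u : ℝ} (h : |u| ≤ 1 / 2) : |log (1 + u) - (u - u ^ 2 / 2)| ≤ 2 * |u| ^ 3 := by
  have h1 := abs_log_sub_add_sum_range_le (x := -u) (by rw [abs_neg]; linarith) 2
  simp only [sum_range_succ, sum_range_zero, abs_neg, sub_neg_eq_add] at h1
  have e : log (1 + u) - (u - u ^ 2 / 2) =
      0 + (-u) ^ (0 + 1) / (((0 : ℕ) : ℝ) + 1) + (-u) ^ (1 + 1) / (((1 : ℕ) : ℝ) + 1) + log (1 + u) := by
    push_cast; ring
  rw [e]
  refine h1.trans ?_
  rw [div_le_iff₀ (by linarith)]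
  have : 0 ≤ |u| ^ 3 := by positivity
  norm_num
  nlinarith

theorem tm3_sound (c : ℤ) (den : ℕ) (q0 q1 q2 : ℤ) (s : Acc) (τ : ℝ) (hτ : |τ| ≤ 1) (v : ℝ)
    (hs : s.ok = true → v ≤ s.A + s.F1 * τ + s.F2 * τ ^ 2)
    (hq : 0 < (q0 : ℝ) + q1 * τ + q2 * τ ^ 2)
    (hok : (tm2 c den q0 q1 q2 s).ok = true) :
    c * log ((q0 + q1 * τ + q2 * τ ^ 2) / den) * 4294967296 + v ≤
      (tm2 c den q0 q1 q2 s).A + (tm2 c den q0 q1 q2 s).F1 * τ
        + (tm2 c den q0 q1 q2 s).F2 * τ ^ 2 := by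
  have hτ2 : τ ^ 2 ≤ 1 := by rw [← sq_abs]; nlinarith [abs_nonneg τ]
  have hτ2' : 0 ≤ τ ^ 2 := sq_nonneg τ
  have base : s.ok = true ∧ 0 < q0 ∧ 0 < den := by
    unfold tm2 tm3 at hok
    split_ifs at hok <;> simp only [Bool.and_eq_true, decide_eq_true_eq] at hok <;> tauto
  obtain ⟨h1, h0, hd⟩ := base
  have hv := hs h1
  have h0' : (0 : ℝ) < q0 := by exact_mod_cast h0
  have hd' : (0 : ℝ) < den := by exact_mod_cast hd
  have hL := clog_sound c q0.toNat den (by omega) hd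
  have hc0 : ((q0.toNat : ℕ) : ℝ) = q0 := by
    have : ((q0.toNat : ℕ) : ℤ) = q0 := Int.toNat_of_nonneg h0.le
    exact_mod_cast this
  rw [hc0] at hL
  set u : ℝ := (q1 * τ + q2 * τ ^ 2) / q0 with hu
  have hu1 : 0 < 1 + u := by
    have : 1 + u = (q0 + q1 * τ + q2 * τ ^ 2) / q0 := by rw [hu]; field_simp; ring
    rw [this]; positivity
  have elog : log ((q0 + q1 * τ + q2 * τ ^ 2) / den) = log ((q0 : ℝ) / den) + log (1 + u) := by
    rw [← log_mul (by positivity) hu1.ne']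
    congr 1; rw [hu]; field_simp; ring
  have f1a := intdiv_le (c * q1 * 4294967296) q0 h0
  have f1b := le_intdiv (c * q1 * 4294967296) q0 h0
  have f1 : (c : ℝ) * q1 * 4294967296 / q0 * τ ≤ ((c * q1 * 4294967296 / q0 : ℤ) : ℝ) * τ + 1 := by
    push_cast at f1a f1b
    have := abs_le.1 hτ
    nlinarith
  rw [elog]
  unfold tm2 tm3 at hok ⊢
  split_ifs at hok ⊢ with hf
  · set U : ℝ := |(q1 : ℝ)| + |(q2 : ℝ)| with hU
    have hf' : 2 * U ≤ q0 := by rw [hU]; exact_mod_cast hf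
    have hnum : |q1 * τ + q2 * τ ^ 2| ≤ U := by
      refine (abs_add_le _ _).trans ?_
      rw [abs_mul, abs_mul, abs_of_nonneg hτ2', hU]
      nlinarith [abs_nonneg (q1 : ℝ), abs_nonneg (q2 : ℝ), abs_nonneg τ]
    have huU : |u| ≤ U / q0 := by
      rw [hu, abs_div, abs_of_pos h0']; exact div_le_div_of_nonneg_right hnum h0'.le
    have hu2 : |u| ≤ 1 / 2 := huU.trans (by rw [div_le_iff₀ h0']; linarith)
    have ht := log_taylor hu2
    have f2 := intdiv_le (c * (2 * q2 * q0 - q1 ^ 2) * 4294967296) (2 * q0 ^ 2) (by positivity)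
    have f3 := intdiv_le (|c| * (|q1| + |q2|) * (|q2| * q0 + 2 * (|q1| + |q2|) ^ 2) * 4294967296)
      (q0 ^ 3) (by positivity)
    -- the remainder
    have hr : |log (1 + u) - (q1 / q0 * τ + (2 * q2 * q0 - q1 ^ 2) / (2 * q0 ^ 2) * τ ^ 2)| ≤
        U * (|(q2 : ℝ)| * q0 + 2 * U ^ 2) / q0 ^ 3 := by
      have e : (u - u ^ 2 / 2) - (q1 / q0 * τ + (2 * q2 * q0 - q1 ^ 2) / (2 * q0 ^ 2) * τ ^ 2) =
          -(q2 * τ ^ 3 * (q1 + q2 * τ / 2)) / q0 ^ 2 := by
        rw [hu]; field_simp; ring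
      have h2 : |(u - u ^ 2 / 2) - (q1 / q0 * τ + (2 * q2 * q0 - q1 ^ 2) / (2 * q0 ^ 2) * τ ^ 2)|
          ≤ |(q2 : ℝ)| * U / q0 ^ 2 := by
        rw [e, abs_div, abs_neg, abs_of_pos (by positivity : (0 : ℝ) < (q0 : ℝ) ^ 2)]
        apply div_le_div_of_nonneg_right _ (by positivity)
        rw [abs_mul, abs_mul, abs_pow]
        have h3 : |τ| ^ 3 ≤ 1 := pow_le_one₀ (abs_nonneg _) hτ
        have h4 : |(q1 : ℝ) + q2 * τ / 2| ≤ U := by
          refine (abs_add_le _ _).trans ?_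
          rw [abs_div, abs_mul, hU, abs_two]
          nlinarith [abs_nonneg (q2 : ℝ), abs_nonneg τ]
        calc |(q2 : ℝ)| * |τ| ^ 3 * |(q1 : ℝ) + q2 * τ / 2| ≤ |(q2 : ℝ)| * 1 * U := by gcongr
          _ = _ := by ring
      have h5 : |u| ^ 3 ≤ (U / q0) ^ 3 := pow_le_pow_left₀ (abs_nonneg _) huU 3
      have e2 : U * (|(q2 : ℝ)| * q0 + 2 * U ^ 2) / q0 ^ 3 =
          2 * (U / q0) ^ 3 + |(q2 : ℝ)| * U / q0 ^ 2 := by field_simp; ring
      rw [e2]
      calc _ ≤ |log (1 + u) - (u - u ^ 2 / 2)| + |(u - u ^ 2 / 2) -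
            (q1 / q0 * τ + (2 * q2 * q0 - q1 ^ 2) / (2 * q0 ^ 2) * τ ^ 2)| := abs_sub_le _ _ _
        _ ≤ _ := by linarith
    have hcr : c * (log (1 + u) - (q1 / q0 * τ + (2 * q2 * q0 - q1 ^ 2) / (2 * q0 ^ 2) * τ ^ 2)) ≤
        |(c : ℝ)| * (U * (|(q2 : ℝ)| * q0 + 2 * U ^ 2) / q0 ^ 3) := by
      refine (le_abs_self _).trans ?_
      rw [abs_mul]
      exact mul_le_mul_of_nonneg_left hr (abs_nonneg _)
    generalize (c * q1 * 4294967296 / q0 : ℤ) = g1 at f1 ⊢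
    generalize (c * (2 * q2 * q0 - q1 ^ 2) * 4294967296 / (2 * q0 ^ 2) : ℤ) = g2 at f2 ⊢
    generalize (|c| * (|q1| + |q2|) * (|q2| * q0 + 2 * (|q1| + |q2|) ^ 2) * 4294967296 /
      q0 ^ 3 : ℤ) = g3 at f3 ⊢
    push_cast at f2 f3 ⊢
    rw [← hU] at f3
    have f2' := mul_le_mul_of_nonneg_right f2 hτ2'
    have e3 : |(c : ℝ)| * U * (|(q2 : ℝ)| * q0 + 2 * U ^ 2) * 4294967296 / q0 ^ 3 =
      |(c : ℝ)| * (U * (|(q2 : ℝ)| * q0 + 2 * U ^ 2) / q0 ^ 3) * 4294967296 := by ring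
    rw [e3] at f3
    have e4 : (c : ℝ) * (2 * q2 * q0 - q1 ^ 2) * 4294967296 / (2 * q0 ^ 2) * τ ^ 2 =
      c * ((2 * q2 * q0 - q1 ^ 2) / (2 * q0 ^ 2) * τ ^ 2) * 4294967296 := by ring
    rw [e4] at f2'
    have e5 : (c : ℝ) * q1 * 4294967296 / q0 * τ = c * (q1 / q0 * τ) * 4294967296 := by ring
    rw [e5] at f1
    nlinarith
  · simp only [Bool.and_eq_true, decide_eq_true_eq] at hok
    have hc : (0 : ℝ) ≤ c := by exact_mod_cast hok.2
    have hl : log (1 + u) ≤ u := by have := log_le_sub_one_of_pos hu1; linarith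
    have f2 := intdiv_le (c * q2 * 4294967296) q0 h0
    generalize (c * q1 * 4294967296 / q0 : ℤ) = g1 at f1 ⊢
    generalize (c * q2 * 4294967296 / q0 : ℤ) = g2 at f2 ⊢
    push_cast at f2 ⊢
    have f2' := mul_le_mul_of_nonneg_right f2 hτ2'
    have hcl := mul_le_mul_of_nonneg_left hl hc
    have e : (c : ℝ) * u * 4294967296 =
        c * q1 * 4294967296 / q0 * τ + c * q2 * 4294967296 / q0 * τ ^ 2 := by
      rw [hu]; field_simp
    nlinarith

def accL (X R : ℤ) (l : List Tm) : Acc := l.foldr (tm X R) ⟨true, 0, 0, 0⟩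

theorem accL_sound (X R : ℤ) (τ : ℝ) (hτ : |τ| ≤ 1) (l : List Tm)
    (hq : ∀ t ∈ l, 0 < t.q ((X + R * τ) / 16777216)) (hok : (accL X R l).ok = true) :
    (l.map fun t => t.val ((X + R * τ) / 16777216)).sum * 4294967296 ≤
      (accL X R l).A + (accL X R l).F1 * τ + (accL X R l).F2 * τ ^ 2 := by
  induction l with
  | nil => simp [accL]
  | cons t l ih =>
    have hq0 := hq t (by simp)
    have e : t.q ((X + R * τ) / 16777216) * 281474976710656 =
        ((t.a * X ^ 2 + t.b * X * 16777216 + t.k * 281474976710656 : ℤ) : ℝ) +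
        (((2 * t.a * X + t.b * 16777216) * R : ℤ) : ℝ) * τ + ((t.a * R ^ 2 : ℤ) : ℝ) * τ ^ 2 := by
      unfold Tm.q; push_cast; ring
    have := tm3_sound t.c (t.den * 281474976710656) _ _ _ (accL X R l) τ hτ _
      (ih fun t' ht' => hq t' (List.mem_cons_of_mem _ ht')) (by rw [← e]; positivity) hok
    rw [← e] at this
    have e2 : t.q ((X + R * τ) / 16777216) * 281474976710656 /
        ((t.den * 281474976710656 : ℕ) : ℝ) = t.q ((X + R * τ) / 16777216) / t.den := by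
      push_cast; exact mul_div_mul_right _ _ (by norm_num)
    rw [e2] at this
    rw [List.map_cons, List.sum_cons, add_mul]
    exact this

def fin (v : ℤ) (s : Acc) : Bool := s.ok && decide (s.A + |s.F1| + max s.F2 0 ≤ v)

/-- check on `[lo, hi] / 2^23`. -/
def chk (l : List Tm) (v lo hi : ℤ) : Bool := fin v (accL (lo + hi) (hi - lo) l)

theorem chk_sound (l : List Tm) (v lo hi : ℤ) (h : chk l v lo hi = true) (x : ℝ)
    (h1 : (lo : ℝ) / 8388608 ≤ x) (h2 : x ≤ hi / 8388608) (hq : ∀ t ∈ l, 0 < t.q x) :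
    (l.map fun t => t.val x).sum * 4294967296 ≤ v := by
  obtain ⟨τ, hτ, hx⟩ : ∃ τ : ℝ, |τ| ≤ 1 ∧
      x = (((lo + hi : ℤ) : ℝ) + ((hi - lo : ℤ) : ℝ) * τ) / 16777216 := by
    push_cast
    rcases eq_or_lt_of_le (show (lo : ℝ) ≤ hi by linarith) with he | hl
    · refine ⟨0, by simp, ?_⟩
      rw [← he] at h2 ⊢; linarith
    · have hp : (0 : ℝ) < hi - lo := by linarith
      refine ⟨(16777216 * x - (lo + hi)) / (hi - lo), ?_, ?_⟩
      · rw [abs_le, le_div_iff₀ hp, div_le_iff₀ hp]; constructor <;> linarith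
      · field_simp; ring
  unfold chk fin at h
  simp only [Bool.and_eq_true, decide_eq_true_eq] at h
  have := accL_sound (lo + hi) (hi - lo) τ hτ l (by rw [← hx]; exact hq) h.1
  rw [← hx] at this
  refine this.trans ?_
  have h3 : (((accL (lo + hi) (hi - lo) l).A + |(accL (lo + hi) (hi - lo) l).F1| +
      max (accL (lo + hi) (hi - lo) l).F2 0 : ℤ) : ℝ) ≤ v := by exact_mod_cast h.2
  push_cast at h3
  generalize ((accL (lo + hi) (hi - lo) l).A : ℝ) = A at *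
  generalize ((accL (lo + hi) (hi - lo) l).F1 : ℝ) = F1 at *
  generalize ((accL (lo + hi) (hi - lo) l).F2 : ℝ) = F2 at *
  have hτ2 : τ ^ 2 ≤ 1 := by rw [← sq_abs]; nlinarith [abs_nonneg τ]
  have a1 : F1 * τ ≤ |F1| := by
    refine (le_abs_self _).trans ?_
    rw [abs_mul]; nlinarith [abs_nonneg F1]
  have a2 : F2 * τ ^ 2 ≤ max F2 0 := by
    have := le_max_left F2 0
    have := le_max_right F2 0
    nlinarith [sq_nonneg τ]
  linarith

/-- check on consecutive intervals from `lo` through the break points up to the last one. -/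
def chkL (l : List Tm) (v fin : ℤ) : ℤ → List ℤ → Bool
  | lo, [] => chk l v lo fin
  | lo, b :: bs => chk l v lo b && chkL l v fin b bs

theorem chkL_sound (l : List Tm) (v fin : ℤ) (bs : List ℤ) (lo : ℤ)
    (h : chkL l v fin lo bs = true) (x : ℝ) (h1 : (lo : ℝ) / 8388608 ≤ x)
    (h2 : x ≤ fin / 8388608) (hq : ∀ t ∈ l, 0 < t.q x) :
    (l.map fun t => t.val x).sum * 4294967296 ≤ v := by
  induction bs generalizing lo with
  | nil => exact chk_sound l v lo fin h x h1 h2 hq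
  | cons b bs ih =>
    simp only [chkL, Bool.and_eq_true] at h
    rcases le_total x (b / 8388608) with h3 | h3
    · exact chk_sound l v lo b h.1 x h1 h3 hq
    · exact ih b h.2 h3

end Crest.Agent.R6.Cert
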