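import Crest.Agent.R6.Defs
import Crest.Agent.R6.CertLog

/-! The numerical certificate `CertStmt`. -/

set_option autoImplicit false

namespace Crest.Agent.R6.Cert

open Real Finset

/-- a charge `g / 2^20` at `(A + B i) / 2^16`. -/
structure Ch where
  A : ℤ
  B : ℤ
  g : ℤ

noncomputable def Ch.pos (c : Ch) : ℂ := ⟨c.A / 65536, c.B / 65536⟩
noncomputable def Ch.wt (c : Ch) : ℝ := c.g / 1048576

def Ch.ok (c : Ch) : Bool := decide (c.A ^ 2 + c.B ^ 2 < 4294967296)

theorem Ch.norm_lt (c : Ch) (h : c.ok = true) : ‖c.pos‖ < 1 := by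
  have h1 : c.A ^ 2 + c.B ^ 2 < 4294967296 := by simpa [Ch.ok] using h
  have h2 : (c.A : ℝ) ^ 2 + (c.B : ℝ) ^ 2 < 4294967296 := by exact_mod_cast h1
  rw [← sq_lt_one_iff₀ (norm_nonneg _), Complex.sq_norm, Complex.normSq_apply]
  simp only [Ch.pos]
  nlinarith

def tC (sg : ℤ) (c : Ch) : Tm :=
  ⟨sg * 18 * c.g, 17179869184 * (c.A ^ 2 + c.B ^ 2),
    -262144 * (c.A * (4294967296 + c.A ^ 2 - c.B ^ 2) + c.B * (2 * c.A * c.B)),
    (4294967296 + c.A ^ 2 - c.B ^ 2) ^ 2 + (2 * c.A * c.B) ^ 2, 18446744073709551616⟩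

def tR (c : Ch) : Tm := ⟨18 * c.g, c.A ^ 2 + c.B ^ 2, -131072 * c.A, 4294967296, 4294967296⟩

theorem tC_q (sg : ℤ) (c : Ch) (x : ℝ) :
    (tC sg c).q x / (tC sg c).den = ‖1 - 2 * (x : ℂ) * c.pos + c.pos ^ 2‖ ^ 2 := by
  rw [Complex.sq_norm, Complex.normSq_apply]
  simp [tC, Tm.q, Ch.pos, pow_two]
  ring

theorem tR_q (c : Ch) (x : ℝ) : (tR c).q x / (tR c).den = ‖1 - (x : ℂ) * c.pos‖ ^ 2 := by
  rw [Complex.sq_norm, Complex.normSq_apply]
  simp [tR, Tm.q, Ch.pos, pow_two]
  ring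

theorem one_sub_ne {w : ℂ} (h : ‖w‖ < 1) : 1 - w ≠ 0 := by
  intro h0
  have : w = 1 := by linear_combination -h0
  rw [this] at h; simp at h

theorem quad_ne {x : ℝ} (hx : |x| ≤ 1) {y : ℂ} (hy : ‖y‖ < 1) :
    1 - 2 * (x : ℂ) * y + y ^ 2 ≠ 0 := by
  have hx2 : 0 ≤ 1 - x ^ 2 := by rw [← sq_abs]; nlinarith [abs_nonneg x]
  have hs : ((√(1 - x ^ 2) : ℝ) : ℂ) ^ 2 = 1 - (x : ℂ) ^ 2 := by
    rw [← Complex.ofReal_pow, sq_sqrt hx2]; push_cast; ring
  have e : 1 - 2 * (x : ℂ) * y + y ^ 2 =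
      (1 - (x + √(1 - x ^ 2) * Complex.I) * y) * (1 - (x - √(1 - x ^ 2) * Complex.I) * y) := by
    have hI := Complex.I_sq
    linear_combination (-(y ^ 2)) * hs + (y ^ 2 * ((√(1 - x ^ 2) : ℝ) : ℂ) ^ 2) * hI
  have n1 : ‖(x : ℂ) + √(1 - x ^ 2) * Complex.I‖ = 1 := by
    rw [Complex.norm_add_mul_I, sq_sqrt hx2]; simp
  have n2 : ‖(x : ℂ) - √(1 - x ^ 2) * Complex.I‖ = 1 := by
    have : (x : ℂ) - √(1 - x ^ 2) * Complex.I = x + ((-√(1 - x ^ 2) : ℝ) : ℂ) * Complex.I := by
      push_cast; ring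
    rw [this, Complex.norm_add_mul_I, neg_sq, sq_sqrt hx2]; simp
  rw [e]
  exact mul_ne_zero (one_sub_ne (by rw [norm_mul, n1, one_mul]; exact hy))
    (one_sub_ne (by rw [norm_mul, n2, one_mul]; exact hy))

theorem tC_pos (sg : ℤ) (c : Ch) (h : c.ok = true) {x : ℝ} (hx : |x| ≤ 1) : 0 < (tC sg c).q x := by
  have h1 := tC_q sg c x
  have h2 : 0 < ‖1 - 2 * (x : ℂ) * c.pos + c.pos ^ 2‖ ^ 2 :=
    pow_pos (norm_pos_iff.2 (quad_ne hx (c.norm_lt h))) 2
  rw [← h1] at h2
  exact (div_pos_iff_of_pos_right (by simp [tC])).1 h2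

theorem tR_pos (c : Ch) (h : c.ok = true) {x : ℝ} (hx : |x| ≤ 1) : 0 < (tR c).q x := by
  have h1 := tR_q c x
  have h3 : ‖(x : ℂ) * c.pos‖ < 1 := by
    rw [norm_mul, Complex.norm_real, Real.norm_eq_abs]
    have := c.norm_lt h
    nlinarith [norm_nonneg c.pos, abs_nonneg x]
  have h2 : 0 < ‖1 - (x : ℂ) * c.pos‖ ^ 2 := pow_pos (norm_pos_iff.2 (one_sub_ne h3)) 2
  rw [← h1] at h2
  exact (div_pos_iff_of_pos_right (by simp [tR])).1 h2

theorem tC_val (sg : ℤ) (c : Ch) (x : ℝ) : (tC sg c).val x =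
    sg * (36 * 1048576) * (c.wt * log ‖1 - 2 * (x : ℂ) * c.pos + c.pos ^ 2‖) := by
  unfold Tm.val
  rw [tC_q, log_pow]
  simp only [tC, Ch.wt]; push_cast; ring

theorem tR_val (c : Ch) (x : ℝ) : (tR c).val x =
    (36 * 1048576) * (c.wt * log ‖1 - (x : ℂ) * c.pos‖) := by
  unfold Tm.val
  rw [tR_q, log_pow]
  simp only [tR, Ch.wt]; push_cast; ring

noncomputable def wts (L : List Ch) : Fin L.length → ℝ := fun i => (L[i.1]).wt
noncomputable def pts (L : List Ch) : Fin L.length → ℂ := fun i => (L[i.1]).pos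

theorem sum_tC (sg : ℤ) (L : List Ch) (x : ℝ) :
    ((L.map (tC sg)).map fun t => t.val x).sum = sg * (36 * 1048576) * potC (wts L) (pts L) x := by
  unfold potC wts pts
  rw [Fin.sum_univ_fun_getElem L
    (fun c => c.wt * log ‖1 - 2 * (x : ℂ) * c.pos + c.pos ^ 2‖), List.map_map, ← List.sum_map_mul_left]
  congr 1
  exact List.map_congr_left fun c _ => tC_val sg c x

theorem sum_tR (L : List Ch) (x : ℝ) :
    ((L.map tR).map fun t => t.val x).sum = (36 * 1048576) * potR (wts L) (pts L) x := by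
  unfold potR wts pts
  rw [Fin.sum_univ_fun_getElem L
    (fun c => c.wt * log ‖1 - (x : ℂ) * c.pos‖), List.map_map, ← List.sum_map_mul_left]
  congr 1
  exact List.map_congr_left fun c _ => tR_val c x

def TV (a m : ℤ) (Y Z : List Ch) : List Tm :=
  ⟨a * 524288, 1, 0, 0, 1⟩ :: ⟨49284096, 0, 0, 2, 1⟩ :: ⟨-(m * 1048576), 1, 0, 1, 1⟩ ::
    ⟨4193280, 0, -1, 1, 1⟩ :: (Y.map (tC 1) ++ Z.map tR)

def TW (Z : List Ch) : List Tm :=
  ⟨6291456, 0, 1, 0, 1⟩ :: ⟨2096128, 0, -1, 1, 1⟩ :: Z.map (tC (-1))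

def pairB (c c' : Ch) : ℤ :=
  clog (-162 * c.g * c'.g)
      ((4294967296 - (c.A * c'.A + c.B * c'.B)) ^ 2 + (c.B * c'.A - c.A * c'.B) ^ 2).toNat
      18446744073709551616 +
    clog (-162 * c.g * c'.g)
      ((4294967296 - (c.A * c'.A - c.B * c'.B)) ^ 2 + (c.A * c'.B + c.B * c'.A) ^ 2).toNat
      18446744073709551616

theorem clog_norm (k n : ℤ) (w : ℂ) (hw : w ≠ 0)
    (h : (n : ℝ) / 18446744073709551616 = ‖w‖ ^ 2) :
    k * (2 * log ‖w‖) * 4294967296 ≤ clog k n.toNat 18446744073709551616 := by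
  have h1 : 0 < ‖w‖ ^ 2 := pow_pos (norm_pos_iff.2 hw) 2
  have h2 : (0 : ℝ) < n := by
    rw [← h] at h1; exact (div_pos_iff_of_pos_right (by norm_num)).1 h1
  have h3 : 0 < n := by exact_mod_cast h2
  have h4 := clog_sound k n.toNat 18446744073709551616 (by omega) (by norm_num)
  have hc0 : ((n.toNat : ℕ) : ℝ) = n := by
    have : ((n.toNat : ℕ) : ℤ) = n := Int.toNat_of_nonneg h3.le
    exact_mod_cast this
  rw [hc0, Nat.cast_ofNat, h, log_pow] at h4
  simpa using h4

theorem pairB_sound (c c' : Ch) (h : c.ok = true) (h' : c'.ok = true) :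
    -648 * (c.wt * c'.wt * ((log ‖1 - c.pos * (starRingEnd ℂ) c'.pos‖ +
      log ‖1 - c.pos * c'.pos‖) / 2)) * 4722366482869645213696 ≤ pairB c c' := by
  have n1 := c.norm_lt h
  have n2 := c'.norm_lt h'
  have m : ‖c.pos‖ * ‖c'.pos‖ < 1 := by nlinarith [norm_nonneg c.pos, norm_nonneg c'.pos]
  have a1 := clog_norm (-162 * c.g * c'.g)
    ((4294967296 - (c.A * c'.A + c.B * c'.B)) ^ 2 + (c.B * c'.A - c.A * c'.B) ^ 2)
    (1 - c.pos * (starRingEnd ℂ) c'.pos)
    (one_sub_ne (by rw [norm_mul, Complex.norm_conj]; exact m)) (by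
      rw [Complex.sq_norm, Complex.normSq_apply]
      simp [Ch.pos]
      ring)
  have a2 := clog_norm (-162 * c.g * c'.g)
    ((4294967296 - (c.A * c'.A - c.B * c'.B)) ^ 2 + (c.A * c'.B + c.B * c'.A) ^ 2)
    (1 - c.pos * c'.pos) (one_sub_ne (by rw [norm_mul]; exact m)) (by
      rw [Complex.sq_norm, Complex.normSq_apply]
      simp [Ch.pos]
      ring)
  unfold pairB
  rw [Int.cast_add]
  refine le_trans (le_of_eq ?_) (add_le_add a1 a2)
  simp only [Ch.wt]; push_cast; ring

def selfB (L : List Ch) : ℤ := (L.map fun c => (L.map fun c' => pairB c c').sum).sum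

theorem selfB_sound (L : List Ch) (h : L.all Ch.ok = true) :
    -648 * selfE (wts L) (pts L) * 4722366482869645213696 ≤ selfB L := by
  have hL : ∀ i : Fin L.length, (L[i.1]).ok = true := fun i =>
    List.all_eq_true.1 h _ (List.getElem_mem i.2)
  unfold selfB selfE
  rw [← Fin.sum_univ_fun_getElem L (fun c => (L.map fun c' => pairB c c').sum)]
  rw [Finset.mul_sum, Finset.sum_mul, Int.cast_sum]
  refine Finset.sum_le_sum fun i _ => ?_
  rw [← Fin.sum_univ_fun_getElem L (fun c' => pairB L[i.1] c')]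
  rw [Finset.mul_sum, Finset.sum_mul, Int.cast_sum]
  exact Finset.sum_le_sum fun j _ => pairB_sound _ _ (hL i) (hL j)

theorem cert_of_check (a m c₀ : ℤ) (Y Z : List Ch) (v w : ℤ) (bx bs : List ℤ)
    (hY : Y.all Ch.ok = true) (hZ : Z.all Ch.ok = true)
    (hV : chkL (TV a m Y Z) (v * 4294967296) 8388608 (-8388608) bx = true)
    (hW : chkL (TW Z) (w * 4294967296) 8388608 0 bs = true)
    (hT : 36 * (v + w) * 4503599627370496 + c₀ * 4722366482869645213696
      - 1944 * 2977044470 * 1099511627776 + selfB Y + selfB Z ≤ -2506 * 4722366482869645213696) :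
    Cert a m c₀ := by
  have hY' : ∀ c ∈ Y, c.ok = true := List.all_eq_true.1 hY
  have hZ' : ∀ c ∈ Z, c.ok = true := List.all_eq_true.1 hZ
  refine ⟨Y.length, Z.length, wts Y, pts Y, wts Z, pts Z, v / 1048576, w / 1048576,
    fun i => Ch.norm_lt _ (hY' _ (List.getElem_mem i.2)),
    fun i => Ch.norm_lt _ (hZ' _ (List.getElem_mem i.2)), ?_, ?_, ?_⟩
  · rintro x ⟨h1, h2⟩ h0
    have hx : |x| ≤ 1 := abs_le.2 ⟨h1.le, h2.le⟩
    have := chkL_sound _ _ _ _ _ hV x (by push_cast; linarith) (by push_cast; linarith) (by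
      intro t ht
      simp only [TV, List.mem_cons, List.mem_append, List.mem_map] at ht
      rcases ht with rfl | rfl | rfl | rfl | ⟨c, hc, rfl⟩ | ⟨c, hc, rfl⟩
      · simp only [Tm.q]; push_cast; have := pow_pos (abs_pos.2 h0) 2; rw [sq_abs] at this; linarith
      · simp only [Tm.q]; push_cast; linarith
      · simp only [Tm.q]; push_cast; nlinarith [sq_nonneg x]
      · simp only [Tm.q]; push_cast; linarith
      · exact tC_pos 1 c (hY' c hc) hx
      · exact tR_pos c (hZ' c hc) hx)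
    simp only [TV, List.map_cons, List.sum_cons, List.map_append, List.sum_append] at this
    rw [sum_tC, sum_tR] at this
    simp only [Tm.val, Tm.q] at this
    push_cast at this
    have e1 : log ((1 * x ^ 2 + 0 * x + 0) / 1) = 2 * log |x| := by
      have : (1 * x ^ 2 + 0 * x + 0) / 1 = x ^ 2 := by ring
      rw [this, log_abs, log_pow]; norm_num
    have e2 : log ((0 * x ^ 2 + 0 * x + 2) / 1) = log 2 := by congr 1; ring
    have e3 : log ((1 * x ^ 2 + 0 * x + 1) / 1) = log (1 + x ^ 2) := by congr 1; ring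
    have e4 : log ((0 * x ^ 2 + -1 * x + 1) / 1) = log (1 - x) := by congr 1; ring
    have e5 : log ((1 - x) / 2) = log (1 - x) - log 2 := log_div (by linarith) (by norm_num)
    rw [e1, e2, e3, e4] at this
    rw [e5, le_div_iff₀ (by norm_num)]
    linarith
  · rintro x ⟨h1, h2⟩
    have hx : |x| ≤ 1 := abs_le.2 ⟨by linarith, h2.le⟩
    have := chkL_sound _ _ _ _ _ hW x (by push_cast; linarith) (by push_cast; linarith) (by
      intro t ht
      simp only [TW, List.mem_cons, List.mem_map] at ht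
      rcases ht with rfl | rfl | ⟨c, hc, rfl⟩
      · simp only [Tm.q]; push_cast; linarith
      · simp only [Tm.q]; push_cast; linarith
      · exact tC_pos (-1) c (hZ' c hc) hx)
    simp only [TW, List.map_cons, List.sum_cons] at this
    rw [sum_tC] at this
    simp only [Tm.val, Tm.q] at this
    push_cast at this
    have e1 : log ((0 * x ^ 2 + 1 * x + 0) / 1) = log x := by congr 1; ring
    have e4 : log ((0 * x ^ 2 + -1 * x + 1) / 1) = log (1 - x) := by congr 1; ring
    rw [e1, e4] at this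
    rw [le_div_iff₀ (by norm_num)]
    linarith
  · have s1 := selfB_sound Y hY
    have s2 := selfB_sound Z hZ
    have h2 := log_two_gt_d9
    have hT' : ((36 * (v + w) * 4503599627370496 + c₀ * 4722366482869645213696
      - 1944 * 2977044470 * 1099511627776 + selfB Y + selfB Z : ℤ) : ℝ) ≤
        ((-2506 * 4722366482869645213696 : ℤ) : ℝ) := by exact_mod_cast hT
    push_cast at hT'
    linarith

def Y1 : List Ch :=
  [⟨-14681, 35972, 294579⟩, ⟨-131, 60728, -319108⟩, ⟨-816, 42076, 623522⟩,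
   ⟨-5457, 63862, -58507⟩, ⟨15302, 24779, 545439⟩, ⟨10989, 35279, 503321⟩,
   ⟨5230, 63848, -66661⟩, ⟨63070, 6263, -49472⟩, ⟨58940, 0, -129445⟩, ⟨-18355, 0, -1317311⟩,
   ⟨-52218, 0, -40755⟩]

def Z1 : List Ch :=
  [⟨65210, 372, 58071⟩, ⟨2904, 37994, -1267111⟩, ⟨-12051, 37327, 1611988⟩,
   ⟨1856, 54442, -956182⟩, ⟨-2360, 57144, 1024320⟩, ⟨1518, 61286, -406987⟩,
   ⟨137, 64221, 581079⟩, ⟨528, 64232, -546019⟩, ⟨15580, 0, 416826⟩, ⟨-22873, 0, 2108073⟩,
   ⟨-63561, 0, 51022⟩]

def bx1 : List ℤ :=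
  [-8358766, -8316800, -8269589, -8216477, -8156726, -8089507, -8013886, -7928813, -7833107,
   -7725438, -7604311, -7468044, -7314744, -7142282, -6948263, -6729992, -6499785, -6256989,
   -6052131, -5821666, -5578598, -5373510, -5142786, -4899444, -4694125, -4463142, -4219528,
   -4013980, -3797192, -3614278, -3408500, -3234875, -3051756, -2897250, -2734294, -2596801,
   -2442122, -2311613, -2173967, -2057829, -1935340, -1831991, -1722990, -1631022, -1553424,
   -1466127, -1392471, -1314787, -1249242, -1193940, -1131726, -1079234, -1023872, -977161,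
   -924612, -865495, -782362, -657663, -517377, -359556, -122825, 0, 245650, 439963, 593666,
   723352, 805418, 874661, 933084, 982377, 1034365, 1089196, 1147025, 1208016, 1276630, 1348996,
   1425319, 1511182, 1601740, 1697249, 1797981, 1904222, 2016273, 2142330, 2275279, 2415498,
   2563385, 2719359, 2883862, 3057360, 3240346, 3394740, 3568433, 3763837, 3969926, 4187284,
   4370679, 4576998, 4809106, 5004946, 5225266, 5411161, 5620292, 5796746, 5995256, 6162748,
   6339400, 6488449, 6645648, 6778284, 6918173, 7036203, 7135790, 7247825, 7342354, 7422112,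
   7506231, 7577205, 7637088, 7704456, 7761297, 7809255, 7859836, 7902513, 7938521, 7979030,
   8013209, 8042047, 8074489, 8101861, 8124955, 8150935, 8172855, 8191350, 8212156, 8229710,
   8244521, 8257017, 8267560, 8278679, 8288060, 8295974, 8304877, 8314266, 8324828, 8336710,
   8353419, 8376916]

def bs1 : List ℤ :=
  [37303, 66809, 90148, 104917, 120493, 136921, 155402, 183123, 214308, 240619, 268368, 291780,
   316472, 337305, 359277, 382450, 406889, 434382, 465311, 500105, 539248, 583283, 632822,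
   674620, 721642, 774541, 819174, 869385, 911750, 959410, 1009676, 1062690, 1107420, 1157741,
   1214351, 1278037, 1349683, 1430284, 1515292, 1604949, 1705812, 1790914, 1886653, 1994359,
   2085235, 2187470, 2295296, 2386274, 2488624, 2596571, 2710422, 2806483, 2914551, 3036127,
   3164351, 3299588, 3451729, 3612190, 3781426, 3959917, 4148169, 4346716, 4514239, 4702702,
   4901471, 5069181, 5257854, 5456845, 5624743, 5813628, 6012842, 6180928, 6370024, 6569461,
   6737735, 6927043, 7086771, 7255234, 7397374, 7517304, 7618494, 7725217, 7815264, 7891240,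
   7955344, 8009431, 8055066, 8093570, 8126057, 8160320, 8189228, 8213618, 8234196, 8251558,
   8266207, 8281656, 8294690, 8305687, 8314965, 8324749, 8333004, 8339968, 8345843, 8350799,
   8356026, 8360436, 8364156, 8367294, 8369941, 8372173, 8374527, 8376513, 8378188, 8379601,
   8380792, 8381796, 8382642, 8383355, 8383955, 8384588, 8385121, 8385570, 8385948, 8386266,
   8386533, 8386758, 8386995, 8387194, 8387361, 8387548, 8387705, 8387871, 8388010, 8388166,
   8388297, 8388444]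

def Y2 : List Ch :=
  [⟨2099, 31670, 7798524⟩, ⟨519, 63779, -240449⟩]

def Z2 : List Ch :=
  [⟨9150, 35114, -1625757⟩, ⟨-472, 56747, -3185888⟩, ⟨-2944, 55951, 3182507⟩,
   ⟨7536, 0, -6469755⟩, ⟨63254, 0, 67779⟩]

def bx2 : List ℤ :=
  [-5800059, -4161994, -3125407, -2250787, -1697317, -1230328, -860934, -568737, -328802,
   -143852, 0, 113788, 273802, 400375, 542769, 756360, 1076746, 1557325, 2278193, 3089169,
   4001517, 5027908, 6182597, 7733699]

def bs2 : List ℤ :=
  [113843, 241916, 498062, 858268, 1263499, 1605412, 1990063, 2422795, 2909618, 3457293,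
   4073427, 4766577, 5546370, 6423636, 7117567, 7519732, 7837850, 8012112, 8149955, 8225465,
   8285194, 8317914, 8345521, 8362562, 8373549, 8379901, 8384798, 8387655]

end Crest.Agent.R6.Cert
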