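import Crest.Agent.R6.Red
import Crest.Agent.R6.CertBData

/-! Row 6: the three fixed determinants are nonzero (they are units modulo `53`). -/

set_option autoImplicit false

namespace Crest.Agent.R6

open Polynomial Finset

namespace CertB

instance fact53 : Fact (Nat.Prime 53) := ⟨by norm_num⟩

theorem sumTo_eq (f : ℕ → ℕ) (n : ℕ) : sumTo f n = ∑ i ∈ range n, f i := by
  induction n with
  | zero => rfl
  | succ n ih => rw [sum_range_succ, ← ih]; rfl

theorem allTo_sound {f : ℕ → Bool} {n : ℕ} (h : allTo f n = true) : ∀ i < n, f i = true := by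
  induction n with
  | zero => intro i hi; omega
  | succ n ih =>
    have h' : (f n && allTo f n) = true := h
    rw [Bool.and_eq_true] at h'
    intro i hi
    rcases Nat.lt_succ_iff_lt_or_eq.1 hi with hi | rfl
    exacts [ih h'.2 i hi, h'.1]

theorem cg_sound {a b : ℕ} (h : cg a b = true) : (a : ZMod 53) = b :=
  (ZMod.natCast_eq_natCast_iff' a b 53).2 (Nat.eq_of_beq_eq_true h)

/-- check of `Red 53 q r` -/
def redB (q : ℚ) (r : ℕ) : Bool :=
  !(Nat.beq (q.den % 53) 0) && decide ((q.num - r * q.den) % 53 = 0)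

theorem redB_sound {q : ℚ} {r : ℕ} (h : redB q r = true) : Red 53 q r := by
  simp only [redB, Bool.and_eq_true, Bool.not_eq_true', decide_eq_true_eq] at h
  have h1 : ¬ 53 ∣ q.den := fun hd => by
    have h2 := h.1
    rw [Nat.mod_eq_zero_of_dvd hd] at h2
    exact absurd h2 (by decide)
  refine ⟨h1, ?_⟩
  have h3 : ((q.num - r * q.den : ℤ) : ZMod 53) = 0 :=
    (ZMod.intCast_zmod_eq_zero_iff_dvd _ 53).2 (Int.dvd_of_emod_eq_zero h.2)
  push_cast at h3
  rw [Rat.cast_def, div_eq_iff (Red.den_ne h1), ← sub_eq_zero]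
  exact h3

theorem bdry_ok :
    allTo (fun i => redB (al i) (am i) && redB (colA i) (ta i 0) &&
      redB (harmonic i / i) (tz i 0)) 49 = true ∧
    allTo (fun j => redB (rowA j) (ta 0 (j + 1)) &&
      redB (harmonic (j + 1) / (j + 1)) (tz 0 (j + 1))) 43 = true := by
  constructor <;> decide +kernel

theorem succ_ne {k : ℕ} (h : k < 52) : ((k : ZMod 53) + 1) ≠ 0 := by
  have := natCast_ne_zero_of_lt (p := 53) (k := k + 1) (by omega) (by omega)
  rwa [Nat.cast_succ] at this

theorem red_succ (k : ℕ) : Red 53 ((k : ℚ) + 1) ((k : ZMod 53) + 1) := (Red.natCast k).add Red.one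

theorem red_tA : ∀ i j, i < 49 → j < 44 → Red 53 (tA i j) (ta i j) := by
  intro i
  induction i with
  | zero =>
    rintro (_ | j) hi hj
    · have := allTo_sound bdry_ok.1 0 hi
      simp only [Bool.and_eq_true] at this
      exact redB_sound this.1.2
    · have := allTo_sound bdry_ok.2 j (by omega)
      simp only [Bool.and_eq_true] at this
      exact redB_sound this.1
  | succ i ih =>
    rintro (_ | j) hi hj
    · have := allTo_sound bdry_ok.1 _ hi
      simp only [Bool.and_eq_true] at this
      exact redB_sound this.1.2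
    · have h1 := allTo_sound bdry_ok.1 i (by omega)
      simp only [Bool.and_eq_true] at h1
      have h2 := cg_sound (allTo_sound (allTo_sound chkA_ok i (by omega)) j (by omega))
      push_cast at h2
      have h3 := succ_ne (k := j) (by omega)
      refine ((ih j (by omega) (by omega)).sub
        ((redB_sound h1.1.1).div (red_succ j) h3)).congr (tA_succ_succ i j).symm ?_
      rw [sub_eq_iff_eq_add, eq_comm, ← eq_sub_iff_add_eq', div_eq_iff h3]
      linear_combination h2

theorem red_tZ : ∀ i j, i < 49 → j < 44 → Red 53 (tZ i j) (tz i j) := by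
  intro i
  induction i with
  | zero =>
    rintro (_ | j) hi hj
    · have := allTo_sound bdry_ok.1 0 hi
      simp only [Bool.and_eq_true] at this
      exact redB_sound this.2
    · have := allTo_sound bdry_ok.2 j (by omega)
      simp only [Bool.and_eq_true] at this
      exact redB_sound this.2
  | succ i ih =>
    rintro (_ | j) hi hj
    · have := allTo_sound bdry_ok.1 _ hi
      simp only [Bool.and_eq_true] at this
      exact redB_sound this.2
    · have h2 := cg_sound (allTo_sound (allTo_sound chkZ_ok i (by omega)) j (by omega))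
      push_cast at h2
      have h3 := mul_ne_zero (succ_ne (k := i) (by omega)) (succ_ne (k := j) (by omega))
      refine ((ih j (by omega) (by omega)).sub
        (Red.one.div ((red_succ i).mul (red_succ j)) h3)).congr (tZ_succ_succ i j).symm ?_
      rw [sub_eq_iff_eq_add, eq_comm, ← eq_sub_iff_add_eq', div_eq_iff h3]
      linear_combination h2

noncomputable def Q (u : ℕ) : ℤ[X] := (1 - X) ^ 2 * pp u
noncomputable def E (u : ℕ) : ℤ[X] := (1 - X) ^ 2 * dd u

theorem Q_zero : Q 0 = 1 - C 2 * X + X ^ 2 := by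
  rw [Q, pp_zero, map_ofNat]; ring

theorem E_zero : E 0 = 0 := by rw [E, dd_zero, mul_zero]

theorem Q_succ (u i : ℕ) : (Q (u + 1)).coeff i =
    (Q u).coeff i + (E u).coeff i - if 2 ≤ i then (E u).coeff (i - 2) else 0 := by
  have : Q (u + 1) = Q u + E u - X ^ 2 * E u := by rw [Q, Q, E, pp_succ]; ring
  rw [this, coeff_sub, coeff_add, coeff_X_pow_mul']

theorem E_succ (u i : ℕ) : (E (u + 1)).coeff i = (Q u).coeff i + (E u).coeff i := by
  have : E (u + 1) = Q u + E u := by rw [Q, E, E, dd_succ]; ring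
  rw [this, coeff_add]

theorem coeff_zero (u : ℕ) :
    (∀ i, u + 2 < i → (Q u).coeff i = 0) ∧ ∀ i, u + 1 < i → (E u).coeff i = 0 := by
  induction u with
  | zero =>
    refine ⟨fun i hi => ?_, fun i _ => by rw [E_zero, Polynomial.coeff_zero]⟩
    rw [Q_zero, coeff_add, coeff_sub, coeff_C_mul, coeff_one, coeff_X, coeff_X_pow,
      if_neg (by omega), if_neg (by omega), if_neg (by omega)]
    rfl
  | succ u ih =>
    refine ⟨fun i hi => ?_, fun i hi => ?_⟩
    · rw [Q_succ, ih.1 i (by omega), ih.2 i (by omega), ih.2 (i - 2) (by omega), ite_self]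
      rfl
    · rw [E_succ, ih.1 i (by omega), ih.2 i (by omega)]
      rfl

theorem coeff_mod (u : ℕ) (hu : u < 34) : ∀ i < 36,
    (((Q u).coeff i : ℤ) : ZMod 53) = qm u i ∧ (((E u).coeff i : ℤ) : ZMod 53) = em u i := by
  have h := chkQ_ok
  rw [chkQ, Bool.and_eq_true] at h
  induction u with
  | zero =>
    intro i hi
    have h1 := allTo_sound h.1 i hi
    rw [Bool.and_eq_true] at h1
    rw [cg_sound h1.1, cg_sound h1.2, E_zero, Q_zero, coeff_add, coeff_sub, coeff_C_mul, coeff_one,
      coeff_X, coeff_X_pow]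
    refine ⟨?_, by simp⟩
    rcases i with _ | _ | _ | i
    · rfl
    · rfl
    · rfl
    · rw [if_neg (by omega), if_neg (by omega), if_neg (by omega)]
      rfl
  | succ u ih =>
    intro i hi
    have h1 := allTo_sound (allTo_sound h.2 u (by omega)) i hi
    rw [Bool.and_eq_true] at h1
    have h2 := cg_sound h1.1
    have h3 := cg_sound h1.2
    have h4 := ih (by omega) i hi
    rw [Q_succ, E_succ, h3]
    refine ⟨?_, by push_cast; rw [h4.1, h4.2]⟩
    by_cases h5 : 2 ≤ i
    · rw [Nat.ble_eq_true_of_le h5, cond_true] at h2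
      rw [if_pos h5]
      push_cast at h2 ⊢
      rw [h4.1, h4.2, (ih (by omega) (i - 2) (by omega)).2]
      linear_combination -h2
    · rw [Bool.eq_false_iff.2 fun h6 => h5 (Nat.le_of_ble_eq_true h6), cond_false] at h2
      rw [if_neg h5]
      push_cast at h2 ⊢
      rw [h4.1, h4.2]
      linear_combination -h2

theorem lin_shift (a : ℕ → ℚ) (z : ℤ) (s : ℕ) {P : ℤ[X]} {m : ℕ}
    (h : ∀ i, m < i → P.coeff i = 0) :
    lin a (C z * X ^ s * P) = z * ∑ i ∈ range (m + 1), (P.coeff i : ℚ) * a (s + i) := by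
  have h1 : (C z * X ^ s * P).natDegree < s + (m + 1) := by
    refine Nat.lt_succ_of_le (n := _) (m := s + m)
      (natDegree_le_iff_coeff_eq_zero.2 fun i (hi : s + m < i) => ?_)
    rw [mul_assoc, coeff_C_mul, coeff_X_pow_mul', h _ (by omega), ite_self, mul_zero]
  rw [lin_eq_range a _ h1, sum_range_add, sum_eq_zero, zero_add, mul_sum]
  · refine sum_congr rfl fun i _ => ?_
    rw [mul_assoc, coeff_C_mul, coeff_X_pow_mul', if_pos (Nat.le_add_right _ _),
      Nat.add_sub_cancel_left]
    push_cast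
    ring
  · intro i hi
    rw [mul_assoc, coeff_C_mul, coeff_X_pow_mul', if_neg (by simpa using hi)]
    simp

theorem red_cs (r : ℕ) : Red 53 (-(3 / 4 * (((r : ℤ) - 3).sign : ℚ))) (cs r) := by
  rcases lt_trichotomy r 3 with h | rfl | h
  · rw [Int.sign_eq_neg_one_of_neg (by omega), cs, Nat.ble_eq_true_of_le (by omega : r ≤ 2), cond_true]
    exact redB_sound (by decide +kernel)
  · exact redB_sound (by decide +kernel)
  · rw [Int.sign_eq_one_of_pos (by omega), cs,
      Bool.eq_false_iff.2 fun h6 => absurd (Nat.le_of_ble_eq_true h6) (by omega : ¬ r ≤ 2),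
      Bool.eq_false_iff.2 fun h6 => absurd (Nat.le_of_ble_eq_true h6) (by omega : ¬ r ≤ 3)]
    exact redB_sound (by decide +kernel)

theorem red_V {r j : ℕ} (hr : r < 37) (hj : j < 44) :
    Red 53 (V 0 (rowP 47 2 ((r : ℤ) - 3)) (rowD 47 2 ((r : ℤ) - 3)) j) (vm r j) := by
  have ha : ((r : ℤ) - 3).natAbs = ab r := by unfold ab; omega
  have hb : ab r < 34 := by unfold ab; omega
  have e1 : rowP 47 2 ((r : ℤ) - 3) = C 1 * X ^ (46 - ab r) * Q (ab r) := by
    rw [rowP, ha, Q, map_one]; ring
  have e2 : rowD 47 2 ((r : ℤ) - 3) = C ((r : ℤ) - 3).sign * X ^ (47 - ab r) * E (ab r) := by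
    rw [rowD, ha, E]; ring
  have h := cg_sound (allTo_sound (allTo_sound chkV_ok r hr) j hj)
  simp only [sumTo_eq, Nat.add_eq, Nat.mul_eq] at h
  push_cast at h
  rw [V, e1, e2, lin_shift _ _ _ (coeff_zero _).1, lin_shift _ _ _ (coeff_zero _).2, h]
  refine (Red.add (Red.sum (s := range (ab r + 2 + 1))
    (a := fun i => ((Q (ab r)).coeff i : ℚ) * tA (46 - ab r + i) j) fun i hi => ?_)
    ((red_cs r).mul (Red.sum (s := range (ab r + 1 + 1))
    (a := fun i => ((E (ab r)).coeff i : ℚ) * tZ (47 - ab r + i) j) fun i hi => ?_))).congr_left ?_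
  · rw [mem_range] at hi
    exact ((Red.intCast _).congr_right (coeff_mod _ hb i (by omega)).1).mul
      (red_tA _ _ (by omega) hj)
  · rw [mem_range] at hi
    exact ((Red.intCast _).congr_right (coeff_mod _ hb i (by omega)).2).mul
      (red_tZ _ _ (by omega) hj)
  · simp only [zero_mul, add_zero, Int.cast_one, one_mul]
    ring

theorem red_ent {r k : ℕ} (hr : r < 37) (hk : k < 36) :
    Red 53 (ent 0 1 ((r : ℤ) - 3) k) (en r k) := by
  have e1 : colQ 1 k = C 1 * X ^ (6 + k) * Q 0 := by
    rw [colQ, Q, pp_zero, map_one]; ring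
  have c0 : (Q 0).coeff 0 = 1 := by simp [Q_zero]
  have c1 : (Q 0).coeff 1 = -2 := by simp [Q_zero, coeff_one]
  have c2 : (Q 0).coeff 2 = 1 := by simp [Q_zero, coeff_one, coeff_X]
  have h2 : Red 53 (-2) (51 : ℕ) := redB_sound (by decide +kernel)
  rw [ent, e1, lin_shift _ _ _ (coeff_zero 0).1]
  refine (((red_V hr (j := 6 + k) (by omega)).add (h2.mul (red_V hr (j := 7 + k) (by omega)))).add
    (red_V hr (j := 8 + k) (by omega))).congr ?_ ?_
  · simp only [sum_range_succ, sum_range_zero, c0, c1, c2, mul_one, add_zero,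
      show 6 + k + 1 = 7 + k by omega, show 6 + k + 2 = 8 + k by omega]
    push_cast
    ring
  · rw [en]
    push_cast
    rfl

theorem det_ne {c b i : ℕ} {z : ℚ} (hz : Red 53 z c) (hB : chkB c b = true) (hI : chkI b i = true) :
    (B0 + z • B1).det ≠ 0 := by
  refine (Red.det (p := 53) (B := Matrix.of fun r k : Fin 36 => (lk2 b 36 r k : ZMod 53))
    fun r k => ?_).ne_zero ?_
  · have h1 := red_ent (r := r) (by omega) k.2
    have h2 := red_ent (r := r + 1) (by omega) k.2
    rw [show (((r : ℕ) + 1 : ℕ) : ℤ) - 3 = (r : ℕ) - 2 by omega] at h2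
    refine (h1.add (hz.mul h2)).congr rfl ?_
    rw [Matrix.of_apply, cg_sound (allTo_sound (allTo_sound hB r r.2) k k.2)]
    push_cast
    rfl
  · refine Matrix.det_ne_zero_of_right_inverse
      (B := Matrix.of fun r k : Fin 36 => (lk2 i 36 r k : ZMod 53)) ?_
    ext r c
    have h := cg_sound (allTo_sound (allTo_sound hI r r.2) c c.2)
    simp only [sumTo_eq, Nat.mul_eq] at h
    push_cast at h
    rw [Matrix.mul_apply, Matrix.one_apply]
    simp only [Matrix.of_apply]
    rw [Fin.sum_univ_eq_sum_range (fun k => (lk2 b 36 r k : ZMod 53) * lk2 i 36 k c), h]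
    by_cases hrc : r = c
    · rw [if_pos hrc, hrc, Nat.beq_refl, cond_true, Nat.cast_one]
    · rw [if_neg hrc, Bool.eq_false_iff.2 fun h6 => hrc (Fin.ext (Nat.eq_of_beq_eq_true h6)),
        cond_false, Nat.cast_zero]

end CertB

open CertB in
theorem certB : CertBStmt := by
  refine ⟨?_, ?_, ?_⟩
  · simpa using det_ne (z := 0) (redB_sound (by decide +kernel)) chkB0_ok chkI0_ok
  · simpa using det_ne (z := 1) (redB_sound (by decide +kernel)) chkB1_ok chkI1_ok
  · simpa [sub_eq_add_neg] using det_ne (z := -1) (redB_sound (by decide +kernel)) chkB2_ok chkI2_ok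

end Crest.Agent.R6
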