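import Crest.Agent.R6.CertA

set_option autoImplicit false

namespace Crest.Agent.R6.Cert

theorem hV1 : chkL (TV 14 49 Y1 Z1) ((-2916786) * 4294967296) 8388608 (-8388608) bx1 = true := by
  decide +kernel

end Crest.Agent.R6.Cert
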