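import Crest.Agent.R6.Red

/-! Row 6: contraction of the tables with the row polynomials modulo `p`. -/

set_option autoImplicit false

namespace Crest.Agent.R6

open Polynomial Finset

namespace Contr

variable {p : ℕ} [hp : Fact p.Prime]

theorem gp_coeff (h2 : p ≠ 2) {n : ℕ} (hn : p ≤ n) : (gp p).coeff n = 0 := by
  have h1 : (1 - X ^ 2 : (ZMod p)[X]).natDegree ≤ 2 := by compute_degree
  have h3 : (gp p).natDegree ≤ p / 2 * 2 := natDegree_pow_le.trans (Nat.mul_le_mul_left _ h1)
  have := Nat.odd_iff.1 (hp.out.odd_of_ne_two h2)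
  exact coeff_eq_zero_of_natDegree_lt (by omega)

theorem rp_coeff (P : ℤ[X]) (n : ℕ) : (rp p P).coeff n = (P.coeff n : ZMod p) := by
  simp [rp]

theorem coeff_X_mul_mul (P : ℤ[X]) {m : ℕ} (h : P.natDegree < m) (g : (ZMod p)[X]) (n : ℕ) :
    (X * rp p P * g).coeff n = ∑ i ∈ range m, (P.coeff i : ZMod p) *
      if i + 1 ≤ n then g.coeff (n - (i + 1)) else 0 := by
  have h1 : (rp p P).natDegree < m := natDegree_map_le.trans_lt h
  conv_lhs => rw [as_sum_range' _ m h1]
  rw [mul_sum, sum_mul, finsetSum_coeff]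
  refine sum_congr rfl fun i _ => ?_
  rw [← C_mul_X_pow_eq_monomial, rp_coeff, ← coeff_X_pow_mul', ← coeff_C_mul]
  congr 1
  ring

theorem three_four (h2 : p ≠ 2) : Red p (3 / 4) (3 / 4) := by
  refine (Red.ofNat 3).div (Red.ofNat 4) ?_
  have : (2 : ZMod p) ≠ 0 := by
    have := (ZMod.natCast_eq_zero_iff 2 p).not.2
      fun h => h2 ((Nat.prime_dvd_prime_iff_eq hp.out Nat.prime_two).1 h)
    simpa using this
  have e : (4 : ZMod p) = 2 * 2 := by norm_num
  rw [e]
  exact mul_ne_zero this this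

theorem tG_int (hB : BetaStmt) (h2 : p ≠ 2) (i j : ℕ) : ¬ p ∣ (tG i j).den := by
  unfold tG
  split_ifs with h
  · exact ((Red.ofNat 2).mul (Red.self ((hB p h2).2.2.2.2 _ h.2))).1
  · exact Red.zero.1

theorem mul_V (c x : ℚ) (P D : ℤ[X]) {m : ℕ} (hP : P.natDegree < m) (hD : D.natDegree < m)
    (j : ℕ) : c * V x P D j = ∑ i ∈ range m, (P.coeff i : ℚ) * (c * tA i j + c * (x * tG i j)) -
      3 / 4 * ∑ l ∈ range m, (D.coeff l : ℚ) * (c * tZ l j) := by
  rw [V, lin_eq_range _ _ hP, lin_eq_range _ _ hD, mul_sub, mul_sum, mul_left_comm, mul_sum]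
  congr 1
  · exact sum_congr rfl fun i _ => by ring
  · congr 1
    exact sum_congr rfl fun i _ => by ring

theorem sum_one (g : ℕ → ZMod p) (hg : ∀ n, p ≤ n → g n = 0) (a : ℕ → ZMod p) {i l E : ℕ}
    (hl : l < p) (hE : i + p < p * E) :
    ∑ e ∈ range E, (if i + 1 ≤ p * e + l then g (p * e + l - (i + 1)) else 0) * a e =
      g (p - 1 - (i + p - l) % p) * a ((i + p - l) / p) := by
  have hp0 := hp.out.pos
  have h1 := Nat.div_add_mod (i + p - l) p
  have h2 := Nat.mod_lt (i + p - l) hp0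
  generalize (i + p - l) / p = e₀ at h1 ⊢
  generalize (i + p - l) % p = r at h1 h2 ⊢
  have h3 : e₀ < E := Nat.lt_of_mul_lt_mul_left (a := p) (by omega)
  rw [sum_eq_single_of_mem e₀ (mem_range.2 h3)]
  · rw [if_pos (by omega)]
    congr 2
    omega
  · intro e _ he
    rcases lt_or_gt_of_ne he with h | h
    · have := Nat.mul_le_mul_left p (Nat.succ_le_of_lt h)
      rw [Nat.mul_succ] at this
      rw [if_neg (by omega), zero_mul]
    · have := Nat.mul_le_mul_left p (Nat.succ_le_of_lt h)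
      rw [Nat.mul_succ] at this
      rw [hg _ (by omega), ite_self, zero_mul]

theorem sum_two (d : ℕ → ZMod p) (a : ℕ → ZMod p) {m l E : ℕ} (hd : ∀ n, m ≤ n → d n = 0)
    (hl : l < p) (hE : m ≤ p * E) :
    ∑ n ∈ range m, d n * (if n % p = l then a (n / p) else 0) =
      ∑ e ∈ range E, d (p * e + l) * a e := by
  have hp0 := hp.out.pos
  have e1 : ∑ n ∈ range m, d n * (if n % p = l then a (n / p) else 0) =
      ∑ n ∈ range (p * E), d n * (if n % p = l then a (n / p) else 0) :=
    sum_subset (range_subset_range.2 hE) fun n _ hn => by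
      rw [hd n (by simpa using hn), zero_mul]
  rw [e1]
  simp only [mul_ite, mul_zero]
  rw [← sum_filter]
  symm
  refine sum_bij' (fun e _ => p * e + l) (fun n _ => n / p) (fun e he => ?_) (fun n hn => ?_)
    (fun e _ => ?_) (fun n hn => ?_) (fun e _ => ?_)
  · have := Nat.mul_le_mul_left p (Nat.succ_le_of_lt (mem_range.1 he))
    rw [Nat.mul_succ] at this
    rw [mem_filter, mem_range, Nat.mul_add_mod, Nat.mod_eq_of_lt hl]
    exact ⟨by omega, rfl⟩
  · exact mem_range.2 (Nat.div_lt_of_lt_mul (mem_range.1 (mem_filter.1 hn).1))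
  · simp only [Nat.mul_add_div hp0, Nat.div_eq_of_lt hl, add_zero]
  · rw [← (mem_filter.1 hn).2]
    exact Nat.div_add_mod n p
  · simp only [Nat.mul_add_div hp0, Nat.div_eq_of_lt hl, add_zero]

end Contr

open Contr in
theorem contr : BetaStmt → FrobStmt → ContrStmt := by
  intro hB hF p hp h2 x hx P D m j hP hD
  obtain ⟨f1, f2, f3, f4⟩ := hF p h2
  have hp0 := hp.out.pos
  have hg : ∀ r, r < p → (gp p).coeff (p - 1 - r) = chi p * cc p r := fun r hr => by
    rw [((hB p h2).2.2.1 _ (by omega)).1, ((hB p h2).2.2.1 r hr).2]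
  have hDc : ∀ n, m ≤ n → (D.coeff n : ZMod p) = 0 := fun n hn => by
    rw [coeff_eq_zero_of_natDegree_lt (by omega), Int.cast_zero]
  have hG : ∀ i, Red p (p * (x * tG i j)) 0 := fun i =>
    ((Red.self hx).mul (Red.self (tG_int hB h2 i j))).p_mul
  refine ⟨fun E h1 hj hE => ?_, fun hj hm => ?_⟩
  · rw [mul_V _ x P D hP hD]
    have hd : ∀ i ∈ range m, i / p + 2 < p := fun i hi =>
      lt_of_le_of_lt (Nat.add_le_add_right (Nat.div_le_div_right (mem_range.1 hi).le) 2) h1
    refine ((Red.sum fun i hi => (Red.intCast _).mul ((f1 i j (hd i hi) hj).add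
      ((hG i).p_mul.congr_left (by ring)))).sub ((three_four h2).mul
        (Red.sum fun l hl => (Red.intCast _).mul (f2 l j (hd l hl) hj)))).congr_right ?_
    rw [sum_sub_distrib, sum_two (fun n => (D.coeff n : ZMod p)) (fun e => (tZ e (j / p) : ZMod p))
      hDc (Nat.mod_lt j hp0) (E := E) (by omega), mul_sum]
    congr 1
    · simp only [coeff_X_mul_mul P hP, sum_mul]
      rw [sum_comm]
      refine sum_congr rfl fun i hi => ?_
      have := mem_range.1 hi
      simp only [mul_assoc]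
      rw [← mul_sum, sum_one (gp p).coeff (fun n => gp_coeff h2) _ (Nat.mod_lt j hp0) (by omega),
        hg _ (Nat.mod_lt _ hp0), add_zero, mul_assoc]
    · exact sum_congr rfl fun e _ => by rw [rp_coeff, mul_assoc]
  · rw [mul_V _ x P D hP hD]
    refine ((Red.sum fun i hi => (Red.intCast _).mul
      ((f3 i j hj (by have := mem_range.1 hi; omega)).add (hG i))).sub ((three_four h2).mul
        (Red.sum fun l hl => (Red.intCast _).mul
          (f4 l j hj (by have := mem_range.1 hl; omega))))).congr_right ?_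
    simp only [sub_div]
    rw [sum_sub_distrib]
    congr 1
    · simp only [coeff_X_mul_mul P hP, sum_div]
      rw [sum_comm]
      refine sum_congr rfl fun i hi => ?_
      have := mem_range.1 hi
      simp only [mul_div_assoc]
      rw [add_zero, ← mul_sum (range (m - p))]
      refine congrArg _ ?_
      refine sum_subset_zero_on_sdiff (range_subset_range.2 (by omega)) (fun l hl => ?_)
        fun l hl => ?_
      · have h3 := (mem_sdiff.1 hl).2
        rw [mem_range, not_lt] at h3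
        rw [gp_coeff h2 (by omega), ite_self, zero_div]
      · have h3 := mem_range.1 hl
        rw [if_pos (by omega), ← mul_div_assoc, ← hg _ (by omega)]
        congr 2
        omega
    · simp only [mul_ite, mul_zero]
      rw [← sum_filter, mul_sum]
      have e : (range m).filter (fun l => p ≤ l) = Ico p m := by
        ext l
        simp only [mem_filter, mem_range, mem_Ico]
        exact and_comm
      rw [e, sum_Ico_eq_sum_range]
      refine sum_congr rfl fun l _ => ?_
      rw [rp_coeff]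
      push_cast
      rw [ZMod.natCast_self, zero_add]
      ring

namespace Contr

/-- Solutions of the recurrence, block by block. -/
theorem block {R : Type} [CommRing R] [IsDomain R] {x T : R} (hx : x ≠ 0) {p N : ℕ} (hp : 1 ≤ p)
    {A F y : ℤ → R} (hA : ∀ w : ℤ, 0 < w → w < p → x * (A (w + 1) + A (w - 1)) = 2 * A w)
    (hA0 : x * A 1 = A 0 - 1) (hAp : A p = 0) (hAp1 : x * A (p - 1) = T)
    (hF : ∀ u : ℤ, 0 < u → u ≤ p * N → x * (F (u + 1) + F (u - 1)) = 2 * F u)
    (hy : ∀ v : ℤ, 0 < v → v ≤ N → T * (y (v + 1) + y (v - 1)) = 2 * y v)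
    (h0 : F 0 = A 0 * y 0) (h1 : x * F 1 = (A 0 - 1) * y 0 + T * y 1) :
    ∀ v : ℕ, v < N → ∀ w : ℕ, w ≤ p → F (p * v + w) = A w * y v + A (p - w) * y (v + 1) := by
  have inner : ∀ v : ℕ, v < N → F (p * v) = A 0 * y v →
      x * F (p * v + 1) = (A 0 - 1) * y v + T * y (v + 1) → ∀ w : ℕ, w + 1 ≤ p →
      F (p * v + w) = A w * y v + A (p - w) * y (v + 1) ∧
      F (p * v + w + 1) = A (w + 1) * y v + A (p - w - 1) * y (v + 1) := by
    intro v hv a0 a1 w
    induction w with
    | zero =>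
      intro _
      simp only [Nat.cast_zero, add_zero, sub_zero, zero_add]
      refine ⟨by rw [a0, hAp]; ring, mul_left_cancel₀ hx ?_⟩
      linear_combination a1 - y v * hA0 - y (v + 1) * hAp1
    | succ w ih =>
      intro hw
      obtain ⟨b0, b1⟩ := ih (by omega)
      have hw' : (w : ℤ) + 1 + 1 ≤ p := by exact_mod_cast hw
      have hv' : (v : ℤ) + 1 ≤ N := by exact_mod_cast hv
      have hv0 : (0 : ℤ) ≤ p * v := by positivity
      have hw0 : (0 : ℤ) ≤ w := by positivity
      have c1 := hF (p * v + w + 1) (by omega) (by nlinarith)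
      have c2 := hA (w + 1) (by omega) (by omega)
      have c3 := hA (p - w - 1) (by omega) (by omega)
      rw [add_sub_cancel_right] at c1 c2
      rw [sub_add_cancel] at c3
      push_cast
      rw [← add_assoc, ← sub_sub]
      refine ⟨b1, mul_left_cancel₀ hx ?_⟩
      linear_combination c1 + 2 * b1 - x * b0 - y v * c2 - y (v + 1) * c3
  have outer : ∀ v : ℕ, v < N → F (p * v) = A 0 * y v ∧
      x * F (p * v + 1) = (A 0 - 1) * y v + T * y (v + 1) := by
    intro v
    induction v with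
    | zero => intro _; simpa using ⟨h0, h1⟩
    | succ v ih =>
      intro hv
      obtain ⟨a0, a1⟩ := ih (by omega)
      obtain ⟨b0, b1⟩ := inner v (by omega) a0 a1 (p - 1) (by omega)
      have hv' : (v : ℤ) + 1 + 1 ≤ N := by exact_mod_cast hv
      have hp' : (1 : ℤ) ≤ p := by exact_mod_cast hp
      have hv0 : (0 : ℤ) ≤ v := by positivity
      have c1 := hF (p * (v + 1)) (by positivity) (by nlinarith)
      have c2 := hy (v + 1) (by omega) (by omega)
      rw [Nat.cast_sub hp, Nat.cast_one] at b0 b1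
      rw [show (p : ℤ) * v + (p - 1) = p * (v + 1) - 1 by ring, sub_sub_cancel] at b0
      rw [show (p : ℤ) * v + (p - 1) + 1 = p * (v + 1) by ring, sub_add_cancel, sub_sub_cancel,
        sub_self, hAp, zero_mul, zero_add] at b1
      rw [add_sub_cancel_right] at c2
      push_cast
      refine ⟨b1, ?_⟩
      linear_combination c1 + 2 * b1 - x * b0 - y v * hAp1 - y (v + 1) * hA0 - c2
  intro v hv w hw
  obtain ⟨a0, a1⟩ := outer v hv
  cases w with
  | zero => exact (inner v hv a0 a1 0 (by omega)).1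
  | succ w =>
    push_cast
    rw [← add_assoc, ← sub_sub]
    exact (inner v hv a0 a1 w hw).2

theorem block' {R : Type} [CommRing R] {p N : ℕ} {A F y : ℤ → R} (ε : R)
    (sF : ∀ u, F (-u) = ε * F u) (sy : ∀ v, y (-v) = ε * y v)
    (h : ∀ v : ℕ, v < N → ∀ w : ℕ, w ≤ p → F (p * v + w) = A w * y v + A (p - w) * y (v + 1))
    {v : ℤ} (h1 : -(N : ℤ) ≤ v) (h2 : v < N) {w : ℕ} (hw : w ≤ p) :
    F (p * v + w) = A w * y v + A (p - w) * y (v + 1) := by
  rcases le_or_gt 0 v with hv | hv
  · obtain ⟨n, rfl⟩ := Int.eq_ofNat_of_zero_le hv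
    exact h n (by exact_mod_cast h2) w hw
  · obtain ⟨n, hn⟩ := Int.eq_ofNat_of_zero_le (show 0 ≤ -v - 1 by omega)
    have h3 := h n (by omega) (p - w) (by omega)
    rw [Nat.cast_sub hw, sub_sub_cancel] at h3
    have e : v = -((n : ℤ) + 1) := by omega
    rw [e, show (p : ℤ) * -((n : ℤ) + 1) + w = -(p * n + (p - w)) by ring,
      show -((n : ℤ) + 1) + 1 = -n by ring, sF, sy, sy, h3]
    ring

theorem aco_eq (l k : ℕ) {u : ℤ} (h : u = l - 2 * k) : aco u l = l.choose k := by
  have e : (((l : ℤ) - u) / 2).toNat = k := by omega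
  rw [aco, e]
  split_ifs with h1
  · rfl
  · exact (Nat.choose_eq_zero_of_lt (by omega)).symm

theorem aco_gt {l : ℕ} {u : ℤ} (h : l < u) : aco u l = 0 := by
  rw [aco, if_neg (by omega)]

theorem aco_odd {l : ℕ} {u : ℤ} (h : (l - u) % 2 ≠ 0) : aco u l = 0 := by
  rw [aco, if_neg (by omega)]

theorem aco_succ (w : ℤ) (l : ℕ) : aco w (l + 1) = aco (w + 1) l + aco (w - 1) l := by
  by_cases h : ((l : ℤ) + 1 - w) % 2 = 0
  · rcases lt_trichotomy ((l : ℤ) + 1) w with h1 | h1 | h1
    · rw [aco_gt (by omega), aco_gt (by omega), aco_gt (by omega)]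
    · rw [aco_eq (l + 1) 0 (by omega), aco_gt (by omega), aco_eq l 0 (by omega)]
      simp
    · obtain ⟨k, hk⟩ := Int.eq_ofNat_of_zero_le (show 0 ≤ ((l : ℤ) + 1 - w) / 2 - 1 by omega)
      rw [aco_eq (l + 1) (k + 1) (by omega), aco_eq l k (by omega), aco_eq l (k + 1) (by omega),
        Nat.choose_succ_succ']
  · rw [aco_odd (by omega), aco_odd (by omega), aco_odd (by omega)]

theorem be_two_mul (k : ℕ) : be (2 * k) * 2 ^ (2 * k) = ((2 * k).choose k : ℕ) := by
  induction k with
  | zero => simp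
  | succ k ih =>
    have h := Nat.succ_mul_centralBinom_succ k
    rw [Nat.centralBinom_eq_two_mul_choose, Nat.centralBinom_eq_two_mul_choose] at h
    have h' := congrArg (Nat.cast : ℕ → ℚ) h
    push_cast at h'
    rw [← ih] at h'
    have hk : (k : ℚ) + 1 ≠ 0 := by positivity
    refine mul_left_cancel₀ hk ?_
    rw [h', show 2 * (k + 1) = 2 * k + 2 by ring, be_add_two]
    push_cast
    field_simp
    ring

variable {p : ℕ} [hp : Fact p.Prime]

theorem two_ne (h2 : p ≠ 2) : (2 : ZMod p) ≠ 0 := by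
  have := (ZMod.natCast_eq_zero_iff 2 p).not.2
    fun h => h2 ((Nat.prime_dvd_prime_iff_eq hp.out Nat.prime_two).1 h)
  simpa using this

/-- The polynomial `∑_{l<p} a(w,l) (X/2)^l`. -/
noncomputable abbrev Ap (p : ℕ) [Fact p.Prime] (w : ℤ) : (ZMod p)[X] :=
  ∑ l ∈ range p, monomial l ((aco w l : ZMod p) / 2 ^ l)

theorem Ap_coeff (w : ℤ) (n : ℕ) :
    (Ap p w).coeff n = if n < p then (aco w n : ZMod p) / 2 ^ n else 0 := by
  simp only [finsetSum_coeff, coeff_monomial, sum_ite_eq', mem_range]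

theorem Ap_rec (h2 : p ≠ 2) (w : ℤ) : X * (Ap p (w + 1) + Ap p (w - 1)) =
    2 * Ap p w - C (2 * (aco w 0 : ZMod p)) + C (aco w p : ZMod p) * X ^ p := by
  have h0 := two_ne h2
  have hp0 := hp.out.pos
  ext n
  rw [coeff_add, coeff_sub, coeff_ofNat_mul, coeff_C_mul, coeff_X_pow, coeff_C, Ap_coeff]
  cases n with
  | zero =>
    rw [mul_coeff_zero, coeff_X_zero, if_pos hp0, if_pos rfl, if_neg (by omega)]
    simp
  | succ n =>
    rw [coeff_X_mul, coeff_add, Ap_coeff, Ap_coeff, if_neg (Nat.succ_ne_zero n)]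
    rcases lt_trichotomy (n + 1) p with h | h | h
    · rw [if_pos (by omega), if_pos (by omega), if_pos h, if_neg (by omega), aco_succ]
      push_cast
      field_simp
      ring
    · have e : (2 : ZMod p) ^ n = 1 := by
        have := ZMod.pow_card_sub_one_eq_one h0
        rwa [show p - 1 = n by omega] at this
      have e2 : aco w p = aco (w + 1) n + aco (w - 1) n := by rw [← aco_succ, h]
      rw [if_pos (by omega), if_pos (by omega), if_neg (by omega), if_pos h, e2, e]
      push_cast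
      ring
    · rw [if_neg (by omega), if_neg (by omega), if_neg (by omega), if_neg (by omega)]
      simp

theorem Ap_gt {w : ℤ} (h : (p : ℤ) ≤ w) : Ap p w = 0 :=
  sum_eq_zero fun l hl => by
    have := mem_range.1 hl
    rw [aco_gt (by omega)]
    simp

theorem Ap_mid (h2 : p ≠ 2) (w : ℤ) (h0 : 0 < w) (h1 : w < p) :
    X * (Ap p (w + 1) + Ap p (w - 1)) = 2 * Ap p w := by
  have e : (aco w p : ZMod p) = 0 := by
    by_cases h : ((p : ℤ) - w) % 2 = 0
    · obtain ⟨k, hk⟩ := Int.eq_ofNat_of_zero_le (show 0 ≤ ((p : ℤ) - w) / 2 by omega)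
      rw [aco_eq p k (by omega), ZMod.natCast_eq_zero_iff]
      exact hp.out.dvd_choose_self (by omega) (by omega)
    · rw [aco_odd h, Nat.cast_zero]
  rw [Ap_rec h2, e, aco_gt (by simpa using h0)]
  simp

theorem aco_neg_one (l : ℕ) : aco (-1) l = aco 1 l := by
  by_cases h : ((l : ℤ) - 1) % 2 = 0
  · obtain ⟨k, hk⟩ : ∃ k, l = 2 * k + 1 := ⟨l / 2, by omega⟩
    rw [aco_eq l (k + 1) (by omega), aco_eq l k (by omega), hk, Nat.choose_symm_half]
  · rw [aco_odd (by omega), aco_odd h]

theorem Ap_zero (h2 : p ≠ 2) : X * Ap p 1 = Ap p 0 - 1 := by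
  have h := Ap_rec h2 0
  have hodd := Nat.odd_iff.1 (hp.out.odd_of_ne_two h2)
  have e : Ap p (0 - 1) = Ap p 1 := by simp only [Ap, zero_sub, aco_neg_one]
  rw [e, zero_add, aco_odd (l := p) (by omega), aco_eq 0 0 (by simp)] at h
  have h0 : (2 : (ZMod p)[X]) ≠ 0 := by
    rw [show (2 : (ZMod p)[X]) = C 2 from rfl]
    exact C_ne_zero.2 (two_ne h2)
  refine mul_left_cancel₀ h0 ?_
  simp only [Nat.choose_self, Nat.cast_one, mul_one, Nat.cast_zero, map_zero, zero_mul,
    add_zero] at h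
  rw [show (C 2 : (ZMod p)[X]) = 2 from rfl] at h
  linear_combination h

theorem Ap_last (h2 : p ≠ 2) : X * Ap p (p - 1) = X ^ p := by
  have h := Ap_rec h2 p
  have hp0 : (0 : ℤ) < p := by exact_mod_cast hp.out.pos
  rw [Ap_gt (w := p + 1) (by omega), Ap_gt le_rfl, aco_gt (by simpa using hp.out.pos),
    aco_eq p 0 (by simp)] at h
  simpa using h

theorem Ap_eq_gp (hB : BetaStmt) (h2 : p ≠ 2) : Ap p 0 = gp p := by
  ext n
  rw [Ap_coeff]
  split_ifs with h
  · rw [((hB p h2).2.2.1 n h).1, cc]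
    split_ifs with h1
    · obtain ⟨k, rfl⟩ : ∃ k, n = 2 * k := ⟨n / 2, by omega⟩
      have h3 := (((hB p h2).1 _ h).1.mul ((Red.ofNat 2).pow (2 * k))).congr_left (be_two_mul k)
      rw [aco_eq (2 * k) k (by simp), div_eq_iff (pow_ne_zero _ (two_ne h2))]
      exact (Red.natCast _).unique h3
    · rw [aco_odd (by omega)]
      simp
  · rw [gp_coeff h2 (by omega)]

theorem coeff_mul_expand {A : (ZMod p)[X]} (hA : ∀ n, p ≤ n → A.coeff n = 0) (H : (ZMod p)[X])
    (e : ℕ) {l : ℕ} (hl : l < p) :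
    (A * expand (ZMod p) p H).coeff (p * e + l) = A.coeff l * H.coeff e := by
  induction H using Polynomial.induction_on' with
  | add P Q h1 h2 => rw [map_add, mul_add, coeff_add, h1, h2, coeff_add, mul_add]
  | monomial n a =>
    rw [expand_monomial, coeff_monomial, ← C_mul_X_pow_eq_monomial, ← mul_assoc,
      coeff_mul_X_pow', coeff_mul_C, mul_comm n p]
    rcases lt_trichotomy n e with h | h | h
    · have := Nat.mul_le_mul_left p (Nat.succ_le_of_lt h)
      rw [Nat.mul_succ] at this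
      rw [hA _ (by omega), if_neg h.ne]
      simp
    · subst h
      rw [if_pos (by omega), if_pos rfl, Nat.add_sub_cancel_left]
    · have := Nat.mul_le_mul_left p (Nat.succ_le_of_lt h)
      rw [Nat.mul_succ] at this
      rw [if_neg (by omega), if_neg h.ne', mul_zero]

theorem one_sub_pow : (1 - X : (ZMod p)[X]) ^ (2 * p) = (1 - X ^ p) ^ 2 := by
  rw [mul_comm, pow_mul, sub_pow_char, one_pow]

omit hp in
theorem rp_rec {P Q R : ℤ[X]} (h : X * (P + Q) = 2 * R) : X * (rp p P + rp p Q) = 2 * rp p R := by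
  have := congrArg (rp p) h
  simpa [rp] using this

theorem key_coeff {F : ℤ → (ZMod p)[X]} {H H' : (ZMod p)[X]} {u w w' : ℤ}
    (h : F u = Ap p w * expand (ZMod p) p H + Ap p w' * expand (ZMod p) p H') (e : ℕ) {l : ℕ}
    (hl : l < p) : (F u).coeff (p * e + l) =
      ((aco w l : ZMod p) * H.coeff e + (aco w' l : ZMod p) * H'.coeff e) / 2 ^ l := by
  have hA : ∀ w n, p ≤ n → (Ap p w).coeff n = 0 := fun w n hn => by
    rw [Ap_coeff, if_neg (by omega)]
  rw [h, coeff_add, coeff_mul_expand (hA w) _ _ hl, coeff_mul_expand (hA w') _ _ hl, Ap_coeff,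
    Ap_coeff, if_pos hl, if_pos hl]
  ring

theorem keyP (hB : BetaStmt) (hR : RowStmt) (h2 : p ≠ 2) {v : ℤ} (h1 : -33 ≤ v) (h3 : v < 33)
    {w : ℕ} (hw : w ≤ p) :
    X * rp p (rowP (47 * p) (2 * p) (p * v + w)) * gp p =
      Ap p w * expand (ZMod p) p (X * rp p (rowP 47 2 v)) +
        Ap p (p - w) * expand (ZMod p) p (X * rp p (rowP 47 2 (v + 1))) := by
  have hp2 := hp.out.two_le
  refine block' (N := 33) (A := Ap p) (F := fun u => X * rp p (rowP (47 * p) (2 * p) u) * gp p)
    (y := fun v => expand (ZMod p) p (X * rp p (rowP 47 2 v))) 1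
    (fun u => by simp only [rowP, Int.natAbs_neg, one_mul])
    (fun u => by simp only [rowP, Int.natAbs_neg, one_mul]) ?_ h1 h3 hw
  refine block (T := X ^ p) (A := Ap p) (F := fun u => X * rp p (rowP (47 * p) (2 * p) u) * gp p)
    (y := fun v => expand (ZMod p) p (X * rp p (rowP 47 2 v))) X_ne_zero hp.out.one_le (Ap_mid h2)
    (Ap_zero h2) (Ap_gt le_rfl) (Ap_last h2) (fun u a b => ?_) (fun u a b => ?_) ?_ ?_
  · have := rp_rec (p := p) ((hR (47 * p) (2 * p) u (by omega)).2.2.2.2 (by omega)).1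
    linear_combination X * gp p * this
  · have := congrArg (expand (ZMod p) p)
      (rp_rec (p := p) ((hR 47 2 u (by omega)).2.2.2.2 (by omega)).1)
    simp only [map_mul, map_add, expand_X, map_ofNat] at this ⊢
    linear_combination X ^ p * this
  · obtain ⟨n, hn⟩ : ∃ n, 47 * p = n + 1 := ⟨47 * p - 1, by omega⟩
    have e : (X : (ZMod p)[X]) ^ (n + 1) = (X ^ p) ^ 47 := by rw [← hn, mul_comm, pow_mul]
    rw [Ap_eq_gp hB h2]
    simp only [rowP, hn, rp, Int.natAbs_zero, pp_zero, Polynomial.map_mul, Polynomial.map_pow,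
      map_X, Polynomial.map_sub, Polynomial.map_one, one_sub_pow, map_mul, map_pow, map_sub,
      map_one, expand_X, Nat.add_sub_cancel, Nat.sub_zero, Nat.reduceSub]
    linear_combination (1 - X ^ p) ^ 2 * gp p * e
  · obtain ⟨n, hn⟩ : ∃ n, 47 * p = n + 1 + 1 := ⟨47 * p - 2, by omega⟩
    have e : (X : (ZMod p)[X]) ^ (n + 1 + 1) = (X ^ p) ^ 47 := by rw [← hn, mul_comm, pow_mul]
    have e1 : pp 1 = 1 := by simp [pp_succ 0]
    rw [Ap_eq_gp hB h2]
    simp only [rowP, hn, rp, Int.natAbs_zero, Int.natAbs_one, e1, pp_zero, Polynomial.map_mul,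
      Polynomial.map_pow, map_X, Polynomial.map_sub, Polynomial.map_one, one_sub_pow, map_mul,
      map_pow, map_sub, map_one, expand_X, Nat.add_sub_cancel, Nat.sub_zero, Nat.reduceSub]
    linear_combination (1 - X ^ p) ^ 2 * gp p * e

theorem keyD (hR : RowStmt) (h2 : p ≠ 2) {v : ℤ} (h1 : -33 ≤ v) (h3 : v < 33)
    {w : ℕ} (hw : w ≤ p) :
    rp p (rowD (47 * p) (2 * p) (p * v + w)) =
      Ap p w * expand (ZMod p) p (rp p (rowD 47 2 v)) +
        Ap p (p - w) * expand (ZMod p) p (rp p (rowD 47 2 (v + 1))) := by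
  have hp2 := hp.out.two_le
  refine block' (N := 33) (A := Ap p) (F := fun u => rp p (rowD (47 * p) (2 * p) u))
    (y := fun v => expand (ZMod p) p (rp p (rowD 47 2 v))) (-1)
    (fun u => by simp [rowD, rp]) (fun u => by simp [rowD, rp]) ?_ h1 h3 hw
  refine block (T := X ^ p) (A := Ap p) (F := fun u => rp p (rowD (47 * p) (2 * p) u))
    (y := fun v => expand (ZMod p) p (rp p (rowD 47 2 v))) X_ne_zero hp.out.one_le (Ap_mid h2)
    (Ap_zero h2) (Ap_gt le_rfl) (Ap_last h2) (fun u a b => ?_) (fun u a b => ?_) ?_ ?_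
  · exact rp_rec (p := p) ((hR (47 * p) (2 * p) u (by omega)).2.2.2.2 (by omega)).2
  · have := congrArg (expand (ZMod p) p)
      (rp_rec (p := p) ((hR 47 2 u (by omega)).2.2.2.2 (by omega)).2)
    simpa only [map_mul, map_add, expand_X, map_ofNat] using this
  · simp [rowD, rp]
  · obtain ⟨n, hn⟩ : ∃ n, 47 * p = n + 1 := ⟨47 * p - 1, by omega⟩
    have e : (X : (ZMod p)[X]) ^ (n + 1) = (X ^ p) ^ 47 := by rw [← hn, mul_comm, pow_mul]
    have e1 : dd 1 = 1 := by simp [dd_succ 0]
    simp only [rowD, hn, rp, Int.natAbs_zero, Int.natAbs_one, e1, dd_zero, Polynomial.map_mul,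
      Polynomial.map_pow, map_X, Polynomial.map_sub, Polynomial.map_one, one_sub_pow, map_mul,
      map_pow, map_sub, map_one, expand_X, Nat.add_sub_cancel, Nat.sub_zero, Nat.reduceSub,
      Int.sign_one, Int.sign_zero, map_zero, Polynomial.map_zero, mul_zero]
    linear_combination (1 - X ^ p) ^ 2 * e

theorem lin_eq_sum (a : ℕ → ZMod p) (P : ℤ[X]) : lin a P = (rp p P).sum fun i c => c * a i := by
  rw [lin_eq_range a P (Nat.lt_succ_self _), sum_over_range' (rp p P) (by simp) (P.natDegree + 1)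
    (natDegree_map_le.trans_lt (Nat.lt_succ_self _))]
  simp only [rp_coeff]

theorem sum_expand (a : ℕ → ZMod p) (l : ℕ) (H : (ZMod p)[X]) :
    ((X ^ l * expand (ZMod p) p H).sum fun i c => c * a i) = H.sum fun i c => c * a (p * i + l) := by
  induction H using Polynomial.induction_on' with
  | add P Q h1 h2 =>
    rw [map_add, mul_add, sum_add_index _ _ _ (by simp) (by simp [add_mul]),
      sum_add_index _ _ _ (by simp) (by simp [add_mul]), h1, h2]
  | monomial n c =>
    rw [expand_monomial, X_pow_mul, monomial_mul_X_pow, sum_monomial_index _ _ (by simp),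
      sum_monomial_index _ _ (by simp), mul_comm n p]

theorem lin_colQ (a : ℕ → ZMod p) (k l : ℕ) :
    lin a (colQ p (p * k + l)) = lin (fun i => a (p * i + l)) (colQ 1 k) := by
  rw [lin_eq_sum, lin_eq_sum, ← sum_expand]
  congr 1
  simp only [colQ, rp, Polynomial.map_mul, Polynomial.map_pow, map_X, Polynomial.map_sub,
    Polynomial.map_one, one_sub_pow, map_mul, map_pow, map_sub, map_one, expand_X, mul_one]
  ring

theorem colQ_deg (N k : ℕ) : (colQ N k).natDegree ≤ 8 * N + k := by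
  have h1 : (1 - X : ℤ[X]).natDegree ≤ 1 := by compute_degree
  have h2 : ((1 - X : ℤ[X]) ^ (2 * N)).natDegree ≤ 2 * N * 1 :=
    natDegree_pow_le.trans (Nat.mul_le_mul_left _ h1)
  refine natDegree_mul_le.trans ?_
  rw [natDegree_X_pow]
  omega

theorem inv_int {k : ℕ} (hk : k < p) : ¬ p ∣ ((k : ℚ)⁻¹).den := by
  rcases Nat.eq_zero_or_pos k with rfl | h
  · simpa using hp.out.ne_one
  · exact ((Red.natCast k).inv (natCast_ne_zero_of_lt h.ne' hk)).1

theorem int_mul {a b : ℚ} (ha : ¬ p ∣ a.den) (hb : ¬ p ∣ b.den) : ¬ p ∣ (a * b).den :=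
  ((Red.self ha).mul (Red.self hb)).1

theorem int_sub {a b : ℚ} (ha : ¬ p ∣ a.den) (hb : ¬ p ∣ b.den) : ¬ p ∣ (a - b).den :=
  ((Red.self ha).sub (Red.self hb)).1

theorem int_sum {s : Finset ℕ} {a : ℕ → ℚ} (h : ∀ i ∈ s, ¬ p ∣ (a i).den) :
    ¬ p ∣ (∑ i ∈ s, a i).den :=
  (Red.sum fun i hi => Red.self (h i hi)).1

omit hp in
theorem int_ite {c : Prop} [Decidable c] {a b : ℚ} (ha : ¬ p ∣ a.den) (hb : ¬ p ∣ b.den) :
    ¬ p ∣ (if c then a else b).den := by
  split_ifs <;> assumption

theorem inv_succ_int {k : ℕ} (hk : k + 1 < p) : ¬ p ∣ ((k : ℚ) + 1)⁻¹.den := by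
  simpa only [Nat.cast_succ] using inv_int hk

theorem tA_int (hB : BetaStmt) (h2 : p ≠ 2) (j : ℕ) :
    ∀ i, i < p → j < p → ¬ p ∣ (tA i j).den := by
  have hbe : ∀ k, k < p → ¬ p ∣ (be k).den := fun k hk => ((hB p h2).1 k hk).1.1
  have hal : ∀ k, k + 1 < p → ¬ p ∣ (al k).den := fun k hk => int_ite (hbe _ hk) Red.zero.1
  induction j with
  | zero =>
    intro i hi _
    rw [tA_zero_right]
    refine int_mul (hbe i hi) (int_ite (int_sum fun n hn => ?_) (int_sum fun n hn => ?_))
    · have := mem_range.1 hn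
      exact ((Red.self (hal n (by omega))).pow 2).1
    · have := mem_range.1 hn
      rw [one_div]
      exact int_ite (inv_int (by omega)) Red.zero.1
  | succ j ih =>
    intro i hi hj
    cases i with
    | zero =>
      rw [tA_zero_succ]
      refine int_mul (hbe j (by omega)) (int_sum fun n hn => ?_)
      have := mem_range.1 hn
      rw [div_eq_mul_inv]
      exact int_ite (int_mul (hbe n (by omega)) (inv_succ_int (by omega))) Red.zero.1
    | succ i =>
      rw [tA_succ_succ, div_eq_mul_inv]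
      exact int_sub (ih i (by omega) (by omega)) (int_mul (hal i hi) (inv_succ_int hj))

theorem harmonic_int {n : ℕ} (hn : n < p) : ¬ p ∣ (harmonic n).den :=
  int_sum fun i hi => inv_int (by have := mem_range.1 hi; omega)

theorem tZ_int (j : ℕ) : ∀ l, l < p → j < p → ¬ p ∣ (tZ l j).den := by
  induction j with
  | zero =>
    intro l hl _
    rw [tZ_zero_right, div_eq_mul_inv]
    exact int_mul (harmonic_int hl) (inv_int hl)
  | succ j ih =>
    intro l hl hj
    cases l with
    | zero =>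
      rw [tZ_zero_succ, div_eq_mul_inv]
      exact int_mul (harmonic_int hj) (inv_succ_int hj)
    | succ l =>
      rw [tZ_succ_succ, one_div, mul_inv]
      exact int_sub (ih l (by omega) (by omega)) (int_mul (inv_succ_int hl) (inv_succ_int hj))

theorem red_V0 (hB : BetaStmt) (h2 : p ≠ 2) {P D : ℤ[X]} {m j : ℕ} (hP : P.natDegree < m)
    (hD : D.natDegree < m) (hm : m < p) (hj : j < p) :
    Red p (V 0 P D j) (∑ e ∈ range (m + 1), ((X * rp p P).coeff e * (M0 e j : ZMod p)
      - 3 / 4 * (rp p D).coeff e * (tZ e j : ZMod p))) := by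
  rw [V, lin_eq_range _ _ hP, lin_eq_range _ _ (hD.trans (Nat.lt_succ_self m))]
  simp only [zero_mul, add_zero]
  refine ((Red.sum fun i hi => (Red.intCast _).mul
    (Red.self (tA_int hB h2 j i (by have := mem_range.1 hi; omega) hj))).sub ((three_four h2).mul
      (Red.sum fun l hl => (Red.intCast _).mul
        (Red.self (tZ_int j l (by have := mem_range.1 hl; omega) hj))))).congr_right ?_
  have e := sum_range_succ' (fun e : ℕ => (X * rp p P).coeff e * (M0 e j : ZMod p)) m
  rw [sum_sub_distrib, e, mul_sum]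
  simp only [coeff_X_mul, mul_coeff_zero, coeff_X_zero, zero_mul, add_zero, rp_coeff, M0_succ,
    mul_assoc]

end Contr

open Contr in
theorem entMod : BetaStmt → RowStmt → ContrStmt → EntStmt := by
  intro hB hR hC p hp h100 x hx u₁ u₀ k₁ l h1 h3 hu hk hl
  have h2 : p ≠ 2 := by omega
  have hp0 := hp.out.pos
  have hu' : ((p : ℤ) * u₁ + u₀).natAbs < 47 * p := by
    have : (u₀ : ℤ) < p := by exact_mod_cast hu
    have h4 : -3 * (p : ℤ) ≤ p * u₁ := by nlinarith
    have h5 : p * u₁ ≤ 33 * (p : ℤ) := by nlinarith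
    omega
  obtain ⟨dP, dD, -⟩ := hR (47 * p) (2 * p) _ hu'
  have hm : (47 * p + 2 * p) / p = 49 := by
    rw [← add_mul, Nat.mul_div_cancel _ hp0]
  have e1 : ∀ (a : ℕ → ℚ) (Q : ℤ[X]), (p : ℚ) ^ 2 * lin a Q = lin (fun j => p ^ 2 * a j) Q := by
    intro a Q
    simp only [lin, Polynomial.sum, mul_sum]
    exact sum_congr rfl fun i _ => by ring
  have hd := colQ_deg p (p * k₁ + l)
  have hk' : p * k₁ ≤ p * 35 := Nat.mul_le_mul_left _ (by omega)
  rw [ent, e1]
  refine (Red.lin fun j hj => (hC p h2 x hx _ _ _ j dP dD).1 50 (by omega) ?_ (by omega)).congr_right ?_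
  · have : j / p < 44 := Nat.div_lt_of_lt_mul (by omega)
    omega
  have hV : ∀ v : ℤ, v.natAbs < 47 → (ent 0 1 v k₁ : ZMod p) = lin (fun j =>
      ∑ e ∈ range 50, ((X * rp p (rowP 47 2 v)).coeff e * (M0 e j : ZMod p)
        - 3 / 4 * (rp p (rowD 47 2 v)).coeff e * (tZ e j : ZMod p))) (colQ 1 k₁) := by
    intro v hv
    obtain ⟨dP, dD, -⟩ := hR 47 2 v hv
    have := colQ_deg 1 k₁
    exact (Red.lin fun j hj => red_V0 hB h2 dP dD (by omega) (by omega)).2
  rw [lin_colQ, hV u₁ (by omega), hV (u₁ + 1) (by omega)]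
  simp only [Nat.mul_add_mod, Nat.mod_eq_of_lt hl, Nat.mul_add_div hp0, Nat.div_eq_of_lt hl,
    add_zero]
  simp only [key_coeff (F := fun u => X * rp p (rowP (47 * p) (2 * p) u) * gp p)
      (keyP hB hR h2 (v := u₁) (by omega) h3 hu.le) _ hl,
    key_coeff (F := fun u => rp p (rowD (47 * p) (2 * p) u))
      (keyD hR h2 (v := u₁) (by omega) h3 hu.le) _ hl,
    lin, Polynomial.sum, mul_sum, ← sum_add_distrib, sum_div]
  refine sum_congr rfl fun i _ => sum_congr rfl fun e _ => ?_
  ring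

end Crest.Agent.R6
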