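import Mathlib

/-!
Row 6 (Catalan's constant is irrational): definitions and the statements of the modules.
Overview: `mat x N` is a `36N × 36N` rational matrix (`x` = a rational candidate for Catalan's
constant).  Arithmetic gives `log |det| ≥ -2504.5 N²` when `det ≠ 0`, analysis gives
`log |det| ≤ -2505.5 N²` if `x` is Catalan's constant, and `det ≠ 0` when `N` is a large prime.
-/

set_option autoImplicit false

namespace Crest.Agent.R6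

open Polynomial Finset Filter Topology MeasureTheory

/-! ### Rational tables -/

/-- `be k = (k-1)!! / k!!`. -/
def be : ℕ → ℚ
  | 0 => 1
  | 1 => 1
  | k + 2 => be k * (k + 1) / (k + 2)

@[simp] theorem be_zero : be 0 = 1 := rfl
@[simp] theorem be_one : be 1 = 1 := rfl
theorem be_add_two (k : ℕ) : be (k + 2) = be k * (k + 1) / (k + 2) := rfl
theorem be_anchor : type_of% @be.eq_def := @be.eq_def

/-- `al n = n!!/(n+1)!!` for even `n`, `0` for odd `n`. -/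
def al (n : ℕ) : ℚ := if n % 2 = 0 then be (n + 1) else 0

/-- rational part of `M(i,0)`. -/
def colA (i : ℕ) : ℚ :=
  be i * (if i % 2 = 0 then ∑ n ∈ range i, al n ^ 2
    else ∑ k ∈ range (i + 1), if k % 2 = 1 then 1 / (k : ℚ) else 0)

/-- rational part of `M(0,j+1)`. -/
def rowA (j : ℕ) : ℚ :=
  be j * ∑ k ∈ range j, if (k + 1) % 2 = j % 2 then be k / (k + 1) else 0

/-- rational part of `M(i,j) = ∑ₖ al (i+k) / (j+k+1)`. -/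
def tA : ℕ → ℕ → ℚ
  | i, 0 => colA i
  | 0, j + 1 => rowA j
  | i + 1, j + 1 => tA i j - al i / (j + 1)

theorem tA_zero_right (i : ℕ) : tA i 0 = colA i := by cases i <;> rfl
theorem tA_zero_succ (j : ℕ) : tA 0 (j + 1) = rowA j := rfl
theorem tA_succ_succ (i j : ℕ) : tA (i + 1) (j + 1) = tA i j - al i / (j + 1) := rfl
theorem tA_anchor : type_of% @tA.eq_def := @tA.eq_def

/-- coefficient of Catalan's constant in `M(i,j)`. -/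
def tG (i j : ℕ) : ℚ := if j ≤ i ∧ (i - j) % 2 = 0 then 2 * be (i - j) else 0

/-- coefficient of `ζ(2)` in `M(i,j)`. -/
def tZe (i j : ℕ) : ℚ := if i < j ∧ (j - i - 1) % 2 = 0 then 3 / 4 * be (j - i - 1) else 0

/-- rational part of `Z(l,j) = ∑ₖ 1/((l+k+1)(j+k+1))`. -/
def tZ : ℕ → ℕ → ℚ
  | l, 0 => harmonic l / l
  | 0, j + 1 => harmonic (j + 1) / (j + 1)
  | l + 1, j + 1 => tZ l j - 1 / ((l + 1) * (j + 1))

theorem tZ_zero_right (l : ℕ) : tZ l 0 = harmonic l / l := by cases l <;> rfl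
theorem tZ_zero_succ (j : ℕ) : tZ 0 (j + 1) = harmonic (j + 1) / (j + 1) := rfl
theorem tZ_succ_succ (l j : ℕ) : tZ (l + 1) (j + 1) = tZ l j - 1 / ((l + 1) * (j + 1)) := rfl
theorem tZ_anchor : type_of% @tZ.eq_def := @tZ.eq_def

/-! ### Rows, columns, the matrix -/

/-- `(p_u, d_u)` with `(1 - f)^u = p_u - f d_u`, `f² = 1 - X²`. -/
noncomputable def pd : ℕ → ℤ[X] × ℤ[X]
  | 0 => (1, 0)
  | u + 1 => ((pd u).1 + (1 - X ^ 2) * (pd u).2, (pd u).1 + (pd u).2)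

noncomputable def pp (u : ℕ) : ℤ[X] := (pd u).1
noncomputable def dd (u : ℕ) : ℤ[X] := (pd u).2

@[simp] theorem pp_zero : pp 0 = 1 := rfl
@[simp] theorem dd_zero : dd 0 = 0 := rfl
theorem pp_succ (u : ℕ) : pp (u + 1) = pp u + (1 - X ^ 2) * dd u := rfl
theorem dd_succ (u : ℕ) : dd (u + 1) = pp u + dd u := rfl
theorem pd_anchor : type_of% @pd.eq_def := @pd.eq_def

/-- `P_u = t^(c-1-|u|) (1-t)^h p_{|u|}`. -/
noncomputable def rowP (c h : ℕ) (u : ℤ) : ℤ[X] :=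
  X ^ (c - 1 - u.natAbs) * (1 - X) ^ h * pp u.natAbs

/-- `D_u = sgn(u) t^(c-|u|) (1-t)^h d_{|u|}`. -/
noncomputable def rowD (c h : ℕ) (u : ℤ) : ℤ[X] :=
  C u.sign * X ^ (c - u.natAbs) * (1 - X) ^ h * dd u.natAbs

/-- column polynomial `s^(6N+k) (1-s)^(2N)`. -/
noncomputable def colQ (N k : ℕ) : ℤ[X] := X ^ (6 * N + k) * (1 - X) ^ (2 * N)

/-- the linear functional `X^i ↦ a i` on `ℤ[X]`. -/
noncomputable def lin {K : Type*} [Ring K] (a : ℕ → K) (P : ℤ[X]) : K :=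
  P.sum fun i c => (c : K) * a i

theorem lin_eq_range {K : Type*} [Ring K] (a : ℕ → K) (P : ℤ[X]) {m : ℕ} (h : P.natDegree < m) :
    lin a P = ∑ i ∈ range m, (P.coeff i : K) * a i :=
  Polynomial.sum_over_range' P (by simp) m h

/-- the pairing of the row `(P, D)` with the monomial `s^j` (Catalan's constant replaced by `x`,
`ζ(2)` by `0`). -/
noncomputable def V (x : ℚ) (P D : ℤ[X]) (j : ℕ) : ℚ :=
  lin (fun i => tA i j + x * tG i j) P - 3 / 4 * lin (fun l => tZ l j) D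

/-- entry of row `u`, column `k`. -/
noncomputable def ent (x : ℚ) (N : ℕ) (u : ℤ) (k : ℕ) : ℚ :=
  lin (V x (rowP (47 * N) (2 * N) u) (rowD (47 * N) (2 * N) u)) (colQ N k)

/-- the matrix; row `r` has `u = r - 3N`. -/
noncomputable def mat (x : ℚ) (N : ℕ) : Matrix (Fin (36 * N)) (Fin (36 * N)) ℚ :=
  Matrix.of fun r k => ent x N ((r : ℕ) - 3 * N) k

/-- Catalan's constant. -/
noncomputable def cat : ℝ := ∑' j : ℕ, (-1 : ℝ) ^ j / ((2 * j + 1 : ℝ) ^ 2)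

/-! ### Series -/

/-- `M(i,j)` in a normed field (used for `ℝ` and `ℚ_[2]`). -/
noncomputable def Ms (K : Type) [NormedField K] [CharZero K] (i j : ℕ) : K :=
  ∑' k : ℕ, ((al (i + k) / ((j + k + 1 : ℕ) : ℚ) : ℚ) : K)

/-- `Z(l,j)`. -/
noncomputable def Zs (l j : ℕ) : ℝ := ∑' k : ℕ, 1 / (((l : ℝ) + k + 1) * ((j : ℝ) + k + 1))

def SeriesStmt : Prop :=
  ∀ (K : Type) [NormedField K] [CharZero K],
    (∀ i j : ℕ, Summable fun k : ℕ => ((al (i + k) / ((j + k + 1 : ℕ) : ℚ) : ℚ) : K)) →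
    Tendsto (fun n : ℕ => ((al n : ℚ) : K)) atTop (𝓝 0) →
    ∀ i j : ℕ, Ms K i j =
      (tA i j : K) + (tG i j : K) * (Ms K 0 0 / 2) + (tZe i j : K) * (4 / 3 * Ms K 0 1)

def ZSeriesStmt : Prop :=
  ∀ l j : ℕ, (Summable fun k : ℕ => 1 / (((l : ℝ) + k + 1) * ((j : ℝ) + k + 1))) ∧
    Zs l j = (tZ l j : ℝ) + if l = j then Zs 0 0 else 0

/-- cancellation of `ζ(2)`. -/
def CancelStmt : Prop :=
  ∀ (c h : ℕ) (u : ℤ) (j : ℕ), u.natAbs < c → (j : ℤ) < c + u →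
    lin (fun i => tZe i j) (rowP c h u) = 3 / 4 * ((rowD c h u).coeff j : ℚ)

/-- shape of the rows. -/
def RowStmt : Prop :=
  ∀ (c h : ℕ) (u : ℤ), u.natAbs < c →
    (rowP c h u).natDegree < c + h ∧ (rowD c h u).natDegree < c + h ∧
    X ^ (c - u.natAbs) ∣ X * rowP c h u ∧ X ^ (c - u.natAbs) ∣ rowD c h u ∧
    (u.natAbs + 1 < c →
      X * (rowP c h (u + 1) + rowP c h (u - 1)) = 2 * rowP c h u ∧
      X * (rowD c h (u + 1) + rowD c h (u - 1)) = 2 * rowD c h u)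

def ValuesStmt : Prop :=
  (∀ i j : ℕ, Summable fun k : ℕ => ((al (i + k) / ((j + k + 1 : ℕ) : ℚ) : ℚ) : ℝ)) ∧
  Tendsto (fun n : ℕ => ((al n : ℚ) : ℝ)) atTop (𝓝 0) ∧
  Ms ℝ 0 0 = 2 * cat ∧ Ms ℝ 0 1 = 3 / 4 * Zs 0 0

/-! ### Integral representation -/

noncomputable def tt (x : ℝ) : ℝ := 2 * x / (1 + x ^ 2)
noncomputable def ker (x s : ℝ) : ℝ := 2 / (1 + x ^ 2 - 2 * x * s)
noncomputable def wa (x : ℝ) : ℝ := if 0 < x then 5 / 8 else -1 / 4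
noncomputable def wb (x : ℝ) : ℝ := if 0 < x then -1 / 8 else -1 / 4

noncomputable def rowF (c h : ℕ) (u : ℤ) (x : ℝ) : ℝ :=
  tt x ^ c * (1 - tt x) ^ h * (wa x * x ^ u + wb x * x ^ (-u))

noncomputable def colF (N k : ℕ) (s : ℝ) : ℝ := s ^ (6 * N + k) * (1 - s) ^ (2 * N)

def MomStmt : Prop :=
  ∀ i j : ℕ,
    IntegrableOn (fun x => |tt x| / 2 * tt x ^ i * ∫ s in Set.Ioo (0 : ℝ) 1, ker x s * s ^ j)
      (Set.Ioo (-1) 1) ∧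
    (∫ x in Set.Ioo (-1 : ℝ) 1, |tt x| / 2 * tt x ^ i * ∫ s in Set.Ioo (0 : ℝ) 1, ker x s * s ^ j)
      = Ms ℝ i j ∧
    IntegrableOn (fun x => (1 - x ^ 2) / (1 + x ^ 2) * tt x ^ i *
      ∫ s in Set.Ioo (0 : ℝ) 1, ker x s * s ^ j) (Set.Ioo 0 1) ∧
    (∫ x in Set.Ioo (0 : ℝ) 1, (1 - x ^ 2) / (1 + x ^ 2) * tt x ^ i *
      ∫ s in Set.Ioo (0 : ℝ) 1, ker x s * s ^ j) = Zs i j

def IntegralStmt : Prop :=
  ∀ (x : ℚ), (x : ℝ) = cat → ∀ (N : ℕ) (u : ℤ) (k : ℕ), 1 ≤ N → -(3 * N : ℤ) ≤ u → u < 33 * N →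
    k < 36 * N →
    IntegrableOn (fun y => rowF (47 * N) (2 * N) u y *
      ∫ s in Set.Ioo (0 : ℝ) 1, ker y s * colF N k s) (Set.Ioo (-1) 1) ∧
    (∀ y ∈ Set.Ioo (-1 : ℝ) 1, IntegrableOn (fun s => ker y s * colF N k s) (Set.Ioo 0 1)) ∧
    (ent x N u k : ℝ) = ∫ y in Set.Ioo (-1 : ℝ) 1, rowF (47 * N) (2 * N) u y *
      ∫ s in Set.Ioo (0 : ℝ) 1, ker y s * colF N k s

def AndreiefStmt : Prop :=
  ∀ (n : ℕ) (F Q : Fin n → ℝ → ℝ) (K : ℝ → ℝ → ℝ) (B : ℝ),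
    (∀ r k, IntegrableOn (fun x => F r x * ∫ s in Set.Ioo (0 : ℝ) 1, K x s * Q k s)
      (Set.Ioo (-1) 1)) →
    (∀ x ∈ Set.Ioo (-1 : ℝ) 1, ∀ k, IntegrableOn (fun s => K x s * Q k s) (Set.Ioo 0 1)) →
    (∀ x s : Fin n → ℝ, (∀ i, x i ∈ Set.Ioo (-1 : ℝ) 1) → (∀ j, s j ∈ Set.Ioo (0 : ℝ) 1) →
      |(Matrix.of fun r i => F r (x i)).det| * |(Matrix.of fun i j => K (x i) (s j)).det| *
        |(Matrix.of fun k j => Q k (s j)).det| ≤ B) →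
    |(Matrix.of fun r k => ∫ x in Set.Ioo (-1 : ℝ) 1,
      F r x * ∫ s in Set.Ioo (0 : ℝ) 1, K x s * Q k s).det| ≤ 2 ^ n * B

/-- `∏_{i<j} |x_i - x_j|`. -/
noncomputable def vand {n : ℕ} (x : Fin n → ℝ) : ℝ := ∏ i, ∏ j ∈ Ioi i, |x i - x j|

def CauchyStmt : Prop :=
  ∀ (n : ℕ) (x s : Fin n → ℝ), (∀ i, x i ∈ Set.Ioo (-1 : ℝ) 1) → (∀ j, s j ∈ Set.Ioo (0 : ℝ) 1) →
    |(Matrix.of fun i j => ker (x i) (s j)).det| =
      2 ^ n * (∏ i, ∏ j ∈ Ioi i, (2 * (1 - x i * x j))) * vand x * vand s /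
        ∏ i, ∏ j, (1 + x i ^ 2 - 2 * x i * s j)

/-! ### The row determinant -/

/-- residue of `1/B` at `x_i`, `B(z) = ∏ (z - x_k)/(1 - x_k z)`. -/
noncomputable def resB {n : ℕ} (x : Fin n → ℝ) (i : Fin n) : ℝ :=
  (∏ k, (1 - x k * x i)) / ∏ k ∈ univ.erase i, (x i - x k)

/-- `M` bounds `|z^e / B(z)|` on the imaginary diameter. -/
def DiamBound {n : ℕ} (x : Fin n → ℝ) (e : ℕ) (M : ℝ) : Prop :=
  ∀ y : ℝ, |y| ≤ 1 →
    (y ^ 2) ^ e * ∏ k, (1 + x k ^ 2 * y ^ 2) ≤ M ^ 2 * ∏ k, (x k ^ 2 + y ^ 2)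

def HalfDiscStmt : Prop :=
  ∀ (n e : ℕ) (x c : Fin n → ℝ) (M : ℝ), Function.Injective x →
    (∀ i, x i ∈ Set.Ioo (-1 : ℝ) 1) → (∀ i, x i ≠ 0) → 0 ≤ M → DiamBound x e M →
    |∑ i, resB x i * x i ^ e * (∑ j, c j / (1 - x j * x i)) ^ 2| ≤
        ∑ i, ∑ j, c i * c j / (1 - x i * x j) ∧
    |∑ i, if 0 < x i then resB x i * x i ^ e * (∑ j, c j / (1 - x j * x i)) ^ 2 else 0| ≤
        (1 + M / 2) * ∑ i, ∑ j, c i * c j / (1 - x i * x j)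

def RowLinStmt : Prop :=
  ∀ (n g : ℕ) (x : Fin n → ℝ) (M : ℝ), 2 * g + 1 ≤ n → Function.Injective x →
    (∀ i, x i ∈ Set.Ioo (-1 : ℝ) 1) → (∀ i, x i ≠ 0) → 0 ≤ M → DiamBound x (n - 1 - 2 * g) M →
    |(Matrix.of fun (r i : Fin n) =>
        wa (x i) * x i ^ (((r : ℕ) : ℤ) - g) + wb (x i) * x i ^ (-(((r : ℕ) : ℤ) - g))).det| ≤
      ((8 + 3 * M) / 4) ^ n * vand x / ∏ i, |x i| ^ (n - 1 - g)

def DiamStmt : Prop :=
  ∀ (n g : ℕ) (x : Fin n → ℝ), 2 * g + 1 ≤ n → (∀ i, x i ∈ Set.Ioo (-1 : ℝ) 1) → (∀ i, x i ≠ 0) →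
    (3 / 4 * (2 * g + 1 : ℝ) ≤ ∑ i, Real.log (1 + x i ^ 2) → DiamBound x (n - 1 - 2 * g) 1) ∧
    ∃ M : ℝ, 1 ≤ M ∧ M ^ n * ∏ i, |x i| ^ (2 * g + 1) = 1 ∧ DiamBound x (n - 1 - 2 * g) M

def RowDetStmt : Prop :=
  ∀ (n g : ℕ) (x : Fin n → ℝ), 2 * g + 1 ≤ n → Function.Injective x →
    (∀ i, x i ∈ Set.Ioo (-1 : ℝ) 1) → (∀ i, x i ≠ 0) →
    (3 / 4 * (2 * g + 1 : ℝ) ≤ ∑ i, Real.log (1 + x i ^ 2) →
      |(Matrix.of fun (r i : Fin n) =>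
        wa (x i) * x i ^ (((r : ℕ) : ℤ) - g) + wb (x i) * x i ^ (-(((r : ℕ) : ℤ) - g))).det| ≤
      3 ^ n * vand x / ∏ i, |x i| ^ (n - g)) ∧
    |(Matrix.of fun (r i : Fin n) =>
        wa (x i) * x i ^ (((r : ℕ) : ℤ) - g) + wb (x i) * x i ^ (-(((r : ℕ) : ℤ) - g))).det| ≤
      3 ^ n * vand x / ∏ i, |x i| ^ (n + g)

/-! ### Energy -/

/-- symmetrised self energy of the trial charges (it is `≤ 0`). -/
noncomputable def selfE {K : ℕ} (γ : Fin K → ℝ) (y : Fin K → ℂ) : ℝ :=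
  ∑ a, ∑ b, γ a * γ b *
    ((Real.log ‖1 - y a * (starRingEnd ℂ) (y b)‖ + Real.log ‖1 - y a * y b‖) / 2)

/-- potential of the charges at the pair of points `x ± i √(1-x²)` of the unit circle. -/
noncomputable def potC {K : ℕ} (γ : Fin K → ℝ) (y : Fin K → ℂ) (x : ℝ) : ℝ :=
  ∑ a, γ a * Real.log ‖1 - 2 * (x : ℂ) * y a + y a ^ 2‖

/-- potential of the charges at the real point `x` of the disc. -/
noncomputable def potR {K : ℕ} (γ : Fin K → ℝ) (y : Fin K → ℂ) (x : ℝ) : ℝ :=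
  ∑ a, γ a * Real.log ‖1 - (x : ℂ) * y a‖

/-- the logarithmic kernel of the disc is of negative type. -/
def QStmt : Prop :=
  ∀ (ι : Type) [Fintype ι] (γ : ι → ℝ) (z : ι → ℂ), (∀ a, ‖z a‖ < 1) →
    ∑ a, ∑ b, γ a * γ b * Real.log ‖1 - z a * (starRingEnd ℂ) (z b)‖ ≤ 0

def EnergyAStmt : Prop :=
  ∀ (K : ℕ) (γ : Fin K → ℝ) (y : Fin K → ℂ), (∀ a, ‖y a‖ < 1) → ∀ ε : ℝ, 0 < ε → ∃ C : ℝ,
    ∀ (n : ℕ) (x : Fin n → ℝ), Function.Injective x → (∀ i, |x i| ≤ 1) →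
      2 * ∑ i, ∑ j ∈ Ioi i, Real.log |x i - x j| ≤
        -(n : ℝ) ^ 2 * Real.log 2 + n * ∑ i, potC γ y (x i) - (n : ℝ) ^ 2 / 2 * selfE γ y
          + ε * (n : ℝ) ^ 2 + C * n

def EnergyBStmt : Prop :=
  ∀ (K : ℕ) (η : Fin K → ℝ) (z : Fin K → ℂ), (∀ a, ‖z a‖ < 1) → ∀ ε : ℝ, 0 < ε → ∃ C : ℝ,
    ∀ (n : ℕ) (x s : Fin n → ℝ), (∀ i, x i ∈ Set.Ioo (-1 : ℝ) 1) → Function.Injective s →
      (∀ j, s j ∈ Set.Ioo (0 : ℝ) 1) →
      ∑ i, ∑ j ∈ Ioi i, Real.log (1 - x i * x j) + 2 * ∑ i, ∑ j ∈ Ioi i, Real.log |s i - s j|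
          - ∑ i, ∑ j, Real.log (1 + x i ^ 2 - 2 * x i * s j) ≤
        -(n : ℝ) ^ 2 * Real.log 2 + n * ∑ i, potR η z (x i) - n * ∑ j, potC η z (s j)
          - (n : ℝ) ^ 2 / 2 * selfE η z
          - ∑ i, Real.log ((1 - x i) / 2) - ∑ j, Real.log (1 - s j) + ε * (n : ℝ) ^ 2 + C * n

/-- numerical certificate with exponents `a` (of `|x|`), `m` (of `1+x²`) and constant `c₀`. -/
def Cert (a m c₀ : ℝ) : Prop :=
  ∃ (K L : ℕ) (γ : Fin K → ℝ) (y : Fin K → ℂ) (η : Fin L → ℝ) (z : Fin L → ℂ) (v w : ℝ),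
    (∀ i, ‖y i‖ < 1) ∧ (∀ i, ‖z i‖ < 1) ∧
    (∀ x ∈ Set.Ioo (-1 : ℝ) 1, x ≠ 0 →
      a * Real.log |x| + 47 * Real.log 2 - m * Real.log (1 + x ^ 2) + 4 * Real.log (1 - x)
        - 1 / 1024 * Real.log ((1 - x) / 2) + 36 * (potC γ y x + potR η z x) ≤ v) ∧
    (∀ s ∈ Set.Ioo (0 : ℝ) 1,
      6 * Real.log s + (2 - 1 / 1024) * Real.log (1 - s) - 36 * potC η z s ≤ w) ∧
    36 * (v + w) + c₀ - 1296 * (3 / 2 * Real.log 2 + selfE γ y / 2 + selfE η z / 2) ≤ -2506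

def CertStmt : Prop := Cert 14 49 0 ∧ Cert 8 193 648

/-- the pointwise bound of the integrand. -/
def PointStmt : Prop :=
  ∀ᶠ N : ℕ in atTop, ∀ x s : Fin (36 * N) → ℝ, (∀ i, x i ∈ Set.Ioo (-1 : ℝ) 1) →
    (∀ j, s j ∈ Set.Ioo (0 : ℝ) 1) →
    |(Matrix.of fun (r i : Fin (36 * N)) =>
        rowF (47 * N) (2 * N) ((r : ℕ) - 3 * N) (x i)).det| *
      |(Matrix.of fun i j => ker (x i) (s j)).det| *
      |(Matrix.of fun (k j : Fin (36 * N)) => colF N k (s j)).det| ≤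
      Real.exp (-(25056 / 10) * (N : ℝ) ^ 2)

def RealStmt : Prop :=
  ∀ x : ℚ, (x : ℝ) = cat → ∀ᶠ N : ℕ in atTop,
    |((mat x N).det : ℝ)| ≤ Real.exp (-(25055 / 10) * (N : ℝ) ^ 2)

/-! ### Arithmetic -/

/-- columns that are combinations of a weighted pool of integral vectors. -/
def PoolStmt : Prop :=
  ∀ (K : Type) [NormedField K] [IsUltrametricDist K] (n ι : Type) [Fintype n] [DecidableEq n]
    [Fintype ι] (E : Matrix n n K) (v : ι → n → K) (a : n → ι → K) (lam : n → ℝ) (mu : ι → ℝ),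
    (∀ r c, E r c = ∑ π, a c π * v π r) → (∀ π r, ‖v π r‖ ≤ 1) →
    (∀ c π, ‖a c π‖ ≤ lam c * mu π) → (∀ π, 1 ≤ mu π) → (∀ c, 0 ≤ lam c) →
    ‖E.det‖ ≤ (∏ c, lam c) * ∏ π, mu π

def TwoStmt : Prop :=
  ∀ (x : ℚ) (ε : ℝ), 0 < ε → ∀ᶠ N : ℕ in atTop,
    ‖(((mat x N).det : ℚ) : ℚ_[2])‖ ≤ Real.exp ((529 / 4 * Real.log 2 + ε) * (N : ℝ) ^ 2)

/-- `x` is `p`-integral with residue `y`. -/
def Red (p : ℕ) [Fact p.Prime] (x : ℚ) (y : ZMod p) : Prop := ¬ p ∣ x.den ∧ (x : ZMod p) = y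

def chi (p : ℕ) : ZMod p := (-1) ^ (p / 2)
def cc (p : ℕ) [Fact p.Prime] (r : ℕ) : ZMod p := if r % 2 = 0 then (be r : ZMod p) else 0

/-- `M0 e j` is the rational part of `M(e-1, j)`. -/
def M0 : ℕ → ℕ → ℚ
  | 0, j => tA 0 (j + 1)
  | e + 1, j => tA e j

theorem M0_zero (j : ℕ) : M0 0 j = tA 0 (j + 1) := rfl
theorem M0_succ (e j : ℕ) : M0 (e + 1) j = tA e j := rfl
theorem M0_anchor : type_of% @M0.eq_def := @M0.eq_def

/-- `(1 - X²)^((p-1)/2)` modulo `p`. -/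
noncomputable def gp (p : ℕ) : (ZMod p)[X] := (1 - X ^ 2) ^ (p / 2)

/-- reduction of an integer polynomial modulo `p`. -/
noncomputable def rp (p : ℕ) (P : ℤ[X]) : (ZMod p)[X] := P.map (Int.castRingHom (ZMod p))

/-- congruences for `be`. -/
def BetaStmt : Prop :=
  ∀ (p : ℕ) [Fact p.Prime], p ≠ 2 →
    (∀ k, k < p → Red p (be k) (be k) ∧ (be k : ZMod p) ≠ 0) ∧
    (∀ k₀ k₁, k₀ < p → k₁ < p →
      (k₀ % 2 = 0 → k₁ % 2 = 0 → Red p (be (p * k₁ + k₀)) (be k₀ * be k₁)) ∧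
      (k₀ % 2 = 0 → k₁ % 2 = 1 → Red p (p * be (p * k₁ + k₀)) (chi p * be k₀ * be k₁)) ∧
      (k₀ % 2 = 1 → k₁ % 2 = 0 → Red p (be (p * k₁ + k₀)) (be k₀ / be k₁)) ∧
      (k₀ % 2 = 1 → k₁ % 2 = 1 → Red p (be (p * k₁ + k₀) / p) (chi p * be k₀ / be k₁))) ∧
    (∀ r, r < p → (gp p).coeff r = cc p r ∧ cc p (p - 1 - r) = chi p * cc p r) ∧
    (∑ r ∈ range p, cc p r ^ 2 = chi p) ∧
    (∀ k, k % 2 = 0 → ¬ p ∣ (be k).den)

def FrobStmt : Prop :=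
  ∀ (p : ℕ) [Fact p.Prime], p ≠ 2 →
    (∀ i j, i / p + 2 < p → j / p + 2 < p → Red p (p ^ 2 * tA i j)
      (chi p * cc p ((i + p - j % p) % p) * (M0 ((i + p - j % p) / p) (j / p) : ZMod p))) ∧
    (∀ l j, l / p + 2 < p → j / p + 2 < p → Red p (p ^ 2 * tZ l j)
      (if l % p = j % p then (tZ (l / p) (j / p) : ZMod p) else 0)) ∧
    (∀ i j, j < p → i < j + p → Red p (p * tA i j)
      (∑ l ∈ range (i + 1 - p), chi p * cc p (i - p - l) / ((l : ZMod p) - j))) ∧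
    (∀ l j, j < p → l < j + p → Red p (p * tZ l j)
      (if p ≤ l then 1 / ((l : ZMod p) - j) else 0))

def ContrStmt : Prop :=
  ∀ (p : ℕ) [Fact p.Prime], p ≠ 2 → ∀ (x : ℚ), ¬ p ∣ x.den → ∀ (P D : ℤ[X]) (m j : ℕ),
    P.natDegree < m → D.natDegree < m →
    (∀ E : ℕ, m / p + 2 < p → j / p + 2 < p → m + p ≤ p * E →
      Red p (p ^ 2 * V x P D j) (∑ e ∈ range E,
        ((X * rp p P * gp p).coeff (p * e + j % p) * (M0 e (j / p) : ZMod p)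
          - 3 / 4 * (rp p D).coeff (p * e + j % p) * (tZ e (j / p) : ZMod p)))) ∧
    (j < p → m ≤ j + p →
      Red p (p * V x P D j) (∑ l ∈ range (m - p),
        ((X * rp p P * gp p).coeff (2 * p + l) - 3 / 4 * (rp p D).coeff (p + l))
          / ((l : ZMod p) - j)))

def k1 (N p : ℕ) : ℕ := min (14 * N) (44 * N - p) - max (6 * N) (49 * N - 2 * p)
def k2 (N p : ℕ) : ℕ := min p (44 * N) - max (6 * N) (49 * N - p)
def r2 (N p : ℕ) : ℕ := 38 * N - k1 N p - k2 N p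
def r12 (N p : ℕ) : ℕ := 38 * N - k2 N p + (min (6 * N) (49 * N - p) - (44 * N - p))

/-- bound for the exponent of `p` in the denominator of the determinant. -/
def eodd (N p : ℕ) : ℕ :=
  if 2 * p ≤ 37 * N then 72 * N else if 2 * p ≤ 51 * N then 36 * N + r2 N p else r2 N p + r12 N p

def OddBigStmt : Prop :=
  ∀ (x : ℚ) (N p : ℕ) [Fact p.Prime], 10 ≤ N → 100 * N < p ^ 2 → ¬ p ∣ x.den →
    ‖(((mat x N).det : ℚ) : ℚ_[p])‖ ≤ (p : ℝ) ^ eodd N p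

def OddSmallStmt : Prop :=
  ∀ (x : ℚ) (N p : ℕ) [Fact p.Prime], 1 ≤ N → p ≠ 2 →
    ‖(((mat x N).det : ℚ) : ℚ_[p])‖ ≤ ((50 * N : ℝ) ^ 4 * x.den) ^ (36 * N)

def PNTStmt : Prop := Tendsto (fun x : ℝ => Chebyshev.theta x / x) atTop (𝓝 1)

def PrimeSumStmt : Prop :=
  ∀ ε : ℝ, 0 < ε → ∀ᶠ N : ℕ in atTop,
    ∑ p ∈ (range (49 * N)).filter Nat.Prime, (eodd N p : ℝ) * Real.log p ≤
      (4825 / 2 + ε) * (N : ℝ) ^ 2

def ArithStmt : Prop :=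
  ∀ x : ℚ, ∀ᶠ N : ℕ in atTop, (mat x N).det ≠ 0 →
    Real.exp (-(25045 / 10) * (N : ℝ) ^ 2) ≤ |((mat x N).det : ℝ)|

/-- the two fixed `36 × 36` matrices. -/
noncomputable def B0 : Matrix (Fin 36) (Fin 36) ℚ := Matrix.of fun r k => ent 0 1 ((r : ℕ) - 3) k
noncomputable def B1 : Matrix (Fin 36) (Fin 36) ℚ := Matrix.of fun r k => ent 0 1 ((r : ℕ) - 2) k

def CertBStmt : Prop := B0.det ≠ 0 ∧ (B0 + B1).det ≠ 0 ∧ (B0 - B1).det ≠ 0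

/-- `a(u,l) = binom(l, (l-u)/2)`, zero if the parity is wrong or `|u| > l`. -/
def aco (u : ℤ) (l : ℕ) : ℕ :=
  if (l - u) % 2 = 0 ∧ u.natAbs ≤ l then l.choose ((l - u) / 2).toNat else 0

/-- reduction of the entries for `N = p`. -/
def EntStmt : Prop :=
  ∀ (p : ℕ) [Fact p.Prime], 100 < p → ∀ x : ℚ, ¬ p ∣ x.den →
    ∀ (u₁ : ℤ) (u₀ k₁ l : ℕ), -3 ≤ u₁ → u₁ < 33 → u₀ < p → k₁ < 36 → l < p →
      Red p (p ^ 2 * ent x p (p * u₁ + u₀) (p * k₁ + l))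
        (((aco u₀ l : ZMod p) * (ent 0 1 u₁ k₁ : ℚ)
          + (aco (p - u₀) l : ZMod p) * (ent 0 1 (u₁ + 1) k₁ : ℚ)) / 2 ^ l)

def NonvanStmt : Prop :=
  ∀ x : ℚ, ∀ᶠ N : ℕ in atTop, N.Prime → (mat x N).det ≠ 0

end Crest.Agent.R6
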