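import Crest.Agent.R6.EnergyA0

/-! Row 6: negative type of the kernel and the energy inequality A. -/

set_option autoImplicit false

namespace Crest.Agent.R6

open Finset Filter Topology EnergyA

local notation "conj" => starRingEnd ℂ

theorem qneg : QStmt := by
  intro ι _ γ z hz
  have hs : ∀ a b, HasSum (fun n : ℕ => γ a * γ b * ((z a * conj (z b)) ^ n / n).re)
      (-(γ a * γ b * Real.log ‖1 - z a * conj (z b)‖)) := by
    intro a b
    have hlt : ‖z a * conj (z b)‖ < 1 := by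
      rw [norm_mul, Complex.norm_conj]
      exact mul_lt_one_of_nonneg_of_lt_one_left (norm_nonneg _) (hz a) (hz b).le
    have := (Complex.hasSum_re (Complex.hasSum_taylorSeries_neg_log hlt)).mul_left (γ a * γ b)
    rwa [Complex.neg_re, Complex.log_re, mul_neg] at this
  have h := hasSum_sum (s := univ) fun a _ => hasSum_sum (s := univ) fun b _ => hs a b
  have hnn : ∀ n : ℕ, 0 ≤ ∑ a, ∑ b, γ a * γ b * ((z a * conj (z b)) ^ n / n).re := by
    intro n
    have : ∑ a, ∑ b, γ a * γ b * ((z a * conj (z b)) ^ n / n).re =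
        Complex.normSq (∑ a, γ a * z a ^ n) / n := by
      have h1 : ((Complex.normSq (∑ a, γ a * z a ^ n) : ℝ) : ℂ) =
          ∑ a, ∑ b, γ a * γ b * (z a * conj (z b)) ^ n := by
        rw [← Complex.mul_conj, map_sum, sum_mul_sum]
        refine sum_congr rfl fun a _ => sum_congr rfl fun b _ => ?_
        simp only [map_mul, map_pow, Complex.conj_ofReal, mul_pow]
        ring
      have h2 := congrArg Complex.re h1
      rw [Complex.ofReal_re] at h2
      rw [h2, Complex.re_sum, sum_div]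
      refine sum_congr rfl fun a _ => ?_
      rw [Complex.re_sum, sum_div]
      refine sum_congr rfl fun b _ => ?_
      rw [Complex.div_natCast_re, ← Complex.ofReal_mul, Complex.re_ofReal_mul, mul_div_assoc]
    rw [this]
    exact div_nonneg (Complex.normSq_nonneg _) (Nat.cast_nonneg n)
  have := h.nonneg hnn
  simp only [sum_neg_distrib] at this
  linarith

theorem energyA : QStmt → EnergyAStmt := by
  intro hQ K γ y hy ε hε
  have h1 := potC_near γ hy (half_pos hε)
  have h2 : ∀ᶠ ρ : ℝ in 𝓝 1, -(2 * Real.log (ρ ^ 2)) < ε / 2 := by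
    have hc : ContinuousAt (fun ρ : ℝ => -(2 * Real.log (ρ ^ 2))) 1 :=
      (continuousAt_const.mul (ContinuousAt.log (by fun_prop) (by norm_num))).neg
    exact hc.eventually_lt continuousAt_const (by simpa using hε)
  have h3 : ∀ᶠ ρ : ℝ in 𝓝 1, 0 < ρ := lt_mem_nhds one_pos
  obtain ⟨ρ, ⟨hp, hl, h0⟩, hρ1⟩ :=
    (((h1.and (h2.and h3)).filter_mono nhdsWithin_le_nhds).and
      (self_mem_nhdsWithin (a := (1 : ℝ)) (s := Set.Iio 1))).exists
  have hρ1 : ρ < 1 := hρ1
  have hr0 : 0 < ρ ^ 2 := by positivity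
  have hr1 : ρ ^ 2 < 1 := by nlinarith
  have hlr : Real.log (ρ ^ 2) ≤ 0 := Real.log_nonpos hr0.le hr1.le
  refine ⟨Real.log 2 - 2 * Real.log (1 - ρ ^ 2), fun n x hx hx1 => ?_⟩
  have h := qsym hQ (Fin n ⊕ Fin K) (Sum.elim (fun _ => 1) fun a => -(n * γ a / 2))
    (Sum.elim (fun i => ρ * xi (x i)) y) (by
      rintro (i | a)
      · simpa [norm_xi (hx1 i), abs_of_pos h0] using hρ1
      · exact hy a)
  simp only [Fintype.sum_sum_type, Sum.elim_inl, Sum.elim_inr, sum_add_distrib, one_mul,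
    mul_one] at h
  -- the cross terms
  have hcross : ∀ i a, Real.log ‖1 - ρ * xi (x i) * conj (y a)‖ +
      Real.log ‖1 - ρ * xi (x i) * y a‖ =
        Real.log ‖1 - 2 * (x i : ℂ) * (ρ * y a) + (ρ * y a) ^ 2‖ := by
    intro i a
    rw [← log_xi_fac (hx1 i) (y := ρ * y a) (by
      rw [norm_mul, Complex.norm_real, Real.norm_of_nonneg h0.le]
      exact mul_lt_one_of_nonneg_of_lt_one_left h0.le hρ1 (hy a).le), add_comm,
      ← Complex.norm_conj (1 - ρ * xi (x i) * conj (y a))]
    congr 3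
    · ring
    · simp only [map_sub, map_one, map_mul, Complex.conj_ofReal, Complex.conj_conj]
      ring
  have hcross' : ∀ a i, Real.log ‖1 - y a * conj (ρ * xi (x i))‖ +
      Real.log ‖1 - y a * (ρ * xi (x i))‖ =
        Real.log ‖1 - 2 * (x i : ℂ) * (ρ * y a) + (ρ * y a) ^ 2‖ := by
    intro a i
    rw [← hcross i a, ← Complex.norm_conj (1 - ρ * xi (x i) * conj (y a))]
    congr 3
    · simp only [map_sub, map_one, map_mul, Complex.conj_ofReal, Complex.conj_conj]
      ring
    · ring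
  have e1 : ∑ i, ∑ a, -(n * γ a / 2) * (Real.log ‖1 - ρ * xi (x i) * conj (y a)‖ +
      Real.log ‖1 - ρ * xi (x i) * y a‖) = -(n / 2) * ∑ i, potC γ (fun a => ρ * y a) (x i) := by
    simp only [hcross, potC, mul_sum]
    exact sum_congr rfl fun i _ => sum_congr rfl fun a _ => by ring
  have e2 : ∑ a, ∑ i, -(n * γ a / 2) * (Real.log ‖1 - y a * conj (ρ * xi (x i))‖ +
      Real.log ‖1 - y a * (ρ * xi (x i))‖) = -(n / 2) * ∑ i, potC γ (fun a => ρ * y a) (x i) := by
    rw [sum_comm]
    simp only [hcross', potC, mul_sum]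
    exact sum_congr rfl fun i _ => sum_congr rfl fun a _ => by ring
  have e3 : ∑ a, ∑ b, -(n * γ a / 2) * -(n * γ b / 2) * (Real.log ‖1 - y a * conj (y b)‖ +
      Real.log ‖1 - y a * y b‖) = (n : ℝ) ^ 2 / 2 * selfE γ y := by
    simp only [selfE, mul_sum]
    exact sum_congr rfl fun i _ => sum_congr rfl fun a _ => by ring
  rw [e1, e2, e3, ← sum_add_distrib] at h
  simp only [← sum_add_distrib] at h
  -- lower bound for the point-point terms
  let g : Fin n → Fin n → ℝ := fun i j => if i = j then 2 * Real.log (1 - ρ ^ 2) else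
    2 * Real.log (ρ ^ 2) + Real.log 2 + Real.log |x i - x j|
  have hg : ∑ i, ∑ j, g i j ≤ ∑ i, ∑ j, (Real.log ‖1 - ρ * xi (x i) * conj (ρ * xi (x j))‖ +
      Real.log ‖1 - ρ * xi (x i) * (ρ * xi (x j))‖) := by
    refine sum_le_sum fun i _ => sum_le_sum fun j _ => ?_
    have a1 : (ρ : ℂ) * xi (x i) * conj (ρ * xi (x j)) =
        ((ρ ^ 2 : ℝ) : ℂ) * (xi (x i) * conj (xi (x j))) := by
      simp only [map_mul, Complex.conj_ofReal]; push_cast; ring
    have a2 : (ρ : ℂ) * xi (x i) * (ρ * xi (x j)) = ((ρ ^ 2 : ℝ) : ℂ) * (xi (x i) * xi (x j)) := by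
      push_cast; ring
    rw [a1, a2]
    simp only [g]
    split_ifs with hij
    · have b1 := log_ge' hr0.le hr1 (w := xi (x i) * conj (xi (x j)))
        (by rw [norm_mul, Complex.norm_conj, norm_xi (hx1 i), norm_xi (hx1 j), mul_one])
      have b2 := log_ge' hr0.le hr1 (w := xi (x i) * xi (x j))
        (by rw [norm_mul, norm_xi (hx1 i), norm_xi (hx1 j), mul_one])
      linarith
    · exact log_xi_pair (hx1 i) (hx1 j) (fun h => hij (hx h)) hr0 hr1.le
  have hc := sum_offdiag (n := n) (fun _ _ => (1 : ℝ)) fun _ _ => rfl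
  have hgs := sum_offdiag g fun i j => by
    simp only [g, eq_comm (a := i), abs_sub_comm (x i)]
  have hg2 : ∑ i, ∑ j ∈ Ioi i, g i j = (2 * Real.log (ρ ^ 2) + Real.log 2) *
      (∑ i : Fin n, ∑ j ∈ Ioi i, (1 : ℝ)) + ∑ i, ∑ j ∈ Ioi i, Real.log |x i - x j| := by
    simp only [mul_sum, ← sum_add_distrib]
    refine sum_congr rfl fun i _ => sum_congr rfl fun j hj => ?_
    simp only [g, if_neg (mem_Ioi.1 hj).ne, mul_one]
  have hg1 : ∑ i, g i i = n * (2 * Real.log (1 - ρ ^ 2)) := by simp [g]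
  simp only [sum_const, card_univ, Fintype.card_fin, nsmul_eq_mul, mul_one] at hc
  simp only [sum_const, nsmul_eq_mul, mul_one] at hg2
  have hpot : ∑ i, potC γ (fun a => ρ * y a) (x i) ≤ ∑ i, potC γ y (x i) + n * (ε / 2) := by
    have : ∑ i, potC γ (fun a => ρ * y a) (x i) ≤ ∑ i, (potC γ y (x i) + ε / 2) :=
      sum_le_sum fun i _ => by
        have := (abs_lt.1 (hp (x i) (abs_le.1 (hx1 i)))).2
        linarith
    simpa [sum_add_distrib] using this
  have hn : (0 : ℝ) ≤ n := Nat.cast_nonneg n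
  have hpot' := mul_le_mul_of_nonneg_left hpot hn
  set T := ∑ i : Fin n, ((Ioi i).card : ℝ)
  have hT : T = (n * n - n) / 2 := by linarith
  rw [hgs, hg1, hg2, hT] at hg
  have k1 : -(2 * Real.log (ρ ^ 2)) * (n * n) ≤ ε / 2 * (n * n) :=
    mul_le_mul_of_nonneg_right hl.le (mul_nonneg hn hn)
  have k2 : Real.log (ρ ^ 2) * n ≤ 0 := mul_nonpos_of_nonpos_of_nonneg hlr hn
  nlinarith

end Crest.Agent.R6
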