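import Crest.Agent.R6.Defs

/-! Row 6: lemmas for the energy inequalities. -/

set_option autoImplicit false

namespace Crest.Agent.R6.EnergyA

open Finset Filter Topology

local notation "conj" => starRingEnd ℂ

/-- symmetrised negative type (charges at `z a` and at `conj (z a)`). -/
theorem qsym (hQ : QStmt) (ι : Type) [Fintype ι] (γ : ι → ℝ) (z : ι → ℂ) (hz : ∀ a, ‖z a‖ < 1) :
    ∑ a, ∑ b, γ a * γ b * (Real.log ‖1 - z a * conj (z b)‖ + Real.log ‖1 - z a * z b‖) ≤ 0 := by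
  have h := hQ (ι ⊕ ι) (Sum.elim γ γ) (Sum.elim z fun a => conj (z a)) (by
    rintro (a | a)
    · exact hz a
    · simpa using hz a)
  have e1 : ∀ u v : ℂ, ‖1 - conj u * conj v‖ = ‖1 - u * v‖ := fun u v => by
    rw [← Complex.norm_conj (1 - u * v)]; simp
  have e2 : ∀ u v : ℂ, ‖1 - conj u * v‖ = ‖1 - u * conj v‖ := fun u v => by
    rw [← Complex.norm_conj (1 - u * conj v)]; simp
  simp only [Fintype.sum_sum_type, Sum.elim_inl, Sum.elim_inr, Complex.conj_conj, e1, e2,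
    sum_add_distrib] at h
  simp only [mul_add, sum_add_distrib]
  linarith

theorem mul_norm_le {r : ℝ} (h0 : 0 ≤ r) (h1 : r ≤ 1) {w : ℂ} (hw : ‖w‖ ≤ 1) :
    r * ‖1 - w‖ ≤ ‖1 - r * w‖ := by
  have hw2 : w.re ^ 2 + w.im ^ 2 ≤ 1 := by
    have := Complex.sq_norm w
    rw [Complex.normSq_apply] at this
    nlinarith [norm_nonneg w]
  refine abs_le_of_sq_le_sq' ?_ (norm_nonneg _) |>.2
  rw [mul_pow, Complex.sq_norm, Complex.sq_norm, Complex.normSq_apply, Complex.normSq_apply]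
  simp only [Complex.sub_re, Complex.one_re, Complex.sub_im, Complex.one_im, Complex.mul_re,
    Complex.ofReal_re, Complex.ofReal_im, Complex.mul_im, zero_mul, sub_zero, add_zero, zero_sub]
  have h2 : -1 ≤ w.re := by nlinarith [sq_nonneg w.im, sq_nonneg (w.re + 1)]
  have h3 : w.re ≤ 1 := by nlinarith [sq_nonneg w.im, sq_nonneg (w.re - 1)]
  have : 0 ≤ (1 - r) * (1 + r - 2 * r * w.re) :=
    mul_nonneg (by linarith) (by nlinarith)
  nlinarith

theorem log_ge {r : ℝ} (h0 : 0 < r) (h1 : r ≤ 1) {w : ℂ} (hw : ‖w‖ ≤ 1) (hne : 1 - w ≠ 0) :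
    Real.log r + Real.log ‖1 - w‖ ≤ Real.log ‖1 - r * w‖ := by
  have hp : 0 < ‖1 - w‖ := norm_pos_iff.2 hne
  rw [← Real.log_mul h0.ne' hp.ne']
  exact Real.log_le_log (mul_pos h0 hp) (mul_norm_le h0.le h1 hw)

theorem log_ge' {r : ℝ} (h0 : 0 ≤ r) (h1 : r < 1) {w : ℂ} (hw : ‖w‖ ≤ 1) :
    Real.log (1 - r) ≤ Real.log ‖1 - r * w‖ := by
  refine Real.log_le_log (by linarith) ?_
  have h2 := norm_sub_norm_le (1 : ℂ) (r * w)
  rw [norm_one, norm_mul, Complex.norm_real, Real.norm_of_nonneg h0] at h2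
  nlinarith

/-- the point of the upper unit half circle above `x`. -/
noncomputable def xi (x : ℝ) : ℂ := ⟨x, Real.sqrt (1 - x ^ 2)⟩

theorem xi_mul_conj {x : ℝ} (hx : |x| ≤ 1) : xi x * conj (xi x) = 1 := by
  have h : 0 ≤ 1 - x ^ 2 := by nlinarith [sq_abs x, abs_nonneg x]
  rw [Complex.mul_conj, Complex.normSq_apply]
  simp only [xi]
  rw [Real.mul_self_sqrt h]
  push_cast
  ring

theorem xi_add_conj (x : ℝ) : xi x + conj (xi x) = 2 * x := by
  rw [Complex.add_conj]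
  simp [xi]

theorem norm_xi {x : ℝ} (hx : |x| ≤ 1) : ‖xi x‖ = 1 := by
  have := congrArg norm (xi_mul_conj hx)
  rw [norm_mul, Complex.norm_conj, norm_one] at this
  nlinarith [norm_nonneg (xi x)]

theorem xi_fac {x : ℝ} (hx : |x| ≤ 1) (y : ℂ) :
    (1 - xi x * y) * (1 - conj (xi x) * y) = 1 - 2 * x * y + y ^ 2 := by
  have h1 := xi_mul_conj hx
  have h2 := xi_add_conj x
  linear_combination y ^ 2 * h1 - y * h2

theorem xi_pair {x x' : ℝ} (hx : |x| ≤ 1) (hx' : |x'| ≤ 1) :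
    (1 - xi x * conj (xi x')) * (1 - xi x * xi x') = 2 * xi x * (x - x' : ℝ) := by
  have h1 := xi_mul_conj hx
  have h2 := xi_add_conj x
  have h3 := xi_mul_conj hx'
  have h4 := xi_add_conj x'
  push_cast
  linear_combination xi x ^ 2 * h3 - xi x * h4 - h1 + xi x * h2

theorem one_sub_ne {u y : ℂ} (hu : ‖u‖ ≤ 1) (hy : ‖y‖ < 1) : 1 - u * y ≠ 0 := by
  intro h
  have h1 : u * y = 1 := by linear_combination -h
  have := congrArg norm h1
  rw [norm_mul, norm_one] at this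
  nlinarith [norm_nonneg u, norm_nonneg y]

theorem log_xi_fac {x : ℝ} (hx : |x| ≤ 1) {y : ℂ} (hy : ‖y‖ < 1) :
    Real.log ‖1 - xi x * y‖ + Real.log ‖1 - conj (xi x) * y‖ =
      Real.log ‖1 - 2 * x * y + y ^ 2‖ := by
  rw [← xi_fac hx, norm_mul, Real.log_mul]
  · exact norm_ne_zero_iff.2 (one_sub_ne (norm_xi hx).le hy)
  · exact norm_ne_zero_iff.2 (one_sub_ne (by rw [Complex.norm_conj, norm_xi hx]) hy)

theorem log_xi_pair {x x' : ℝ} (hx : |x| ≤ 1) (hx' : |x'| ≤ 1) (hne : x ≠ x') {r : ℝ} (h0 : 0 < r)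
    (h1 : r ≤ 1) : 2 * Real.log r + Real.log 2 + Real.log |x - x'| ≤
      Real.log ‖1 - r * (xi x * conj (xi x'))‖ + Real.log ‖1 - r * (xi x * xi x')‖ := by
  have h := xi_pair hx hx'
  have hn := congrArg norm h
  rw [norm_mul, norm_mul, norm_mul, norm_xi hx, Complex.norm_real, Real.norm_eq_abs] at hn
  have hp : 0 < |x - x'| := abs_pos.2 (sub_ne_zero.2 hne)
  have h2 : ‖(2 : ℂ)‖ = 2 := by simp
  rw [h2, mul_one] at hn
  have ha : ‖1 - xi x * conj (xi x')‖ ≠ 0 := left_ne_zero_of_mul (by rw [hn]; positivity)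
  have hb : ‖1 - xi x * xi x'‖ ≠ 0 := right_ne_zero_of_mul (by rw [hn]; positivity)
  have h3 := log_ge h0 h1 (w := xi x * conj (xi x'))
    (by rw [norm_mul, Complex.norm_conj, norm_xi hx, norm_xi hx', mul_one]) (norm_ne_zero_iff.1 ha)
  have h4 := log_ge h0 h1 (w := xi x * xi x')
    (by rw [norm_mul, norm_xi hx, norm_xi hx', mul_one]) (norm_ne_zero_iff.1 hb)
  have h5 := Real.log_mul ha hb
  rw [hn, Real.log_mul two_ne_zero hp.ne'] at h5
  linarith

/-- shrinking the trial points changes `potC` uniformly little. -/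
theorem potC_near {K : ℕ} (γ : Fin K → ℝ) {y : Fin K → ℂ} (hy : ∀ a, ‖y a‖ < 1) {ε : ℝ}
    (hε : 0 < ε) : ∀ᶠ ρ : ℝ in 𝓝 1, ∀ x ∈ Set.Icc (-1 : ℝ) 1,
      |potC γ (fun a => ρ * y a) x - potC γ y x| < ε := by
  refine isCompact_Icc.eventually_forall_of_forall_eventually fun x hx => ?_
  have hx' : |x| ≤ 1 := abs_le.2 hx
  have hne : ∀ a, ‖1 - 2 * (x : ℂ) * y a + y a ^ 2‖ ≠ 0 := fun a => by
    rw [← xi_fac hx', norm_ne_zero_iff]
    exact mul_ne_zero (one_sub_ne (norm_xi hx').le (hy a))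
      (one_sub_ne (by rw [Complex.norm_conj, norm_xi hx']) (hy a))
  have hc : ContinuousAt (fun p : ℝ × ℝ => |potC γ (fun a => p.1 * y a) p.2 - potC γ y p.2|)
      (1, x) := by
    unfold potC
    refine ContinuousAt.abs (ContinuousAt.sub ?_ ?_)
    · refine tendsto_finsetSum _ fun a _ => ContinuousAt.mul continuousAt_const
        (ContinuousAt.log (by fun_prop) (by simpa using hne a))
    · refine tendsto_finsetSum _ fun a _ => ContinuousAt.mul continuousAt_const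
        (ContinuousAt.log (by fun_prop) (by simpa using hne a))
  exact hc.eventually_lt continuousAt_const (by simpa using hε)

/-- sum over ordered pairs of a symmetric function. -/
theorem sum_offdiag {n : ℕ} (f : Fin n → Fin n → ℝ) (hf : ∀ i j, f i j = f j i) :
    ∑ i, ∑ j, f i j = ∑ i, f i i + 2 * ∑ i, ∑ j ∈ Ioi i, f i j := by
  have h1 : ∀ i, ∑ j, f i j = f i i + (∑ j ∈ Ioi i, f i j + ∑ j ∈ Iio i, f i j) := by
    intro i
    rw [← sum_union (disjoint_Ioi_Iio i), ← sum_insert (by simp)]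
    refine sum_congr ?_ fun _ _ => rfl
    ext j
    simp only [mem_univ, mem_insert, mem_union, mem_Ioi, mem_Iio, true_iff]
    rcases lt_trichotomy i j with h | h | h
    · exact Or.inr (Or.inl h)
    · exact Or.inl h.symm
    · exact Or.inr (Or.inr h)
  have h2 : ∑ i, ∑ j ∈ Iio i, f i j = ∑ i, ∑ j ∈ Ioi i, f i j := by
    rw [sum_comm' (t' := univ) (s' := fun j => Ioi j) (by simp)]
    exact sum_congr rfl fun i _ => sum_congr rfl fun j _ => hf j i
  simp only [h1, sum_add_distrib, h2]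
  ring

end Crest.Agent.R6.EnergyA
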