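import Crest.Agent.R6.Defs

/-! Row 6: energy inequality B (signed charges, point dependent radii). -/

set_option autoImplicit false

namespace Crest.Agent.R6

open Finset

namespace EnergyB

/-- the symmetrised kernel. -/
noncomputable def S (u v : ℂ) : ℝ :=
  (Real.log ‖1 - u * (starRingEnd ℂ) v‖ + Real.log ‖1 - u * v‖) / 2

theorem norm_conj_left (u v : ℂ) :
    ‖1 - (starRingEnd ℂ) u * v‖ = ‖1 - u * (starRingEnd ℂ) v‖ := by
  rw [← Complex.norm_conj]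
  simp

theorem norm_conj_both (u v : ℂ) :
    ‖1 - (starRingEnd ℂ) u * (starRingEnd ℂ) v‖ = ‖1 - u * v‖ := by
  rw [← Complex.norm_conj]
  simp

theorem S_symm (u v : ℂ) : S u v = S v u := by
  rw [S, S, ← norm_conj_left, mul_comm _ v, mul_comm u v]

theorem QS (hQ : QStmt) {ι : Type} [Fintype ι] (γ : ι → ℝ) (w : ι → ℂ) (hw : ∀ c, ‖w c‖ < 1) :
    ∑ c, ∑ d, γ c * γ d * S (w c) (w d) ≤ 0 := by
  have h := hQ (ι ⊕ ι) (Sum.elim γ γ) (Sum.elim w fun c => (starRingEnd ℂ) (w c)) (by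
    rintro (c | c)
    · exact hw c
    · simpa using hw c)
  simp only [Fintype.sum_sum_type, Sum.elim_inl, Sum.elim_inr, Complex.conj_conj, norm_conj_left,
    ← sum_add_distrib] at h
  have e : ∑ c, ∑ d, γ c * γ d * S (w c) (w d) = (∑ c, ∑ d,
      (γ c * γ d * Real.log ‖1 - w c * (starRingEnd ℂ) (w d)‖ +
        γ c * γ d * Real.log ‖1 - w c * w d‖ + (γ c * γ d * Real.log ‖1 - w c * w d‖ +
        γ c * γ d * Real.log ‖1 - w c * (starRingEnd ℂ) (w d)‖))) / 4 := by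
    simp only [sum_div, S]
    exact sum_congr rfl fun c _ => sum_congr rfl fun d _ => by ring
  rw [e]
  linarith

theorem three (hQ : QStmt) {n K : ℕ} (η : Fin K → ℝ) (z : Fin K → ℂ) (hz : ∀ a, ‖z a‖ < 1)
    (p q : Fin n → ℂ) (hp : ∀ i, ‖p i‖ < 1) (hq : ∀ i, ‖q i‖ < 1) :
    ∑ i, ∑ j, S (p i) (p j) + 4 * ∑ i, ∑ j, S (q i) (q j) + (n : ℝ) ^ 2 * selfE η z
      - 4 * ∑ i, ∑ j, S (p i) (q j) - 2 * n * ∑ i, ∑ a, η a * S (p i) (z a)
      + 4 * n * ∑ i, ∑ a, η a * S (q i) (z a) ≤ 0 := by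
  have h := QS hQ (ι := Fin n ⊕ Fin n ⊕ Fin K)
    (Sum.elim (fun _ => 1) (Sum.elim (fun _ => -2) fun a => -(n * η a)))
    (Sum.elim p (Sum.elim q z)) (by
      rintro (c | c | c)
      exacts [hp c, hq c, hz c])
  simp only [Fintype.sum_sum_type, Sum.elim_inl, Sum.elim_inr, sum_add_distrib] at h
  have e1 : ∑ i, ∑ j, 1 * 1 * S (p i) (p j) = ∑ i, ∑ j, S (p i) (p j) := by simp
  have e2 : ∑ i, ∑ j, 1 * -2 * S (p i) (q j) = -2 * ∑ i, ∑ j, S (p i) (q j) := by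
    simp only [mul_sum, one_mul]
  have e3 : ∑ i, ∑ a, 1 * -(n * η a) * S (p i) (z a) = -n * ∑ i, ∑ a, η a * S (p i) (z a) := by
    simp only [mul_sum]
    exact sum_congr rfl fun c _ => sum_congr rfl fun d _ => by ring
  have e4 : ∑ j, ∑ i, -2 * 1 * S (q j) (p i) = -2 * ∑ i, ∑ j, S (p i) (q j) := by
    rw [sum_comm]
    simp only [mul_sum, mul_one, S_symm (q _) (p _)]
  have e5 : ∑ i, ∑ j, -2 * -2 * S (q i) (q j) = 4 * ∑ i, ∑ j, S (q i) (q j) := by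
    simp only [mul_sum]
    exact sum_congr rfl fun c _ => sum_congr rfl fun d _ => by ring
  have e6 : ∑ i, ∑ a, -2 * -(n * η a) * S (q i) (z a) =
      2 * n * ∑ i, ∑ a, η a * S (q i) (z a) := by
    simp only [mul_sum]
    exact sum_congr rfl fun c _ => sum_congr rfl fun d _ => by ring
  have e7 : ∑ a, ∑ i, -(n * η a) * 1 * S (z a) (p i) = -n * ∑ i, ∑ a, η a * S (p i) (z a) := by
    rw [sum_comm]
    simp only [mul_sum, S_symm (z _) (p _)]
    exact sum_congr rfl fun c _ => sum_congr rfl fun d _ => by ring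
  have e8 : ∑ a, ∑ i, -(n * η a) * -2 * S (z a) (q i) =
      2 * n * ∑ i, ∑ a, η a * S (q i) (z a) := by
    rw [sum_comm]
    simp only [mul_sum, S_symm (z _) (q _)]
    exact sum_congr rfl fun c _ => sum_congr rfl fun d _ => by ring
  have e9 : ∑ a, ∑ b, -(n * η a) * -(n * η b) * S (z a) (z b) = (n : ℝ) ^ 2 * selfE η z := by
    simp only [selfE, mul_sum, S]
    exact sum_congr rfl fun c _ => sum_congr rfl fun d _ => by ring
  rw [e1, e2, e3, e4, e5, e6, e7, e8, e9] at h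
  linarith

theorem sum_split {n : ℕ} (f : Fin n → Fin n → ℝ) :
    ∑ i, ∑ j, f i j = ∑ i, f i i + ∑ i, ∑ j ∈ Ioi i, (f j i + f i j) := by
  rw [sum_sum_Ioi_add_eq_sum_sum_off_diag, sum_comm, ← sum_add_distrib]
  exact sum_congr rfl fun i _ => (Fintype.sum_eq_add_sum_compl i fun j => f j i)

theorem count (n : ℕ) (c : ℝ) :
    2 * ∑ i : Fin n, ∑ _j ∈ Ioi i, c = ((n : ℝ) ^ 2 - n) * c := by
  have h := sum_split fun _ _ : Fin n => c
  simp only [sum_add_distrib] at h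
  simp only [sum_const, card_univ, Fintype.card_fin, nsmul_eq_mul] at h ⊢
  linarith

theorem sum_lower {n : ℕ} {f g : Fin n → Fin n → ℝ} {d : Fin n → ℝ} {c : ℝ}
    (hf : ∀ i j, f j i = f i j) (hg : ∀ i j, i < j → g i j + c ≤ f i j) (hd : ∀ i, d i ≤ f i i) :
    ∑ i, d i + 2 * ∑ i, ∑ j ∈ Ioi i, g i j + ((n : ℝ) ^ 2 - n) * c ≤ ∑ i, ∑ j, f i j := by
  rw [sum_split f, ← count, add_assoc, ← mul_add, ← sum_add_distrib, mul_sum]
  refine add_le_add (sum_le_sum fun i _ => hd i) (sum_le_sum fun i _ => ?_)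
  rw [← sum_add_distrib, mul_sum]
  refine sum_le_sum fun j hj => ?_
  rw [hf i j]
  linarith [hg i j (mem_Ioi.1 hj)]

theorem log_shrink {w : ℂ} (hw : ‖w‖ ≤ 1) (h1 : 1 - w ≠ 0) {δ r : ℝ} (hδ : δ ≤ 1 / 2)
    (h0 : 0 ≤ δ) (hr : (1 - δ) ^ 2 ≤ r) (hr1 : r ≤ 1) :
    Real.log ‖1 - w‖ - 4 * δ ≤ Real.log ‖1 - r * w‖ := by
  have hd : 0 < 1 - δ := by linarith
  have hr0 : 0 < r := (pow_pos hd 2).trans_le hr
  have h2 : r * ‖1 - w‖ ≤ ‖1 - r * w‖ := by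
    refine (sq_le_sq₀ (by positivity) (norm_nonneg _)).1 ?_
    have h3 : w.re ≤ 1 := (Complex.re_le_norm w).trans hw
    rw [mul_pow, Complex.sq_norm, Complex.sq_norm, Complex.normSq_apply, Complex.normSq_apply]
    simp only [Complex.sub_re, Complex.one_re, Complex.sub_im, Complex.one_im, Complex.mul_re,
      Complex.mul_im, Complex.ofReal_re, Complex.ofReal_im]
    nlinarith [mul_nonneg (sub_nonneg.2 hr1) (mul_nonneg hr0.le (sub_nonneg.2 h3)),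
      sq_nonneg (1 - r)]
  have h4 := Real.log_le_log (mul_pos hr0 (norm_pos_iff.2 h1)) h2
  rw [Real.log_mul hr0.ne' (norm_pos_iff.2 h1).ne'] at h4
  have h5 := Real.log_le_log (pow_pos hd 2) hr
  rw [Real.log_pow] at h5
  have h6 := Real.one_sub_inv_le_log_of_pos hd
  have h7 : (1 - δ)⁻¹ ≤ 1 + 2 * δ := by
    rw [inv_le_iff_one_le_mul₀ hd]
    nlinarith
  push_cast at h5
  linarith

theorem S_shrink {u v : ℂ} (hu : ‖u‖ ≤ 1) (hv : ‖v‖ ≤ 1) (h1 : 1 - u * (starRingEnd ℂ) v ≠ 0)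
    (h2 : 1 - u * v ≠ 0) {δ a b : ℝ} (hδ : δ ≤ 1 / 2) (h0 : 0 ≤ δ) (ha : 1 - δ ≤ a) (ha1 : a ≤ 1)
    (hb : 1 - δ ≤ b) (hb1 : b ≤ 1) : S u v - 4 * δ ≤ S (a * u) (b * v) := by
  have hr : (1 - δ) ^ 2 ≤ a * b := by
    rw [sq]; exact mul_le_mul ha hb (by linarith) (by linarith)
  have hr1 : a * b ≤ 1 := mul_le_one₀ ha1 (by linarith) hb1
  have h3 := log_shrink (w := u * (starRingEnd ℂ) v) (by
    rw [norm_mul, Complex.norm_conj]; exact mul_le_one₀ hu (norm_nonneg _) hv) h1 hδ h0 hr hr1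
  have h4 := log_shrink (w := u * v) (by
    rw [norm_mul]; exact mul_le_one₀ hu (norm_nonneg _) hv) h2 hδ h0 hr hr1
  have e1 : (a : ℂ) * u * (starRingEnd ℂ) (b * v) = ((a * b : ℝ) : ℂ) * (u * (starRingEnd ℂ) v) := by
    simp only [map_mul, Complex.conj_ofReal, Complex.ofReal_mul]; ring
  have e2 : (a : ℂ) * u * (b * v) = ((a * b : ℝ) : ℂ) * (u * v) := by
    simp only [Complex.ofReal_mul]; ring
  rw [S, S, e1, e2]
  linarith

theorem log_le_add {w w' : ℂ} {t : ℝ} (hw : 1 - w ≠ 0) (hw' : 1 - w' ≠ 0)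
    (h : ‖w - w'‖ ≤ t * ‖1 - w‖) : Real.log ‖1 - w'‖ ≤ Real.log ‖1 - w‖ + t := by
  have h0 := norm_pos_iff.2 hw
  have h1 : ‖1 - w'‖ ≤ ‖1 - w‖ + ‖w - w'‖ := norm_sub_le_norm_sub_add_norm_sub _ _ _
  have h2 := Real.log_le_sub_one_of_pos (div_pos (norm_pos_iff.2 hw') h0)
  rw [Real.log_div (norm_pos_iff.2 hw').ne' h0.ne'] at h2
  have h3 : ‖1 - w'‖ / ‖1 - w‖ ≤ 1 + t := by
    rw [div_le_iff₀ h0]
    linarith
  linarith

theorem one_sub_ne {w : ℂ} (hw : ‖w‖ < 1) : 1 - w ≠ 0 := by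
  intro h
  rw [← sub_eq_zero.1 h, norm_one] at hw
  exact lt_irrefl _ hw

theorem log_trial {u z : ℂ} (hu : ‖u‖ ≤ 1) (hz : ‖z‖ < 1) {δ r : ℝ} (hδ : δ ≤ 1 / 2)
    (hr : 1 - δ ≤ r) (hr1 : r ≤ 1) :
    |Real.log ‖1 - r * u * z‖ - Real.log ‖1 - u * z‖| ≤ δ / (1 - ‖z‖) := by
  have hr0 : 0 ≤ r := by linarith
  have hd : 0 < 1 - ‖z‖ := by linarith
  have h1 : ‖u * z‖ ≤ ‖z‖ := by
    rw [norm_mul]; exact mul_le_of_le_one_left (norm_nonneg _) hu
  have h2 : ‖(r : ℂ) * u * z‖ ≤ ‖z‖ := by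
    rw [mul_assoc, norm_mul, Complex.norm_real, Real.norm_of_nonneg hr0]
    exact (mul_le_of_le_one_left (norm_nonneg _) hr1).trans h1
  have h3 : ‖u * z - r * u * z‖ ≤ δ := by
    rw [show u * z - r * u * z = ((1 - r : ℝ) : ℂ) * (u * z) by push_cast; ring, norm_mul,
      Complex.norm_real, Real.norm_of_nonneg (by linarith)]
    nlinarith [norm_nonneg (u * z)]
  have h4 : ∀ w : ℂ, ‖w‖ ≤ ‖z‖ → δ ≤ δ / (1 - ‖z‖) * ‖1 - w‖ := by
    intro w hw
    have h5 := norm_sub_norm_le (1 : ℂ) w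
    rw [norm_one] at h5
    rw [div_mul_eq_mul_div, le_div_iff₀ hd]
    exact mul_le_mul_of_nonneg_left (by linarith) (by linarith)
  have h6 := log_le_add (one_sub_ne (h1.trans_lt hz)) (one_sub_ne (h2.trans_lt hz))
    (h3.trans (h4 _ h1))
  have h7 := log_le_add (one_sub_ne (h2.trans_lt hz)) (one_sub_ne (h1.trans_lt hz))
    ((norm_sub_rev _ _).trans_le (h3.trans (h4 _ h2)))
  rw [abs_le]
  constructor <;> linarith

theorem S_trial {u z : ℂ} (hu : ‖u‖ ≤ 1) (hz : ‖z‖ < 1) {δ r : ℝ} (hδ : δ ≤ 1 / 2)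
    (hr : 1 - δ ≤ r) (hr1 : r ≤ 1) : |S (r * u) z - S u z| ≤ δ / (1 - ‖z‖) := by
  have h1 := log_trial hu hz hδ hr hr1
  have h2 := log_trial (z := (starRingEnd ℂ) z) hu (by rwa [Complex.norm_conj]) hδ hr hr1
  rw [Complex.norm_conj] at h2
  rw [abs_le] at h1 h2 ⊢
  rw [S, S]
  constructor <;> linarith [h1.1, h1.2, h2.1, h2.2]

theorem sum_trial {K : ℕ} (η : Fin K → ℝ) {z : Fin K → ℂ} (hz : ∀ a, ‖z a‖ < 1) {u : ℂ}
    (hu : ‖u‖ ≤ 1) {δ r : ℝ} (hδ : δ ≤ 1 / 2) (hr : 1 - δ ≤ r) (hr1 : r ≤ 1) :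
    |∑ a, η a * S (r * u) (z a) - ∑ a, η a * S u (z a)| ≤ δ * ∑ a, |η a| / (1 - ‖z a‖) := by
  rw [← sum_sub_distrib, mul_sum]
  refine (abs_sum_le_sum_abs _ _).trans (sum_le_sum fun a _ => ?_)
  rw [← mul_sub, abs_mul]
  refine (mul_le_mul_of_nonneg_left (S_trial hu (hz a) hδ hr hr1) (abs_nonneg _)).trans
    (le_of_eq ?_)
  ring

theorem S_real (x : ℝ) (v : ℂ) : S x v = Real.log ‖1 - x * v‖ := by
  rw [S, ← norm_conj_left, Complex.conj_ofReal]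
  ring

theorem S_real_real {x y : ℝ} (h : x * y < 1) : S x y = Real.log (1 - x * y) := by
  rw [S_real, show (1 : ℂ) - x * y = ((1 - x * y : ℝ) : ℂ) by push_cast; ring, Complex.norm_real,
    Real.norm_of_nonneg (by linarith)]

/-- the point of the unit circle with real part `s`. -/
noncomputable def ze (s : ℝ) : ℂ := ⟨s, Real.sqrt (1 - s ^ 2)⟩

theorem ze_add (s : ℝ) : ze s + (starRingEnd ℂ) (ze s) = 2 * s := by
  rw [Complex.add_conj]
  simp [ze]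

variable {s s' x : ℝ}

theorem sq_sqrt' (hs : s ∈ Set.Ioo (0 : ℝ) 1) : Real.sqrt (1 - s ^ 2) ^ 2 = 1 - s ^ 2 :=
  Real.sq_sqrt (by nlinarith [hs.1, hs.2])

theorem normSq_ze (hs : s ∈ Set.Ioo (0 : ℝ) 1) : Complex.normSq (ze s) = 1 := by
  rw [ze, Complex.normSq_mk]
  linarith [sq_sqrt' hs]

theorem norm_ze (hs : s ∈ Set.Ioo (0 : ℝ) 1) : ‖ze s‖ = 1 := by
  rw [Complex.norm_def, normSq_ze hs, Real.sqrt_one]

theorem ze_mul (hs : s ∈ Set.Ioo (0 : ℝ) 1) : ze s * (starRingEnd ℂ) (ze s) = 1 := by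
  rw [Complex.mul_conj, normSq_ze hs, Complex.ofReal_one]

theorem ze_prod (hs : s ∈ Set.Ioo (0 : ℝ) 1) (hs' : s' ∈ Set.Ioo (0 : ℝ) 1) :
    ‖1 - ze s * (starRingEnd ℂ) (ze s')‖ * ‖1 - ze s * ze s'‖ = 2 * |s - s'| := by
  have e : (1 - ze s * (starRingEnd ℂ) (ze s')) * (1 - ze s * ze s') =
      ze s * ((2 * (s - s') : ℝ) : ℂ) := by
    push_cast
    linear_combination ze s * ze_add s - ze s * ze_add s' - ze_mul hs + ze s ^ 2 * ze_mul hs'
  rw [← norm_mul, e, norm_mul, norm_ze hs, one_mul, Complex.norm_real, Real.norm_eq_abs, abs_mul,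
    abs_two]

theorem S_ze_z (hs : s ∈ Set.Ioo (0 : ℝ) 1) {z : ℂ} (hz : ‖z‖ < 1) :
    S (ze s) z = Real.log ‖1 - 2 * (s : ℂ) * z + z ^ 2‖ / 2 := by
  have e : 1 - 2 * (s : ℂ) * z + z ^ 2 = (1 - (starRingEnd ℂ) (ze s) * z) * (1 - ze s * z) := by
    linear_combination z * ze_add s - z ^ 2 * ze_mul hs
  rw [e, norm_mul, Real.log_mul, S, norm_conj_left]
  · exact norm_ne_zero_iff.2 (one_sub_ne (by rwa [norm_mul, Complex.norm_conj, norm_ze hs, one_mul]))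
  · exact norm_ne_zero_iff.2 (one_sub_ne (by rwa [norm_mul, norm_ze hs, one_mul]))

theorem sq_norm_x_ze (hs : s ∈ Set.Ioo (0 : ℝ) 1) (x : ℝ) :
    ‖1 - x * ze s‖ ^ 2 = 1 + x ^ 2 - 2 * x * s := by
  rw [Complex.sq_norm, Complex.normSq_apply]
  simp only [ze, Complex.sub_re, Complex.one_re, Complex.sub_im, Complex.one_im, Complex.mul_re,
    Complex.mul_im, Complex.ofReal_re, Complex.ofReal_im]
  linear_combination x ^ 2 * sq_sqrt' hs

theorem S_opp (hx : x ∈ Set.Ioo (-1 : ℝ) 1) (hs : s ∈ Set.Ioo (0 : ℝ) 1) {δ : ℝ} (h0 : 0 < δ)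
    (hδ : δ ≤ 1 / 2) :
    S (((1 - δ * (1 - x) / 2 : ℝ) : ℂ) * x) (((1 - δ * Real.sqrt (1 - s ^ 2) : ℝ) : ℂ) * ze s) ≤
      Real.log (1 + x ^ 2 - 2 * x * s) / 2 + 2 * δ := by
  set a := 1 - δ * (1 - x) / 2 with ha
  set b := 1 - δ * Real.sqrt (1 - s ^ 2) with hb
  have hq := sq_sqrt' hs
  have hq0 := Real.sqrt_nonneg (1 - s ^ 2)
  have hq1 : Real.sqrt (1 - s ^ 2) ≤ 1 := Real.sqrt_le_one.2 (by nlinarith)
  have ha0 : 0 ≤ a := by nlinarith [hx.1, hx.2]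
  have ha1 : a ≤ 1 := by nlinarith [hx.1, hx.2]
  have hb0 : 0 ≤ b := by nlinarith
  have hb1 : b ≤ 1 := by nlinarith
  have hn := sq_norm_x_ze hs x
  have hx1 : ‖(x : ℂ) * ze s‖ < 1 := by
    rw [norm_mul, norm_ze hs, mul_one, Complex.norm_real, Real.norm_eq_abs, abs_lt]
    exact hx
  have h1 : Real.sqrt (1 - s ^ 2) ≤ ‖1 - x * ze s‖ :=
    (sq_le_sq₀ hq0 (norm_nonneg _)).1 (by nlinarith [sq_nonneg (x - s)])
  have h2 : (1 - x) / 2 ≤ ‖1 - x * ze s‖ := by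
    refine (sq_le_sq₀ (by linarith [hx.2]) (norm_nonneg _)).1 ?_
    rw [hn]
    rcases le_total 0 x with h | h
    · nlinarith [mul_nonneg h (sub_nonneg.2 hs.2.le), sq_nonneg (1 - x)]
    · nlinarith [mul_nonneg (neg_nonneg.2 h) hs.1.le, hx.1]
  have h3 : ‖((a * b : ℝ) : ℂ) * (x * ze s)‖ < 1 := by
    rw [norm_mul, Complex.norm_real, Real.norm_of_nonneg (mul_nonneg ha0 hb0)]
    exact (mul_le_of_le_one_left (norm_nonneg _) (mul_le_one₀ ha1 hb0 hb1)).trans_lt hx1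
  have h4 := log_le_add (t := 2 * δ) (one_sub_ne hx1) (one_sub_ne h3) (by
    rw [show (x : ℂ) * ze s - ((a * b : ℝ) : ℂ) * (x * ze s) =
      ((1 - a * b : ℝ) : ℂ) * (x * ze s) by push_cast; ring, norm_mul, Complex.norm_real,
      Real.norm_of_nonneg (sub_nonneg.2 (mul_le_one₀ ha1 hb0 hb1))]
    have h5 : 1 - a * b ≤ (1 - a) + (1 - b) := by
      nlinarith [mul_nonneg (sub_nonneg.2 ha1) (sub_nonneg.2 hb1)]
    have h6 : (1 - a) + (1 - b) ≤ 2 * δ * ‖1 - x * ze s‖ := by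
      rw [ha, hb]
      nlinarith
    exact (mul_le_of_le_one_right (sub_nonneg.2 (mul_le_one₀ ha1 hb0 hb1)) hx1.le).trans
      (h5.trans h6))
  rw [← Complex.ofReal_mul, S_real, ← hn, Real.log_pow,
    show ((a * x : ℝ) : ℂ) * (b * ze s) = ((a * b : ℝ) : ℂ) * (x * ze s) by push_cast; ring]
  push_cast at h4 ⊢
  linarith

theorem S_diag_x (hx : x ∈ Set.Ioo (-1 : ℝ) 1) {δ : ℝ} (h0 : 0 < δ) (hδ : δ ≤ 1 / 2) :
    Real.log (δ / 2) + 2 * Real.log ((1 - x) / 2) ≤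
      S (((1 - δ * (1 - x) / 2 : ℝ) : ℂ) * x) (((1 - δ * (1 - x) / 2 : ℝ) : ℂ) * x) := by
  set a := 1 - δ * (1 - x) / 2 with ha
  have ha0 : 0 ≤ a := by nlinarith [hx.1, hx.2]
  have ha1 : a ≤ 1 := by nlinarith [hx.1, hx.2]
  have hy : 0 < (1 - x) / 2 := by linarith [hx.2]
  have hx2 : x ^ 2 ≤ 1 := by nlinarith [hx.1, hx.2]
  have h1 : δ / 2 * ((1 - x) / 2) ≤ 1 - a * x * (a * x) := by
    have h2 : a * x * (a * x) ≤ a := by
      nlinarith [mul_nonneg ha0 (sub_nonneg.2 ha1), mul_nonneg (mul_nonneg ha0 ha0) (sub_nonneg.2 hx2)]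
    nlinarith [mul_pos h0 hy]
  have h3 : 0 < δ / 2 * ((1 - x) / 2) := by positivity
  rw [← Complex.ofReal_mul, S_real_real (by linarith)]
  have h4 := Real.log_le_log h3 h1
  rw [Real.log_mul (by positivity) hy.ne'] at h4
  have h5 : Real.log ((1 - x) / 2) ≤ 0 := Real.log_nonpos hy.le (by linarith [hx.1])
  linarith

theorem S_diag_s (hs : s ∈ Set.Ioo (0 : ℝ) 1) {δ : ℝ} (h0 : 0 < δ) (hδ : δ ≤ 1 / 2) :
    Real.log δ + Real.log (1 - s) / 2 ≤
      S (((1 - δ * Real.sqrt (1 - s ^ 2) : ℝ) : ℂ) * ze s)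
        (((1 - δ * Real.sqrt (1 - s ^ 2) : ℝ) : ℂ) * ze s) := by
  set b := 1 - δ * Real.sqrt (1 - s ^ 2) with hb
  have hq0 : 0 < Real.sqrt (1 - s ^ 2) := Real.sqrt_pos.2 (by nlinarith [hs.1, hs.2])
  have hq1 : Real.sqrt (1 - s ^ 2) ≤ 1 := Real.sqrt_le_one.2 (by nlinarith)
  have hb0 : 0 ≤ b := by nlinarith
  have hb1 : b ≤ 1 := by nlinarith
  have hn : ‖(b : ℂ) * ze s‖ = b := by
    rw [norm_mul, norm_ze hs, mul_one, Complex.norm_real, Real.norm_of_nonneg hb0]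
  have h1 : ∀ w : ℂ, ‖w‖ = b * b → Real.log δ + Real.log (1 - s) / 2 ≤ Real.log ‖1 - w‖ := by
    intro w hw
    have h2 := norm_sub_norm_le (1 : ℂ) w
    rw [norm_one, hw] at h2
    have h3 : δ * Real.sqrt (1 - s ^ 2) ≤ ‖1 - w‖ := by nlinarith
    have h4 := Real.log_le_log (mul_pos h0 hq0) h3
    rw [Real.log_mul h0.ne' hq0.ne', Real.log_sqrt (by nlinarith [hs.1, hs.2])] at h4
    have h5 := Real.log_le_log (sub_pos.2 hs.2) (show 1 - s ≤ 1 - s ^ 2 by nlinarith [hs.1, hs.2])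
    linarith
  have h6 := h1 (b * ze s * (starRingEnd ℂ) (b * ze s)) (by rw [norm_mul, Complex.norm_conj, hn])
  have h7 := h1 (b * ze s * (b * ze s)) (by rw [norm_mul, hn])
  rw [S]
  linarith

end EnergyB

open EnergyB

theorem energyB : QStmt → EnergyBStmt := by
  intro hQ K η z hz ε hε
  set c := ∑ a, |η a| / (1 - ‖z a‖) with hc
  have hc0 : 0 ≤ c := sum_nonneg fun a _ => div_nonneg (abs_nonneg _) (by linarith [hz a])
  set δ := min (1 / 2) (ε / (14 + 3 * c)) with hδdef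
  have h0 : 0 < δ := lt_min (by norm_num) (by positivity)
  have hδ : δ ≤ 1 / 2 := min_le_left _ _
  have hδε : δ * (14 + 3 * c) ≤ ε := (le_div_iff₀ (by positivity)).1 (min_le_right _ _)
  refine ⟨Real.log 2 - Real.log (δ / 2) / 2 - 2 * Real.log δ, fun n x s hx hinj hs => ?_⟩
  set a : Fin n → ℝ := fun i => 1 - δ * (1 - x i) / 2 with ha
  set b : Fin n → ℝ := fun j => 1 - δ * Real.sqrt (1 - s j ^ 2) with hb
  have ha0 : ∀ i, 1 - δ ≤ a i := fun i => by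
    simp only [ha]; nlinarith [(hx i).1]
  have ha1 : ∀ i, a i ≤ 1 := fun i => by
    simp only [ha]; nlinarith [(hx i).2]
  have hb0 : ∀ j, 1 - δ ≤ b j := fun j => by
    have : Real.sqrt (1 - s j ^ 2) ≤ 1 := Real.sqrt_le_one.2 (by nlinarith)
    simp only [hb]; nlinarith
  have hb1 : ∀ j, b j < 1 := fun j => by
    have : 0 < Real.sqrt (1 - s j ^ 2) := Real.sqrt_pos.2 (by nlinarith [(hs j).1, (hs j).2])
    simp only [hb]; nlinarith
  have hxn : ∀ i, ‖(x i : ℂ)‖ < 1 := fun i => by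
    rw [Complex.norm_real, Real.norm_eq_abs, abs_lt]; exact hx i
  have hxx : ∀ i j, x i * x j < 1 := fun i j => by
    nlinarith [(hx i).1, (hx i).2, (hx j).1, (hx j).2, mul_pos (sub_pos.2 (hx i).2)
      (neg_lt_iff_pos_add.1 (hx j).1), mul_pos (sub_pos.2 (hx j).2) (neg_lt_iff_pos_add.1 (hx i).1)]
  have h3 := three hQ η z hz (fun i => a i * x i) (fun j => b j * ze (s j))
    (fun i => by
      rw [norm_mul, Complex.norm_real, Real.norm_of_nonneg (by linarith [ha0 i])]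
      exact (mul_le_of_le_one_left (norm_nonneg _) (ha1 i)).trans_lt (hxn i))
    (fun j => by
      rw [norm_mul, norm_ze (hs j), mul_one, Complex.norm_real,
        Real.norm_of_nonneg (by linarith [hb0 j])]
      exact hb1 j)
  have e1 := sum_lower (f := fun i j => S (a i * x i) (a j * x j))
    (g := fun i j => Real.log (1 - x i * x j)) (c := -(4 * δ)) (fun i j => S_symm _ _)
    (fun i j _ => by
      have hne : 1 - (x i : ℂ) * x j ≠ 0 := one_sub_ne (by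
        rw [norm_mul]; exact mul_lt_one_of_nonneg_of_lt_one_left (norm_nonneg _) (hxn i) (hxn j).le)
      have := S_shrink (hxn i).le (hxn j).le (by rwa [Complex.conj_ofReal]) hne hδ h0.le (ha0 i)
        (ha1 i) (ha0 j) (ha1 j)
      rwa [S_real_real (hxx i j)] at this)
    fun i => S_diag_x (hx i) h0 hδ
  have e2 := sum_lower (f := fun i j => S (b i * ze (s i)) (b j * ze (s j)))
    (g := fun i j => Real.log |s i - s j| / 2) (c := Real.log 2 / 2 - 4 * δ) (fun i j => S_symm _ _)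
    (fun i j hij => by
      have hp := ze_prod (hs i) (hs j)
      have hne : |s i - s j| ≠ 0 := abs_ne_zero.2 (sub_ne_zero.2 (hinj.ne hij.ne))
      obtain ⟨h4, h5⟩ := mul_ne_zero_iff.1 (hp ▸ mul_ne_zero two_ne_zero hne)
      have := S_shrink (norm_ze (hs i)).le (norm_ze (hs j)).le (norm_ne_zero_iff.1 h4)
        (norm_ne_zero_iff.1 h5) hδ h0.le (hb0 i) (hb1 i).le (hb0 j) (hb1 j).le
      rw [S, ← Real.log_mul h4 h5, hp, Real.log_mul two_ne_zero hne] at this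
      linarith)
    fun j => S_diag_s (hs j) h0 hδ
  have e3 : ∑ i, ∑ j, S (a i * x i) (b j * ze (s j)) ≤
      ∑ i, ∑ j, (Real.log (1 + x i ^ 2 - 2 * x i * s j) / 2 + 2 * δ) :=
    sum_le_sum fun i _ => sum_le_sum fun j _ => S_opp (hx i) (hs j) h0 hδ
  have e4 : ∑ i, ∑ k, η k * S (a i * x i) (z k) ≤ ∑ i, (potR η z (x i) + δ * c) :=
    sum_le_sum fun i _ => by
      have := (abs_le.1 (sum_trial η hz (hxn i).le hδ (ha0 i) (ha1 i))).2
      simp only [S_real (x i)] at this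
      rw [potR]
      linarith
  have e5 : ∑ j, (potC η z (s j) / 2 - δ * c) ≤ ∑ j, ∑ k, η k * S (b j * ze (s j)) (z k) :=
    sum_le_sum fun j _ => by
      have := (abs_le.1 (sum_trial η hz (norm_ze (hs j)).le hδ (hb0 j) (hb1 j).le)).1
      simp only [S_ze_z (hs j) (hz _), ← mul_div_assoc, ← sum_div] at this
      rw [potC]
      linarith
  simp only [sum_add_distrib, sum_sub_distrib, ← sum_div, ← mul_sum, sum_const, card_univ,
    Fintype.card_fin, nsmul_eq_mul] at e1 e2 e3 e4 e5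
  have hn : (0 : ℝ) ≤ n := Nat.cast_nonneg n
  have e4' := mul_le_mul_of_nonneg_left e4 hn
  have e5' := mul_le_mul_of_nonneg_left e5 hn
  have e6 := mul_le_mul_of_nonneg_left hδε (sq_nonneg (n : ℝ))
  have e7 := mul_nonneg hn h0.le
  nlinarith

end Crest.Agent.R6
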