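import Crest.Agent.R6.Red

/-! Row 6: Frobenius congruences for the tables `tA`, `tZ`. -/

set_option autoImplicit false

namespace Crest.Agent.R6

open Polynomial Finset

namespace Frob

variable {p : ℕ} [hp : Fact p.Prime]

/-! ### Block sums -/

theorem sum_blocks {M : Type*} [AddCommMonoid M] (p a : ℕ) (F : ℕ → M) :
    ∑ k ∈ range (p * a), F k = ∑ k₁ ∈ range a, ∑ k₀ ∈ range p, F (p * k₁ + k₀) := by
  induction a with
  | zero => simp
  | succ a ih => rw [Nat.mul_succ, sum_range_add, ih, sum_range_succ]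

theorem red_blocks {F : ℕ → ℚ} {G : ℕ → ℕ → ZMod p} {a b : ℕ} (hb : b ≤ p)
    (h : ∀ k₁ ≤ a, ∀ k₀ < p, Red p (F (p * k₁ + k₀)) (G k₁ k₀)) :
    Red p (∑ k ∈ range (p * a + b), F k)
      (∑ k₁ ∈ range a, ∑ k₀ ∈ range p, G k₁ k₀ + ∑ k₀ ∈ range b, G a k₀) := by
  rw [sum_range_add, sum_blocks]
  exact (Red.sum fun k₁ h₁ => Red.sum fun k₀ h₀ =>
    h k₁ (mem_range.1 h₁).le k₀ (mem_range.1 h₀)).add
    (Red.sum fun k₀ h₀ => h a le_rfl k₀ ((mem_range.1 h₀).trans_le hb))

theorem red_mult {F : ℕ → ℚ} {g : ℕ → ZMod p} {a b : ℕ} (hb : b < p)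
    (h : ∀ k₁ ≤ a, ∀ k₀ < p, Red p (F (p * k₁ + k₀)) (if k₀ = 0 then g k₁ else 0)) :
    Red p (∑ k ∈ range (p * a + b + 1), F k) (∑ k₁ ∈ range (a + 1), g k₁) := by
  refine (red_blocks (b := b + 1) hb h).congr_right ?_
  rw [sum_range_succ g]
  simp [hp.out.pos]

theorem cast_digits (a b : ℕ) : ((p * a + b : ℕ) : ZMod p) = b := by simp

theorem p_ne : (p : ℚ) ≠ 0 := Nat.cast_ne_zero.2 hp.out.ne_zero

theorem red_inv {a : ℕ} (ha : a < p) : Red p (1 / (a : ℚ)) (1 / (a : ZMod p)) := by
  rcases Nat.eq_zero_or_pos a with rfl | h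
  · simpa using Red.zero
  · exact Red.one.div (Red.natCast a) (natCast_ne_zero_of_lt h.ne' ha)

theorem red_div {x : ℚ} {y : ZMod p} (h : Red p x y) {a : ℕ} (ha : a < p) :
    Red p (x / a) (y / a) :=
  (h.mul (red_inv ha)).congr (by ring) (by ring)

/-- `p / (p a + b)` -/
theorem red_p_div {a b : ℕ} (ha : a < p) (hb : b < p) :
    Red p (p / ((p * a + b : ℕ) : ℚ)) (if b = 0 then 1 / (a : ZMod p) else 0) := by
  split_ifs with h
  · subst h
    refine (red_inv ha).congr_left ?_
    have := p_ne (p := p)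
    push_cast
    rw [add_zero, ← div_div, div_self this]
  · have h1 : ((p * a + b : ℕ) : ZMod p) ≠ 0 := by
      rw [cast_digits]; exact natCast_ne_zero_of_lt h hb
    exact (Red.p_self.div (Red.natCast _) h1).congr_right (zero_div _)

theorem chi_sq : chi p * chi p = 1 := by
  rw [chi, ← mul_pow]; simp

theorem cc_zero : cc p 0 = 1 := by simp [cc]

theorem cc_odd {r : ℕ} (h : r % 2 = 1) : cc p r = 0 := by simp [cc, h]

theorem cc_even {r : ℕ} (h : r % 2 = 0) : cc p r = (be r : ZMod p) := by simp [cc, h]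

/-! ### Harmonic numbers and `tZ` -/

theorem harmonic_eq (n : ℕ) : harmonic n = ∑ m ∈ range (n + 1), 1 / (m : ℚ) := by
  rw [sum_range_succ', harmonic]; simp

theorem red_harmonic {n : ℕ} (hn : n < p) :
    Red p (harmonic n) (∑ m ∈ range (n + 1), 1 / (m : ZMod p)) := by
  rw [harmonic_eq]
  exact Red.sum fun m hm => red_inv (by have := mem_range.1 hm; omega)

theorem red_p_harmonic {a b : ℕ} (ha : a < p) (hb : b < p) :
    Red p (p * harmonic (p * a + b)) (harmonic a : ℚ) := by
  rw [(red_harmonic ha).cast_eq, harmonic_eq, mul_sum]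
  exact red_mult hb fun k₁ h₁ k₀ h₀ =>
    (red_p_div (h₁.trans_lt ha) h₀).congr_left (by ring)

theorem tZ_zero_left (j : ℕ) : tZ 0 j = harmonic j / j := by
  cases j with
  | zero => exact tZ_zero_right 0
  | succ j => rw [tZ_zero_succ]; push_cast; rfl

theorem hq_int {n : ℕ} (hn : n < p) : Red p (harmonic n / n) (harmonic n / n : ℚ) :=
  Red.self (red_div (red_harmonic hn) hn).1

theorem tZ_int : ∀ (l j : ℕ), l < p → j < p → Red p (tZ l j) (tZ l j)
  | l, 0, hl, _ => by rw [tZ_zero_right]; exact hq_int hl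
  | 0, j + 1, _, hj => by rw [tZ_zero_left]; exact hq_int hj
  | l + 1, j + 1, hl, hj => by
    have h := (tZ_int l j (by omega) (by omega)).sub ((red_inv hl).mul (red_inv hj))
    refine Red.self (h.congr_left ?_).1
    rw [tZ_succ_succ]; push_cast; rw [one_div_mul_one_div]

theorem tZ_cast {l j : ℕ} (hl : l + 1 < p) (hj : j + 1 < p) :
    (tZ (l + 1) (j + 1) : ZMod p) =
      tZ l j - 1 / ((l + 1 : ℕ) : ZMod p) * (1 / ((j + 1 : ℕ) : ZMod p)) := by
  have h := (tZ_int (p := p) l j (by omega) (by omega)).sub ((red_inv hl).mul (red_inv hj))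
  refine (h.congr_left ?_).cast_eq
  rw [tZ_succ_succ]; push_cast; rw [one_div_mul_one_div]

theorem hq_red {a b : ℕ} (ha : a < p) (hb : b < p) :
    Red p (p ^ 2 * (harmonic (p * a + b) / ((p * a + b : ℕ) : ℚ)))
      (if b = 0 then ((harmonic a / a : ℚ) : ZMod p) else 0) := by
  refine ((red_p_harmonic ha hb).mul (red_p_div ha hb)).congr (by ring) ?_
  split_ifs
  · rw [(red_div (Red.self (red_harmonic ha).1) ha).cast_eq]; ring
  · exact mul_zero _

omit hp in
/-- the digits of the predecessor -/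
theorem pred_digits {n a b : ℕ} (h : n + 1 = p * a + b) (hb : b < p) :
    (b = 0 ∧ ∃ a', a = a' + 1 ∧ n = p * a' + (p - 1)) ∨ ∃ b', b = b' + 1 ∧ n = p * a + b' := by
  rcases b with _ | b
  · left
    rcases a with _ | a
    · simp at h
    · refine ⟨rfl, a, rfl, ?_⟩
      rw [Nat.mul_succ] at h; omega
  · exact Or.inr ⟨b, rfl, by omega⟩

theorem part2 : ∀ (l j l₁ l₀ j₁ j₀ : ℕ), l = p * l₁ + l₀ → j = p * j₁ + j₀ → l₀ < p → j₀ < p →
    l₁ < p → j₁ < p →
    Red p (p ^ 2 * tZ l j) (if l₀ = j₀ then (tZ l₁ j₁ : ZMod p) else 0)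
  | l, 0, l₁, l₀, j₁, j₀, hl, hj, h1, _, h3, _ => by
    have hp0 := hp.out.pos
    obtain rfl : j₀ = 0 := by omega
    obtain rfl : j₁ = 0 := by
      rcases Nat.mul_eq_zero.1 (show p * j₁ = 0 by omega) with h | h <;> omega
    rw [tZ_zero_right, tZ_zero_right, hl]
    exact hq_red h3 h1
  | 0, j + 1, l₁, l₀, j₁, j₀, hl, hj, _, h2, _, h4 => by
    have hp0 := hp.out.pos
    obtain rfl : l₀ = 0 := by omega
    obtain rfl : l₁ = 0 := by
      rcases Nat.mul_eq_zero.1 (show p * l₁ = 0 by omega) with h | h <;> omega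
    rw [tZ_zero_left, tZ_zero_left, hj]
    simpa only [eq_comm] using hq_red h4 h2
  | l + 1, j + 1, l₁, l₀, j₁, j₀, hl, hj, h1, h2, h3, h4 => by
    have hp0 := hp.out.pos
    have hstep := (red_p_div h3 h1).mul (red_p_div h4 h2)
    rw [← hl, ← hj] at hstep
    have e : (p : ℚ) ^ 2 * tZ l j - p / ((l + 1 : ℕ) : ℚ) * (p / ((j + 1 : ℕ) : ℚ)) =
        p ^ 2 * tZ (l + 1) (j + 1) := by
      rw [tZ_succ_succ, mul_sub, div_mul_div_comm, ← sq, mul_one_div]; push_cast; rfl
    rcases pred_digits hl h1 with ⟨rfl, a, rfl, hl'⟩ | ⟨b, rfl, hl'⟩ <;>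
      rcases pred_digits hj h2 with ⟨rfl, a', rfl, hj'⟩ | ⟨b', rfl, hj'⟩
    · refine ((part2 l j a (p - 1) a' (p - 1) hl' hj' (by omega) (by omega) (by omega)
        (by omega)).sub hstep).congr e ?_
      simp only [if_true]
      rw [tZ_cast h3 h4]
    · refine ((part2 l j a (p - 1) j₁ b' hl' hj' (by omega) (by omega) (by omega)
        (by omega)).sub hstep).congr e ?_
      rw [if_neg (by omega), if_neg (Nat.succ_ne_zero _), if_neg (Nat.succ_ne_zero _).symm]
      simp
    · refine ((part2 l j l₁ b a' (p - 1) hl' hj' (by omega) (by omega) (by omega)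
        (by omega)).sub hstep).congr e ?_
      rw [if_neg (by omega), if_neg (Nat.succ_ne_zero _), if_neg (Nat.succ_ne_zero _)]
      simp
    · refine ((part2 l j l₁ b j₁ b' hl' hj' (by omega) (by omega) (by omega)
        (by omega)).sub hstep).congr e ?_
      simp

theorem part4 : ∀ (l j : ℕ), j < p → l < j + p →
    Red p (p * tZ l j) (if p ≤ l then 1 / ((l : ZMod p) - j) else 0)
  | l, 0, _, hl => by
    rw [if_neg (by omega)]
    exact (tZ_int l 0 (by omega) hp.out.pos).p_mul
  | 0, j + 1, hj, _ => by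
    rw [if_neg (by omega)]
    exact (tZ_int 0 (j + 1) hp.out.pos hj).p_mul
  | l + 1, j + 1, hj, hl => by
    have ih := part4 l j (by omega) (by omega)
    have e : (p : ℚ) * tZ l j - p / ((l + 1 : ℕ) : ℚ) * (1 / ((j + 1 : ℕ) : ℚ)) =
        p * tZ (l + 1) (j + 1) := by
      rw [tZ_succ_succ, mul_sub, div_mul_div_comm, mul_one, mul_one_div]; push_cast; rfl
    have h1p := hp.out.one_lt
    rcases lt_trichotomy (l + 1) p with h | h | h
    · have h1 := red_p_div (a := 0) (b := l + 1) hp.out.pos h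
      rw [mul_zero, zero_add, if_neg (Nat.succ_ne_zero _)] at h1
      refine (ih.sub (h1.mul (red_inv hj))).congr e ?_
      rw [if_neg (by omega), if_neg (by omega)]; simp
    · have h1 := red_p_div (a := 1) (b := 0) h1p hp.out.pos
      rw [mul_one, add_zero, if_pos rfl] at h1
      rw [h] at e
      refine (ih.sub (h1.mul (red_inv hj))).congr (h ▸ e) ?_
      rw [if_neg (by omega), if_pos h.ge, h, ZMod.natCast_self]
      rw [zero_sub, zero_sub, div_neg, Nat.cast_one, div_one, one_mul]
    · have h1 := red_p_div (a := 1) (b := l + 1 - p) h1p (by omega)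
      rw [mul_one, if_neg (by omega), show p + (l + 1 - p) = l + 1 by omega] at h1
      refine (ih.sub (h1.mul (red_inv hj))).congr e ?_
      rw [if_pos (by omega), if_pos h.le]
      push_cast
      simp

/-! ### The table `tA` -/

/-- the facts on `be` -/
structure Bt (p : ℕ) [Fact p.Prime] : Prop where
  ne2 : p ≠ 2
  small : ∀ k, k < p → Red p (be k) (be k)
  four : ∀ k₀ k₁, k₀ < p → k₁ < p →
      (k₀ % 2 = 0 → k₁ % 2 = 0 → Red p (be (p * k₁ + k₀)) (be k₀ * be k₁)) ∧
      (k₀ % 2 = 0 → k₁ % 2 = 1 → Red p (p * be (p * k₁ + k₀)) (chi p * be k₀ * be k₁)) ∧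
      (k₀ % 2 = 1 → k₁ % 2 = 0 → Red p (be (p * k₁ + k₀)) (be k₀ / be k₁)) ∧
      (k₀ % 2 = 1 → k₁ % 2 = 1 → Red p (be (p * k₁ + k₀) / p) (chi p * be k₀ / be k₁))
  sym : ∀ r, r < p → cc p (p - 1 - r) = chi p * cc p r
  sq : ∑ r ∈ range p, cc p r ^ 2 = chi p

/-- `be` at odd indices -/
def odq (k : ℕ) : ℚ := if k % 2 = 1 then be k else 0

theorem al_eq (n : ℕ) : al n = odq (n + 1) := by
  unfold al odq
  by_cases h : n % 2 = 0
  · rw [if_pos h, if_pos (by omega)]
  · rw [if_neg h, if_neg (by omega)]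

theorem odq_odd {k : ℕ} (h : k % 2 = 1) : odq k = be k := if_pos h

theorem odq_even {k : ℕ} (h : k % 2 = 0) : odq k = 0 := if_neg (by omega)

theorem sum_al (i : ℕ) : ∑ n ∈ range i, al n ^ 2 = ∑ k ∈ range (i + 1), odq k ^ 2 := by
  rw [sum_range_succ', odq_even (k := 0) rfl]; simp [al_eq]

/-- the odd harmonic sum -/
def oh (i : ℕ) : ℚ := ∑ k ∈ range (i + 1), if k % 2 = 1 then 1 / (k : ℚ) else 0

/-- the sum in `rowA` -/
def rs (ε j : ℕ) : ℚ := ∑ m ∈ range (j + 1), if m % 2 = ε then be (m - 1) / m else 0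

theorem rowA_eq (j : ℕ) : rowA j = be j * rs (j % 2) j := by
  rw [rowA, rs, sum_range_succ']; simp

theorem colA_even {i : ℕ} (h : i % 2 = 0) :
    colA i = be i * ∑ k ∈ range (i + 1), odq k ^ 2 := by rw [colA, if_pos h, sum_al]

theorem colA_odd {i : ℕ} (h : i % 2 = 1) : colA i = be i * oh i := by
  rw [colA, if_neg (by omega)]; rfl

theorem M0_step (e j : ℕ) : M0 (e + 1) (j + 1) = M0 e j - odq e / ((j + 1 : ℕ) : ℚ) := by
  cases e with
  | zero => rw [M0_succ, M0_zero, odq_even rfl, zero_div, sub_zero]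
  | succ e => rw [M0_succ, M0_succ, tA_succ_succ, al_eq]; push_cast; rfl

namespace Bt

theorem odd (B : Bt p) : p % 2 = 1 := hp.out.eq_two_or_odd.resolve_left B.ne2

theorem par (B : Bt p) (a b : ℕ) : (p * a + b) % 2 = (a + b) % 2 := by
  rw [Nat.add_mod, Nat.mul_mod, B.odd, one_mul, Nat.mod_mod, ← Nat.add_mod]

theorem cc_top (B : Bt p) : cc p (p - 1) = chi p := by
  simpa [cc_zero] using B.sym 0 hp.out.pos

theorem odq_int (B : Bt p) {k : ℕ} (hk : k < p) : Red p (odq k) (odq k) := by
  unfold odq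
  split_ifs
  · exact B.small k hk
  · exact Red.self Red.zero.1

/-- `p * be` is always integral -/
theorem p_be (B : Bt p) {a b : ℕ} (ha : a < p) (hb : b < p) :
    Red p (p * be (p * a + b)) (chi p * cc p b * odq a) := by
  obtain ⟨h1, h2, h3, h4⟩ := B.four b a hb ha
  rcases Nat.mod_two_eq_zero_or_one b with e | e <;>
    rcases Nat.mod_two_eq_zero_or_one a with e' | e'
  · exact (h1 e e').p_mul.congr_right (by simp [odq_even e'])
  · rw [cc_even e, odq_odd e']; exact h2 e e'
  · exact (h3 e e').p_mul.congr_right (by simp [cc_odd e])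
  · refine (h4 e e').p_mul.p_mul.congr ?_ (by simp [cc_odd e])
    rw [mul_div_cancel₀ _ p_ne]

/-- `be` at even indices -/
theorem be_even (B : Bt p) {a b : ℕ} (ha : a < p) (hb : b < p) (h : (a + b) % 2 = 0) :
    Red p (be (p * a + b)) (cc p b * be a) := by
  obtain ⟨h1, -, -, h4⟩ := B.four b a hb ha
  rcases Nat.mod_two_eq_zero_or_one b with e | e
  · rw [cc_even e]; exact h1 e (by omega)
  · refine (h4 e (by omega)).p_mul.congr ?_ (by simp [cc_odd e])
    rw [mul_div_cancel₀ _ p_ne]

theorem p_odq (B : Bt p) {a b : ℕ} (ha : a < p) (hb : b < p) :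
    Red p (p * odq (p * a + b)) (chi p * cc p b * odq a) := by
  rcases Nat.mod_two_eq_zero_or_one (p * a + b) with e | e
  · rw [odq_even e, mul_zero]
    refine Red.zero.congr_right ?_
    rw [B.par] at e
    rcases Nat.mod_two_eq_zero_or_one b with e' | e'
    · simp [odq_even (show a % 2 = 0 by omega)]
    · simp [cc_odd e']
  · rw [odq_odd e]; exact B.p_be ha hb

theorem red_sq (B : Bt p) {i : ℕ} (hi : i ≤ p) :
    Red p (∑ k ∈ range i, odq k ^ 2) (∑ k ∈ range i, (odq k : ZMod p) ^ 2) :=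
  Red.sum fun k hk => (B.odq_int (by have := mem_range.1 hk; omega)).pow 2

theorem red_oh {i : ℕ} (hi : i < p) :
    Red p (oh i) (∑ k ∈ range (i + 1), if k % 2 = 1 then 1 / (k : ZMod p) else 0) :=
  Red.sum fun k hk => Red.ite (fun _ => red_inv (by have := mem_range.1 hk; omega))
    fun _ => Red.zero

theorem red_rs (B : Bt p) (ε : ℕ) {j : ℕ} (hj : j < p) :
    Red p (rs ε j)
      (∑ m ∈ range (j + 1), if m % 2 = ε then (be (m - 1) : ZMod p) / m else 0) :=
  Red.sum fun m hm => Red.ite (fun _ => by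
    have := mem_range.1 hm
    exact red_div (B.small _ (by omega)) (by omega)) fun _ => Red.zero

theorem colA_int (B : Bt p) {i : ℕ} (hi : i < p) : Red p (colA i) (colA i) := by
  rcases Nat.mod_two_eq_zero_or_one i with e | e
  · rw [colA_even e]; exact Red.self ((B.small i hi).mul (B.red_sq hi)).1
  · rw [colA_odd e]; exact Red.self ((B.small i hi).mul (red_oh hi)).1

theorem rowA_int (B : Bt p) {j : ℕ} (hj : j < p) : Red p (rowA j) (rowA j) := by
  rw [rowA_eq]; exact Red.self ((B.small j hj).mul (B.red_rs _ hj)).1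

theorem tA_int (B : Bt p) : ∀ (i j : ℕ), i < p → j < p → Red p (tA i j) (tA i j)
  | i, 0, hi, _ => by rw [tA_zero_right]; exact B.colA_int hi
  | 0, j + 1, _, hj => by rw [tA_zero_succ]; exact B.rowA_int (by omega)
  | i + 1, j + 1, hi, hj => by
    have h := (tA_int B i j (by omega) (by omega)).sub (red_div (B.odq_int hi) hj)
    refine Red.self (h.congr_left ?_).1
    rw [tA_succ_succ, al_eq]; push_cast; rfl

theorem M0_int (B : Bt p) {e j : ℕ} (he : e ≤ p) (hj : j < p) : Red p (M0 e j) (M0 e j) := by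
  cases e with
  | zero => rw [M0_zero, tA_zero_succ]; exact B.rowA_int hj
  | succ e => rw [M0_succ]; exact B.tA_int e j he hj

theorem red_colA (B : Bt p) {a b : ℕ} (ha : a < p) (hb : b < p) :
    Red p (p ^ 2 * colA (p * a + b)) (chi p * cc p b * colA a) := by
  rcases Nat.mod_two_eq_zero_or_one (p * a + b) with e | e
  · rw [colA_even e]
    rw [B.par] at e
    have h1 := red_blocks (a := a) (b := b + 1) (F := fun k => (p * odq k) ^ 2) hb
      fun k₁ h₁ k₀ h₀ => (B.p_odq (h₁.trans_lt ha) h₀).pow 2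
    refine ((B.be_even ha hb e).mul h1).congr ?_ ?_
    · simp only [mul_pow, ← mul_sum, add_assoc]; ring
    · rcases Nat.mod_two_eq_zero_or_one b with e' | e'
      · have e'' : a % 2 = 0 := by omega
        rw [colA_even e'', sum_range_succ (fun k => odq k ^ 2), odq_even e'',
          zero_pow two_ne_zero, add_zero, ((B.small a ha).mul (B.red_sq ha.le)).cast_eq]
        have h2 : ∀ k₁ : ℕ, ∑ k₀ ∈ range p, (chi p * cc p k₀ * (odq k₁ : ZMod p)) ^ 2 =
            chi p * (odq k₁ : ZMod p) ^ 2 := fun k₁ => by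
          simp only [mul_pow, ← sum_mul, ← mul_sum, B.sq]
          rw [pow_two (chi p), chi_sq, one_mul]
        simp only [h2, ← mul_sum, Rat.cast_zero, mul_zero, zero_pow two_ne_zero, sum_const_zero,
          add_zero]
        ring
      · simp [cc_odd e']
  · rw [colA_odd e]
    rw [B.par] at e
    have h1 : Red p (∑ k ∈ range (p * a + b + 1), p * if k % 2 = 1 then 1 / (k : ℚ) else 0)
        (∑ k ∈ range (a + 1), if k % 2 = 1 then 1 / (k : ZMod p) else 0) := by
      refine red_mult hb fun k₁ h₁ k₀ h₀ => ?_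
      by_cases hk : (p * k₁ + k₀) % 2 = 1
      · rw [if_pos hk]
        rw [B.par] at hk
        refine (red_p_div (h₁.trans_lt ha) h₀).congr (by ring) ?_
        split_ifs with h2 h3
        · rfl
        · omega
        · rfl
      · rw [if_neg hk, mul_zero]
        rw [B.par] at hk
        refine Red.zero.congr_right ?_
        split_ifs with h2 h3
        · omega
        · rfl
        · rfl
    refine ((B.p_be ha hb).mul h1).congr ?_ ?_
    · rw [← mul_sum, oh]; ring
    · rcases Nat.mod_two_eq_zero_or_one b with e' | e'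
      · have e'' : a % 2 = 1 := by omega
        rw [colA_odd e'', ((B.small a ha).mul (red_oh ha)).cast_eq, odq_odd e'']
        ring
      · simp [cc_odd e']

theorem red_rs_even (B : Bt p) {a b : ℕ} (ha : a < p) (hb : b < p) :
    Red p (p ^ 2 * rs 0 (p * a + b)) (rs 0 a) := by
  rw [(B.red_rs 0 ha).cast_eq, rs, mul_sum]
  refine red_mult hb fun k₁ h₁ k₀ h₀ => ?_
  have hk₁ := h₁.trans_lt ha
  have hp0 := hp.out.pos
  by_cases hk : (p * k₁ + k₀) % 2 = 0
  · rw [if_pos hk]
    rw [B.par] at hk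
    rcases hm : p * k₁ + k₀ with _ | m
    · obtain rfl : k₀ = 0 := by omega
      obtain rfl : k₁ = 0 := by
        rcases Nat.mul_eq_zero.1 (show p * k₁ = 0 by omega) with h | h <;> omega
      simpa using Red.zero
    · have h2 := red_p_div hk₁ h₀
      rw [hm] at h2
      rw [Nat.add_sub_cancel]
      rcases pred_digits hm.symm h₀ with ⟨rfl, a', rfl, hm'⟩ | ⟨b', rfl, hm'⟩
      · have h3 := B.p_be (a := a') (b := p - 1) (by omega) (by omega)
        rw [← hm'] at h3
        refine (h3.mul h2).congr (by ring) ?_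
        rw [if_pos rfl, if_pos rfl, if_pos (by omega), B.cc_top, chi_sq, one_mul,
          odq_odd (by omega), Nat.add_sub_cancel]
        ring
      · have h3 := B.p_be (a := k₁) (b := b') hk₁ (by omega)
        rw [← hm'] at h3
        refine (h3.mul h2).congr (by ring) ?_
        simp
  · rw [if_neg hk, mul_zero]
    rw [B.par] at hk
    refine Red.zero.congr_right ?_
    split_ifs with h2 h3
    · omega
    · rfl
    · rfl

theorem red_rs_odd (B : Bt p) {a b : ℕ} (ha : a < p) (hb : b < p) :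
    Red p (p * rs 1 (p * a + b)) (chi p * rs 1 a) := by
  rw [(B.red_rs 1 ha).cast_eq, rs, mul_sum, mul_sum]
  refine red_mult hb fun k₁ h₁ k₀ h₀ => ?_
  have hk₁ := h₁.trans_lt ha
  have hp0 := hp.out.pos
  have hodd := B.odd
  by_cases hk : (p * k₁ + k₀) % 2 = 1
  · rw [if_pos hk]
    rcases hm : p * k₁ + k₀ with _ | m
    · rw [hm] at hk; omega
    · rw [B.par] at hk
      have h2 := red_p_div hk₁ h₀
      rw [hm] at h2
      rw [Nat.add_sub_cancel]
      rcases pred_digits hm.symm h₀ with ⟨rfl, a', rfl, hm'⟩ | ⟨b', rfl, hm'⟩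
      · have h3 := B.be_even (a := a') (b := p - 1) (by omega) (by omega) (by omega)
        rw [← hm'] at h3
        refine (h3.mul h2).congr (by ring) ?_
        rw [if_pos rfl, if_pos rfl, if_pos (by omega), B.cc_top, Nat.add_sub_cancel]
        ring
      · have h3 := B.be_even (a := k₁) (b := b') hk₁ (by omega) (by omega)
        rw [← hm'] at h3
        refine (h3.mul h2).congr (by ring) ?_
        simp
  · rw [if_neg hk, mul_zero]
    rw [B.par] at hk
    refine Red.zero.congr_right ?_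
    split_ifs with h2 h3
    · omega
    · exact (mul_zero _).symm
    · rfl

theorem red_rowA (B : Bt p) {a b : ℕ} (ha : a < p) (hb : b < p) :
    Red p (p ^ 2 * rowA (p * a + b)) (cc p b * rowA a) := by
  have hc : (rowA a : ZMod p) = be a * rs (a % 2) a := by
    rw [rowA_eq]
    exact ((B.small a ha).mul (Red.self (B.red_rs _ ha).1)).cast_eq
  rw [hc, rowA_eq, B.par]
  rcases Nat.mod_two_eq_zero_or_one (a + b) with e | e
  · rw [e]
    refine ((B.be_even ha hb e).mul (B.red_rs_even ha hb)).congr (by ring) ?_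
    rcases Nat.mod_two_eq_zero_or_one b with e' | e'
    · rw [show a % 2 = 0 by omega]; ring
    · simp [cc_odd e']
  · rw [e]
    refine ((B.p_be ha hb).mul (B.red_rs_odd ha hb)).congr (by ring) ?_
    rcases Nat.mod_two_eq_zero_or_one b with e' | e'
    · have e'' : a % 2 = 1 := by omega
      rw [e'', odq_odd e'']
      linear_combination (cc p b * be a * rs 1 a) * chi_sq (p := p)
    · simp [cc_odd e']

theorem part1 (B : Bt p) : ∀ (i j e r j₁ j₀ : ℕ), j = p * j₁ + j₀ → i + p = p * e + r + j₀ →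
    j₀ < p → r < p → i < p * (p - 1) → j₁ < p →
    Red p (p ^ 2 * tA i j) (chi p * cc p r * (M0 e j₁ : ZMod p))
  | i, 0, e, r, j₁, j₀, hj, hi, _, hr, hb, _ => by
    have hp0 := hp.out.pos
    obtain rfl : j₀ = 0 := by omega
    obtain rfl : j₁ = 0 := by
      rcases Nat.mul_eq_zero.1 (show p * j₁ = 0 by omega) with h | h <;> omega
    rcases e with _ | e
    · omega
    · rw [Nat.mul_succ] at hi
      have hi' : i = p * e + r := by omega
      have he : e < p - 1 := Nat.lt_of_mul_lt_mul_left (a := p) (by omega)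
      rw [tA_zero_right, M0_succ, tA_zero_right, hi']
      exact B.red_colA (by omega) hr
  | 0, j + 1, e, r, j₁, j₀, hj, hi, h0, hr, _, h1 => by
    rw [tA_zero_succ]
    have he : e < 2 := Nat.lt_of_mul_lt_mul_left (a := p) (by omega)
    rcases pred_digits hj h0 with ⟨rfl, a, rfl, hj'⟩ | ⟨b, rfl, hj'⟩
    · obtain rfl : e = 1 := by
        rcases e with _ | e
        · omega
        · omega
      obtain rfl : r = 0 := by omega
      rw [hj', M0_succ, tA_zero_succ, cc_zero, mul_one, ← B.cc_top]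
      exact B.red_rowA (by omega) (by omega)
    · obtain rfl : e = 0 := by
        rcases e with _ | e
        · rfl
        · rw [Nat.mul_succ] at hi; omega
      obtain rfl : r = p - 1 - b := by omega
      rw [hj', M0_zero, tA_zero_succ, B.sym b (by omega), ← mul_assoc, chi_sq, one_mul]
      exact B.red_rowA h1 (by omega)
  | i + 1, j + 1, e, r, j₁, j₀, hj, hi, h0, hr, hb, h1 => by
    have hp0 := hp.out.pos
    have h2 := red_p_div h1 h0
    rw [← hj] at h2
    have e1 : (p : ℚ) ^ 2 * tA i j - p * odq (i + 1) * (p / ((j + 1 : ℕ) : ℚ)) =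
        p ^ 2 * tA (i + 1) (j + 1) := by
      rw [tA_succ_succ, al_eq]; push_cast; ring
    rcases pred_digits hj h0 with ⟨rfl, a, rfl, hj'⟩ | ⟨b, rfl, hj'⟩
    · rcases e with _ | e
      · omega
      · rw [Nat.mul_succ] at hi
        have hi' : i + 1 = p * e + r := by omega
        have he : e < p - 1 := Nat.lt_of_mul_lt_mul_left (a := p) (by omega)
        have h3 := B.p_odq (a := e) (b := r) (by omega) hr
        rw [← hi'] at h3
        refine ((part1 B i j e r a (p - 1) hj' (by omega) (by omega) hr (by omega)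
          (by omega)).sub (h3.mul h2)).congr e1 ?_
        rw [M0_step, ((B.M0_int (e := e) (j := a) (by omega) (by omega)).sub
          (red_div (B.odq_int (k := e) (by omega)) h1)).cast_eq, if_pos rfl]
        ring
    · have hq : (i + 1) / p < p - 1 := Nat.div_lt_of_lt_mul hb
      have h3 := B.p_odq (a := (i + 1) / p) (b := (i + 1) % p) (by omega) (Nat.mod_lt _ hp0)
      rw [Nat.div_add_mod] at h3
      refine ((part1 B i j e r j₁ b hj' (by omega) (by omega) hr (by omega)
        h1).sub (h3.mul h2)).congr e1 ?_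
      simp

theorem part3 (B : Bt p) : ∀ (i j : ℕ), j < p → i < j + p → Red p (p * tA i j)
    (∑ l ∈ range (i + 1 - p), chi p * cc p (i - p - l) / ((l : ZMod p) - j))
  | i, 0, hj, hi => by
    rw [show i + 1 - p = 0 by omega, sum_range_zero]
    exact (B.tA_int i 0 (by omega) hj).p_mul
  | 0, j + 1, hj, _ => by
    rw [show 0 + 1 - p = 0 by omega, sum_range_zero]
    exact (B.tA_int 0 (j + 1) (by omega) hj).p_mul
  | i + 1, j + 1, hj, hi => by
    have ih := part3 B i j (by omega) (by omega)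
    have e1 : (p : ℚ) * tA i j - p * odq (i + 1) / ((j + 1 : ℕ) : ℚ) =
        p * tA (i + 1) (j + 1) := by
      rw [tA_succ_succ, al_eq]; push_cast; ring
    by_cases h : i + 1 < p
    · refine (ih.sub (red_div (B.odq_int h).p_mul hj)).congr e1 ?_
      rw [show i + 1 - p = 0 by omega, show i + 1 + 1 - p = 0 by omega]
      simp
    · have h3 := B.p_odq (a := 1) (b := i + 1 - p) hp.out.one_lt (by omega)
      rw [mul_one, show p + (i + 1 - p) = i + 1 by omega] at h3
      refine (ih.sub (red_div h3 hj)).congr e1 ?_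
      rw [show i + 1 + 1 - p = (i + 1 - p) + 1 by omega, sum_range_succ', sub_eq_add_neg]
      congr 1
      · refine sum_congr rfl fun l _ => ?_
        rw [show i + 1 - p - (l + 1) = i - p - l by omega]
        push_cast
        rw [add_sub_add_right_eq_sub]
      · rw [odq_odd rfl, be_one, Rat.cast_one, mul_one, Nat.cast_zero, zero_sub, div_neg,
          Nat.sub_zero]

end Bt

end Frob

open Frob in
theorem frob : BetaStmt → FrobStmt := by
  intro hβ p hp h2
  obtain ⟨h1, h3, h4, h5, -⟩ := hβ p h2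
  have B : Bt p := ⟨h2, fun k hk => (h1 k hk).1, h3, fun r hr => (h4 r hr).2, h5⟩
  have hp0 := hp.out.pos
  refine ⟨fun i j hi hj => ?_, fun l j hl hj => ?_, B.part3, part4⟩
  · have hj0 := Nat.mod_lt j hp0
    refine B.part1 i j _ _ _ (j % p) (Nat.div_add_mod j p).symm ?_ hj0 (Nat.mod_lt _ hp0) ?_
      (by omega)
    · rw [Nat.div_add_mod]; omega
    · have h6 : i / p < p - 1 := by omega
      rw [mul_comm]
      exact (Nat.div_lt_iff_lt_mul hp0).1 h6
  · exact part2 l j _ _ _ _ (Nat.div_add_mod l p).symm (Nat.div_add_mod j p).symm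
      (Nat.mod_lt _ hp0) (Nat.mod_lt _ hp0) (by omega) (by omega)

end Crest.Agent.R6
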