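import Crest.Agent.R6.HalfDiscA

/-! The half-disc residue estimate. -/

set_option autoImplicit false

namespace Crest.Agent.R6.HalfDisc

open Complex Finset Metric intervalIntegral MeasureTheory
open scoped Real ComplexConjugate

variable {n : ℕ}

noncomputable def U (x c : Fin n → ℝ) (z : ℂ) : ℂ := ∑ j, (c j : ℂ) / (1 - x j * z)

theorem exists_R (x : Fin n → ℝ) (hx : ∀ i, |x i| < 1) :
    ∃ R : ℝ, 1 < R ∧ ∀ z ∈ ball (0 : ℂ) R, ∀ j, 1 - (x j : ℂ) * z ≠ 0 := by
  obtain ⟨r, hr, h⟩ := exists_pos_lt_subset_ball (x := (0 : ℝ)) one_pos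
    (Set.finite_range x).isClosed (by rintro _ ⟨i, rfl⟩; simpa using hx i)
  refine ⟨r⁻¹, (one_lt_inv₀ hr.1).2 hr.2, fun z hz j h0 => ?_⟩
  have h1 : |x j| < r := by simpa using h ⟨j, rfl⟩
  have h2 : ‖z‖ < r⁻¹ := by simpa using hz
  have h3 : |x j| * ‖z‖ = 1 := by
    have := congrArg norm (sub_eq_zero.1 h0)
    simpa using this.symm
  have h4 : |x j| * ‖z‖ < r * r⁻¹ := mul_lt_mul'' h1 h2 (abs_nonneg _) (norm_nonneg _)
  rw [mul_inv_cancel₀ hr.1.ne'] at h4
  linarith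

theorem U_diff (x c : Fin n → ℝ) {R : ℝ}
    (h : ∀ z ∈ ball (0 : ℂ) R, ∀ j, 1 - (x j : ℂ) * z ≠ 0) :
    DifferentiableOn ℂ (U x c) (ball 0 R) := by
  unfold U
  refine DifferentiableOn.fun_sum fun j _ => ?_
  exact (differentiableOn_const _).div (by fun_prop) fun z hz => h z hz j

theorem U_conj (x c : Fin n → ℝ) (z : ℂ) : conj (U x c z) = U x c (conj z) := by
  simp [U]

theorem U_real (x c : Fin n → ℝ) (a : ℝ) :
    U x c a = ((∑ j, c j / (1 - x j * a) : ℝ) : ℂ) := by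
  simp [U]

theorem normsq (w : ℂ) : ((‖w‖ ^ 2 : ℝ) : ℂ) = w * conj w := by
  rw [Complex.mul_conj, Complex.normSq_eq_norm_sq]

theorem int_sq (x c : Fin n → ℝ) (hx : ∀ i, |x i| < 1) (hx0 : ∀ i, x i ≠ 0) :
    ∫ t in (-π / 2)..(-π / 2 + 2 * π), ‖U x c (cm t)‖ ^ 2 =
      2 * π * ∑ i, ∑ j, c i * c j / (1 - x i * x j) := by
  obtain ⟨R, hR, h⟩ := exists_R x hx
  have hU := U_diff x c h
  have h1 := arc_sum univ (fun j => (c j : ℂ)) (fun j z => U x c z / (z - x j))
    (fun j => good_div hR hU (hx j) (hx0 j)) (-π / 2) (-π / 2 + 2 * π)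
  simp only [full_div hR hU (hx _)] at h1
  have h2 : ∀ t, cm t * I * ∑ j, (c j : ℂ) * (U x c (cm t) / (cm t - x j)) =
      I * ((‖U x c (cm t)‖ ^ 2 : ℝ) : ℂ) := by
    intro t
    have h3 : cm t * conj (cm t) = 1 := by rw [← normsq, norm_cm]; simp
    rw [normsq, U_conj]
    set V := U x c (cm t)
    rw [U, Finset.mul_sum, Finset.mul_sum, Finset.mul_sum]
    refine Finset.sum_congr rfl fun j _ => ?_
    have h4 : cm t - x j ≠ 0 := ne_of_path (hx j) (hx0 j) (Or.inl (norm_cm t))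
    have h5 : 1 - (x j : ℂ) * conj (cm t) ≠ 0 := h _ (by simpa [norm_cm] using hR) j
    field_simp
    linear_combination (-(V * c j * x j)) * h3
  rw [arc] at h1
  simp only [h2] at h1
  rw [intervalIntegral.integral_const_mul, intervalIntegral.integral_ofReal] at h1
  have h6 : I * ((∫ t in (-π / 2)..(-π / 2 + 2 * π), ‖U x c (cm t)‖ ^ 2 : ℝ) : ℂ) =
      I * ((2 * π * ∑ i, ∑ j, c i * c j / (1 - x i * x j) : ℝ) : ℂ) := by
    rw [h1]
    simp only [U_real]
    push_cast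
    simp only [Finset.mul_sum]
    refine Finset.sum_congr rfl fun i _ => Finset.sum_congr rfl fun j _ => ?_
    rw [mul_comm (x j : ℂ)]
    ring
  exact_mod_cast mul_left_cancel₀ I_ne_zero h6

theorem norm_arc_le {F : ℂ → ℂ} (hF : Good F) {a b : ℝ} (hab : a ≤ b) {g : ℝ → ℝ}
    (hg : Continuous g) (h : ∀ t, ‖F (cm t)‖ ≤ g t) : ‖arc F a b‖ ≤ ∫ t in a..b, g t := by
  refine (intervalIntegral.norm_integral_le_integral_norm hab).trans ?_
  refine intervalIntegral.integral_mono_on hab (hF.int_arc a b).norm (hg.intervalIntegrable a b)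
    fun t _ => ?_
  simpa [norm_cm] using h t

theorem fejer (x c : Fin n → ℝ) (hx : ∀ i, |x i| < 1) (hx0 : ∀ i, x i ≠ 0) :
    ∫ y in (-1 : ℝ)..1, ‖U x c (y * I)‖ ^ 2 ≤ π * ∑ i, ∑ j, c i * c j / (1 - x i * x j) := by
  obtain ⟨R, hR, h⟩ := exists_R x hx
  have hU := U_diff x c h
  have hU' : DifferentiableOn ℂ (fun z => U x c z * U x c (-z)) (ball 0 R) :=
    hU.mul (hU.comp (by fun_prop) fun z hz => by simpa using hz)
  have h1 := right_zero hR hU'
  have h2 : dia (fun z => U x c z * U x c (-z)) =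
      I * ((∫ y in (-1 : ℝ)..1, ‖U x c (y * I)‖ ^ 2 : ℝ) : ℂ) := by
    rw [dia, ← intervalIntegral.integral_ofReal, ← intervalIntegral.integral_const_mul]
    congr 1
    ext y
    rw [normsq, U_conj]
    simp
  have hc : Continuous fun t => ‖U x c (cm t)‖ ^ 2 := (good_of_diff hR hU).cont_arc.norm.pow 2
  have hc' : Continuous fun t => ‖U x c (cm (t + π))‖ ^ 2 :=
    hc.comp (continuous_id.add continuous_const)
  have h3 := norm_arc_le (good_of_diff hR hU') (a := -π / 2) (b := π / 2)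
    (by linarith [Real.pi_pos])
    (g := fun t => 1 / 2 * (‖U x c (cm t)‖ ^ 2 + ‖U x c (cm (t + π))‖ ^ 2))
    (continuous_const.mul (hc.add hc')) fun t => by
      rw [norm_mul, cm_add_pi]
      nlinarith [sq_nonneg (‖U x c (cm t)‖ - ‖U x c (-cm t)‖)]
  rw [h1, h2, intervalIntegral.integral_const_mul,
    intervalIntegral.integral_add (hc.intervalIntegrable _ _) (hc'.intervalIntegrable _ _),
    intervalIntegral.integral_comp_add_right (fun t => ‖U x c (cm t)‖ ^ 2),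
    show -π / 2 + π = π / 2 by ring, show π / 2 + π = -π / 2 + 2 * π by ring,
    integral_add_adjacent_intervals (hc.intervalIntegrable _ _) (hc.intervalIntegrable _ _),
    int_sq x c hx hx0, norm_mul, Complex.norm_I, one_mul, Complex.norm_real] at h3
  linarith [le_abs_self (∫ y in (-1 : ℝ)..1, ‖U x c (y * I)‖ ^ 2), Real.norm_eq_abs
    (∫ y in (-1 : ℝ)..1, ‖U x c (y * I)‖ ^ 2)]

/-- the numerator. -/
noncomputable def G (x c : Fin n → ℝ) (e : ℕ) (z : ℂ) : ℂ :=
  z ^ e * U x c z ^ 2 * ∏ k, (1 - x k * z)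

noncomputable def F (x c : Fin n → ℝ) (e : ℕ) (z : ℂ) : ℂ :=
  ∑ i, (∏ k ∈ univ.erase i, ((x i : ℂ) - x k))⁻¹ * (G x c e z / (z - x i))

theorem F_eq (hn : 0 < n) (x c : Fin n → ℝ) (e : ℕ) (hx : Function.Injective x) (z : ℂ)
    (hz : ∀ i, z - x i ≠ 0) : F x c e z = G x c e z / ∏ k, (z - x k) := by
  rw [div_eq_mul_inv, ← part_frac hn (fun i => (x i : ℂ))
    (Complex.ofReal_injective.comp hx) z hz, Finset.mul_sum, F]
  exact Finset.sum_congr rfl fun i _ => by ring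

theorem res_eq (x c : Fin n → ℝ) (e : ℕ) (i : Fin n) :
    (∏ k ∈ univ.erase i, ((x i : ℂ) - x k))⁻¹ * G x c e (x i) =
      ((resB x i * x i ^ e * (∑ j, c j / (1 - x j * x i)) ^ 2 : ℝ) : ℂ) := by
  rw [G, U_real, resB]
  push_cast
  ring

theorem norm_F_circle (hn : 0 < n) (x c : Fin n → ℝ) (e : ℕ) (hinj : Function.Injective x)
    (hx : ∀ i, |x i| < 1) (hx0 : ∀ i, x i ≠ 0) (t : ℝ) :
    ‖F x c e (cm t)‖ = ‖U x c (cm t)‖ ^ 2 := by
  have h4 : ∀ j, cm t - x j ≠ 0 := fun j => ne_of_path (hx j) (hx0 j) (Or.inl (norm_cm t))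
  have h3 : cm t * conj (cm t) = 1 := by rw [← normsq, norm_cm]; simp
  have h5 : ∀ k, ‖1 - (x k : ℂ) * cm t‖ = ‖cm t - x k‖ := fun k => by
    have : 1 - (x k : ℂ) * cm t = cm t * conj (cm t - x k) := by
      rw [map_sub, conj_ofReal]
      linear_combination -h3
    rw [this, norm_mul, norm_cm, one_mul, RCLike.norm_conj]
  have h6 : ∏ k, ‖cm t - x k‖ ≠ 0 := Finset.prod_ne_zero_iff.2 fun k _ => norm_ne_zero_iff.2 (h4 k)
  rw [F_eq hn x c e hinj _ h4, G, norm_div, norm_mul, norm_mul, norm_pow, norm_pow, norm_cm,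
    norm_prod, norm_prod]
  simp only [h5]
  field_simp
  simp

theorem norm_F_dia (hn : 0 < n) (x c : Fin n → ℝ) (e : ℕ) (hinj : Function.Injective x)
    (hx : ∀ i, |x i| < 1) (hx0 : ∀ i, x i ≠ 0) {M : ℝ} (hM : 0 ≤ M) (hD : DiamBound x e M)
    {y : ℝ} (hy : |y| ≤ 1) : ‖F x c e (y * I)‖ ≤ M * ‖U x c (y * I)‖ ^ 2 := by
  have h4 : ∀ j, (y : ℂ) * I - x j ≠ 0 := fun j => ne_of_path (hx j) (hx0 j) (Or.inr (by simp))
  have h6 : 0 < ∏ k, ‖(y : ℂ) * I - x k‖ := Finset.prod_pos fun k _ => norm_pos_iff.2 (h4 k)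
  have h1 : ∀ k, ‖1 - (x k : ℂ) * (y * I)‖ ^ 2 = 1 + x k ^ 2 * y ^ 2 := fun k => by
    rw [← Complex.normSq_eq_norm_sq, Complex.normSq_apply]
    simp
    ring
  have h2 : ∀ k, ‖(y : ℂ) * I - x k‖ ^ 2 = x k ^ 2 + y ^ 2 := fun k => by
    rw [← Complex.normSq_eq_norm_sq, Complex.normSq_apply]
    simp
    ring
  have h3 : ‖(y : ℂ) * I‖ ^ e * ∏ k, ‖1 - (x k : ℂ) * (y * I)‖ ≤ M * ∏ k, ‖(y : ℂ) * I - x k‖ := by
    refine (pow_le_pow_iff_left₀ (by positivity) (by positivity) two_ne_zero).1 ?_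
    rw [mul_pow, mul_pow, ← Finset.prod_pow, ← Finset.prod_pow, ← pow_mul, mul_comm e 2, pow_mul]
    simp only [h1, h2]
    simpa using hD y hy
  rw [F_eq hn x c e hinj _ h4, G, norm_div, norm_mul, norm_mul, norm_pow, norm_pow,
    norm_prod, norm_prod, div_le_iff₀ h6]
  nlinarith [sq_nonneg ‖U x c (y * I)‖]

theorem main (hn : 0 < n) (e : ℕ) (x c : Fin n → ℝ) (M : ℝ) (hinj : Function.Injective x)
    (hx : ∀ i, |x i| < 1) (hx0 : ∀ i, x i ≠ 0) (hM : 0 ≤ M) (hD : DiamBound x e M) :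
    |∑ i, resB x i * x i ^ e * (∑ j, c j / (1 - x j * x i)) ^ 2| ≤
        ∑ i, ∑ j, c i * c j / (1 - x i * x j) ∧
    |∑ i, if 0 < x i then resB x i * x i ^ e * (∑ j, c j / (1 - x j * x i)) ^ 2 else 0| ≤
        (1 + M / 2) * ∑ i, ∑ j, c i * c j / (1 - x i * x j) := by
  obtain ⟨R, hR, h⟩ := exists_R x hx
  have hU := U_diff x c h
  have hG : DifferentiableOn ℂ (G x c e) (ball 0 R) := by
    unfold G
    exact ((differentiableOn_id.pow e).mul (hU.pow 2)).mul (by fun_prop)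
  have hg := fun i => good_div hR hG (hx i) (hx0 i)
  have hF : Good (F x c e) := fun z hz hz' =>
    tendsto_finsetSum _ fun i _ => (continuousAt_const.mul (hg i z hz hz'))
  have hc : Continuous fun t => ‖U x c (cm t)‖ ^ 2 := (good_of_diff hR hU).cont_arc.norm.pow 2
  have hpi := Real.pi_pos
  have hn2 : ∀ r : ℝ, ‖2 * π * I * (r : ℂ)‖ = 2 * π * |r| := fun r => by
    simp [abs_of_pos hpi]
  have hS := int_sq x c hx hx0
  set S := ∑ i, ∑ j, c i * c j / (1 - x i * x j)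
  constructor
  · have h1 : arc (F x c e) (-π / 2) (-π / 2 + 2 * π) =
        2 * π * I * ((∑ i, resB x i * x i ^ e * (∑ j, c j / (1 - x j * x i)) ^ 2 : ℝ) : ℂ) := by
      unfold F
      rw [arc_sum _ _ _ hg, Complex.ofReal_sum, Finset.mul_sum]
      refine Finset.sum_congr rfl fun i _ => ?_
      rw [full_div hR hG (hx i), ← res_eq]
      ring
    have h2 := norm_arc_le hF (a := -π / 2) (b := -π / 2 + 2 * π) (by linarith) hc
      fun t => (norm_F_circle hn x c e hinj hx hx0 t).le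
    rw [h1, hn2, hS] at h2
    exact le_of_mul_le_mul_left h2 (by positivity)
  · have h1 : arc (F x c e) (-π / 2) (π / 2) - dia (F x c e) = 2 * π * I *
        ((∑ i, if 0 < x i then resB x i * x i ^ e * (∑ j, c j / (1 - x j * x i)) ^ 2 else 0 : ℝ) :
          ℂ) := by
      unfold F
      rw [arc_sum _ _ _ hg, dia_sum _ _ _ hg, ← Finset.sum_sub_distrib, Complex.ofReal_sum,
        Finset.mul_sum]
      refine Finset.sum_congr rfl fun i _ => ?_
      rw [← mul_sub, right_div hR hG (hx i) (hx0 i)]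
      split_ifs
      · rw [← res_eq]
        ring
      · simp
    have h2 := norm_arc_le hF (a := -π / 2) (b := π / 2) (by linarith) hc
      fun t => (norm_F_circle hn x c e hinj hx hx0 t).le
    have h3 : ∫ t in (-π / 2)..(π / 2), ‖U x c (cm t)‖ ^ 2 ≤ 2 * π * S := by
      rw [← hS, ← integral_add_adjacent_intervals (b := π / 2) (c := -π / 2 + 2 * π)
        (hc.intervalIntegrable _ _) (hc.intervalIntegrable _ _)]
      have : 0 ≤ ∫ t in (π / 2)..(-π / 2 + 2 * π), ‖U x c (cm t)‖ ^ 2 :=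
        intervalIntegral.integral_nonneg (by linarith) fun t _ => sq_nonneg _
      linarith
    have h4 : ‖dia (F x c e)‖ ≤ M * (π * S) := by
      refine le_trans ?_ (mul_le_mul_of_nonneg_left (fejer x c hx hx0) hM)
      rw [← intervalIntegral.integral_const_mul]
      refine (intervalIntegral.norm_integral_le_integral_norm (by norm_num)).trans ?_
      refine intervalIntegral.integral_mono_on (by norm_num) hF.int_dia.norm
        (continuousOn_const.mul ((good_of_diff hR hU).cont_dia.norm.pow 2)).intervalIntegrable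
        fun y hy => ?_
      rw [norm_mul, Complex.norm_I, one_mul]
      exact norm_F_dia hn x c e hinj hx hx0 hM hD (abs_le.2 hy)
    have h5 := norm_sub_le (arc (F x c e) (-π / 2) (π / 2)) (dia (F x c e))
    rw [h1, hn2] at h5
    refine le_of_mul_le_mul_left ?_ (by positivity : 0 < 2 * π)
    nlinarith

end Crest.Agent.R6.HalfDisc

namespace Crest.Agent.R6

theorem halfDisc : HalfDiscStmt := by
  intro n e x c M hinj hx hx0 hM hD
  rcases Nat.eq_zero_or_pos n with rfl | hn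
  · simp
  · exact HalfDisc.main hn e x c M hinj (fun i => abs_lt.2 (hx i)) hx0 hM hD

end Crest.Agent.R6
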