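import Crest.Agent.R6.Defs

/-! Contour integrals over the boundary of the right half disc. -/

set_option autoImplicit false

namespace Crest.Agent.R6.HalfDisc

open Complex Finset Metric intervalIntegral MeasureTheory
open scoped Real

/-- the unit circle. -/
noncomputable def cm (t : ℝ) : ℂ := circleMap 0 1 t

noncomputable def arc (F : ℂ → ℂ) (a b : ℝ) : ℂ := ∫ t in a..b, cm t * I * F (cm t)

noncomputable def dia (F : ℂ → ℂ) : ℂ := ∫ y in (-1 : ℝ)..1, I * F (y * I)

/-- `F` is continuous on the circle and on the imaginary diameter. -/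
def Good (F : ℂ → ℂ) : Prop := ∀ z : ℂ, ‖z‖ ≤ 1 → (‖z‖ = 1 ∨ z.re = 0) → ContinuousAt F z

theorem norm_cm (t : ℝ) : ‖cm t‖ = 1 := by simp [cm]

theorem cont_cm : Continuous cm := continuous_circleMap 0 1

theorem cm_re (t : ℝ) : (cm t).re = Real.cos t := by simp [cm, circleMap_zero_re]

theorem cm_per : Function.Periodic cm (2 * π) := periodic_circleMap 0 1

theorem cm_half : cm (π / 2) = I := by simp [cm, circleMap_pi_div_two]

theorem cm_neg_half : cm (-π / 2) = -I := by simp [cm, circleMap_neg_pi_div_two]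

theorem cm_three_half : cm (-π / 2 + 2 * π) = -I := by rw [cm_per, cm_neg_half]

theorem cm_add_pi (t : ℝ) : cm (t + π) = -cm t := by
  simp [cm, circleMap, add_mul, Complex.exp_add]

theorem norm_yI {y : ℝ} (hy : y ∈ Set.uIcc (-1 : ℝ) 1) : ‖(y : ℂ) * I‖ ≤ 1 := by
  rw [Set.uIcc_of_le (by norm_num)] at hy
  simpa [abs_le] using hy

theorem Good.cont_arc {F : ℂ → ℂ} (h : Good F) : Continuous fun t => F (cm t) :=
  continuous_iff_continuousAt.2 fun t =>
    (h _ (norm_cm t).le (Or.inl (norm_cm t))).comp_of_eq cont_cm.continuousAt rfl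

theorem Good.cont_dia {F : ℂ → ℂ} (h : Good F) :
    ContinuousOn (fun y : ℝ => F (y * I)) (Set.uIcc (-1) 1) := fun y hy =>
  ((h _ (norm_yI hy) (Or.inr (by simp))).comp_of_eq (g := F) (f := fun y : ℝ => (y : ℂ) * I)
    (by fun_prop) rfl).continuousWithinAt

theorem Good.int_arc {F : ℂ → ℂ} (h : Good F) (a b : ℝ) :
    IntervalIntegrable (fun t => cm t * I * F (cm t)) volume a b :=
  ((cont_cm.mul continuous_const).mul h.cont_arc).intervalIntegrable a b

theorem Good.int_dia {F : ℂ → ℂ} (h : Good F) :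
    IntervalIntegrable (fun y : ℝ => I * F (y * I)) volume (-1) 1 :=
  (continuousOn_const.mul h.cont_dia).intervalIntegrable

theorem arc_prim {F G : ℂ → ℂ} (h : Good F) (a b : ℝ)
    (hG : ∀ t ∈ Set.uIcc a b, HasDerivAt G (F (cm t)) (cm t)) :
    arc F a b = G (cm b) - G (cm a) := by
  refine integral_eq_sub_of_hasDerivAt (f := fun t => G (cm t)) (fun t ht => ?_) (h.int_arc a b)
  have := (hG t ht).scomp t (hasDerivAt_circleMap 0 1 t)
  simpa [cm, Function.comp_def] using this

theorem dia_prim {F G : ℂ → ℂ} (h : Good F)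
    (hG : ∀ y ∈ Set.uIcc (-1 : ℝ) 1, HasDerivAt G (F (y * I)) (y * I)) :
    dia F = G I - G (-I) := by
  have := integral_eq_sub_of_hasDerivAt (f := fun y : ℝ => G (y * I)) (fun y hy => ?_) h.int_dia
  · simpa [dia] using this
  · have h1 : HasDerivAt (fun y : ℝ => (y : ℂ) * I) I y := by
      simpa using (Complex.ofRealCLM.hasDerivAt (x := y)).mul_const I
    have := (hG y hy).scomp y h1
    simpa [Function.comp_def] using this

theorem right_prim {F G : ℂ → ℂ} (h : Good F)
    (hG : ∀ z : ℂ, ‖z‖ ≤ 1 → 0 ≤ z.re → HasDerivAt G (F z) z) :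
    arc F (-π / 2) (π / 2) = dia F := by
  rw [arc_prim h _ _ (G := G), dia_prim h (G := G), cm_half, cm_neg_half]
  · exact fun y hy => hG _ (norm_yI hy) (by simp)
  · intro t ht
    refine hG _ (norm_cm t).le ?_
    rw [Set.uIcc_of_le (by linarith [Real.pi_pos])] at ht
    rw [cm_re]
    exact Real.cos_nonneg_of_neg_pi_div_two_le_of_le (by linarith [ht.1]) ht.2

theorem left_prim {F G : ℂ → ℂ} (h : Good F)
    (hG : ∀ z : ℂ, ‖z‖ ≤ 1 → z.re ≤ 0 → HasDerivAt G (F z) z) :
    arc F (π / 2) (-π / 2 + 2 * π) = -dia F := by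
  rw [arc_prim h _ _ (G := G), dia_prim h (G := G), cm_half, cm_three_half]
  · ring
  · exact fun y hy => hG _ (norm_yI hy) (by simp)
  · intro t ht
    refine hG _ (norm_cm t).le ?_
    rw [Set.uIcc_of_le (by linarith [Real.pi_pos])] at ht
    rw [cm_re]
    exact Real.cos_nonpos_of_pi_div_two_le_of_le ht.1 (by linarith [ht.2])

theorem full_eq (F : ℂ → ℂ) : arc F (-π / 2) (-π / 2 + 2 * π) = ∮ z in C(0, 1), F z := by
  have hp : Function.Periodic (fun t => cm t * I * F (cm t)) (2 * π) := fun t => by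
    simp only [cm_per t]
  rw [arc, hp.intervalIntegral_add_eq _ 0, circleIntegral]
  simp [cm, deriv_circleMap]

theorem good_of_diff {R : ℝ} (hR : 1 < R) {G : ℂ → ℂ} (hG : DifferentiableOn ℂ G (ball 0 R)) :
    Good G := fun z hz _ =>
  (hG.differentiableAt (isOpen_ball.mem_nhds (by simpa using hz.trans_lt hR))).continuousAt

theorem ne_of_path {a : ℝ} (ha : |a| < 1) (ha0 : a ≠ 0) {z : ℂ} (hz : ‖z‖ = 1 ∨ z.re = 0) :
    z - a ≠ 0 := by
  rw [sub_ne_zero]
  rintro rfl
  rcases hz with h | h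
  · simp at h; linarith
  · simp at h; exact ha0 h

theorem good_div {R : ℝ} (hR : 1 < R) {G : ℂ → ℂ} (hG : DifferentiableOn ℂ G (ball 0 R))
    {a : ℝ} (ha : |a| < 1) (ha0 : a ≠ 0) : Good fun z => G z / (z - a) := fun z hz hz' =>
  (good_of_diff hR hG z hz hz').div (by fun_prop) (ne_of_path ha ha0 hz')

theorem full_div {R : ℝ} (hR : 1 < R) {G : ℂ → ℂ} (hG : DifferentiableOn ℂ G (ball 0 R))
    {a : ℝ} (ha : |a| < 1) :
    arc (fun z => G z / (z - a)) (-π / 2) (-π / 2 + 2 * π) = 2 * π * I * G a := by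
  rw [full_eq]
  have := (hG.mono (closedBall_subset_ball hR)).circleIntegral_sub_inv_smul (w := a)
    (by simpa using ha)
  simpa [div_eq_inv_mul] using this

theorem right_zero {R : ℝ} (hR : 1 < R) {G : ℂ → ℂ} (hG : DifferentiableOn ℂ G (ball 0 R)) :
    arc G (-π / 2) (π / 2) = dia G := by
  obtain ⟨P, hP⟩ := hG.isExactOn_ball
  exact right_prim (good_of_diff hR hG) fun z hz _ => hP z (by simpa using hz.trans_lt hR)

theorem right_div {R : ℝ} (hR : 1 < R) {G : ℂ → ℂ} (hG : DifferentiableOn ℂ G (ball 0 R))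
    {a : ℝ} (ha : |a| < 1) (ha0 : a ≠ 0) :
    arc (fun z => G z / (z - a)) (-π / 2) (π / 2) - dia (fun z => G z / (z - a)) =
      if 0 < a then 2 * π * I * G a else 0 := by
  have hd : DifferentiableOn ℂ (dslope G a) (ball 0 R) :=
    (differentiableOn_dslope (isOpen_ball.mem_nhds (by simpa using ha.trans hR))).2 hG
  obtain ⟨P, hP⟩ := hd.isExactOn_ball
  have hg := good_div hR hG ha ha0
  have key : ∀ z : ℂ, z - a ≠ 0 → G z / (z - a) = G a * (1 / (z - a)) + dslope G a z := by
    intro z hz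
    rw [dslope_of_ne _ (sub_ne_zero.1 hz), slope_def_field]
    field_simp
    ring
  split_ifs with h
  · have h1 := left_prim hg (G := fun z => G a * Complex.log (a - z) + P z) (fun z hz hz' => by
      have hne : (a : ℂ) - z ∈ slitPlane := Or.inl (by simp; linarith)
      have hne' : z - a ≠ 0 := by
        intro h0
        have := congrArg Complex.re h0
        simp at this; linarith
      have h2 := (((hasDerivAt_id z).const_sub (a : ℂ)).clog hne).const_mul (G a)
      have h3 := h2.add (hP z (by simpa using hz.trans_lt hR))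
      rw [key z hne']
      have : (a : ℂ) - z ≠ 0 := slitPlane_ne_zero hne
      have h4 : 1 / (z - a) = -1 / id ((a : ℂ) - z) := by
        simp only [id]
        field_simp
        ring
      rw [h4]
      exact h3)
    rw [← full_div hR hG ha, sub_eq_add_neg, ← h1, arc, arc, arc,
      integral_add_adjacent_intervals (hg.int_arc _ _) (hg.int_arc _ _)]
  · have h' : a < 0 := lt_of_le_of_ne (not_lt.1 h) ha0
    rw [right_prim hg (G := fun z => G a * Complex.log (z - a) + P z) (fun z hz hz' => by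
      have hne : z - (a : ℂ) ∈ slitPlane := Or.inl (by simp; linarith)
      have h2 := (((hasDerivAt_id z).sub_const (a : ℂ)).clog hne).const_mul (G a)
      have h3 := h2.add (hP z (by simpa using hz.trans_lt hR))
      rw [key z (slitPlane_ne_zero hne)]
      exact h3), sub_self]

theorem arc_sum {ι : Type*} (s : Finset ι) (w : ι → ℂ) (F : ι → ℂ → ℂ) (hF : ∀ i, Good (F i))
    (a b : ℝ) : arc (fun z => ∑ i ∈ s, w i * F i z) a b = ∑ i ∈ s, w i * arc (F i) a b := by
  simp only [arc, ← intervalIntegral.integral_const_mul]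
  rw [← intervalIntegral.integral_finsetSum fun i _ => ((hF i).int_arc a b).const_mul (w i)]
  congr 1
  ext t
  rw [Finset.mul_sum]
  exact Finset.sum_congr rfl fun i _ => by ring

theorem dia_sum {ι : Type*} (s : Finset ι) (w : ι → ℂ) (F : ι → ℂ → ℂ) (hF : ∀ i, Good (F i)) :
    dia (fun z => ∑ i ∈ s, w i * F i z) = ∑ i ∈ s, w i * dia (F i) := by
  simp only [dia, ← intervalIntegral.integral_const_mul]
  rw [← intervalIntegral.integral_finsetSum fun i _ => ((hF i).int_dia).const_mul (w i)]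
  congr 1
  ext t
  rw [Finset.mul_sum]
  exact Finset.sum_congr rfl fun i _ => by ring

theorem part_frac {n : ℕ} (hn : 0 < n) (x : Fin n → ℂ) (hx : Function.Injective x) (z : ℂ)
    (hz : ∀ i, z - x i ≠ 0) :
    ∑ i, (∏ k ∈ univ.erase i, (x i - x k))⁻¹ * (z - x i)⁻¹ = (∏ k, (z - x k))⁻¹ := by
  have hne : (univ : Finset (Fin n)).Nonempty := ⟨⟨0, hn⟩, mem_univ _⟩
  have h1 := congrArg (Polynomial.eval z) (Lagrange.sum_basis (s := univ) (v := x) hx.injOn hne)
  rw [Polynomial.eval_finsetSum, Polynomial.eval_one,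
    Finset.sum_congr rfl fun i hi =>
      Lagrange.eval_basis_not_at_node hi (sub_ne_zero.1 (hz i)), ← Finset.mul_sum,
    Lagrange.eval_nodal] at h1
  simp only [Lagrange.nodalWeight, Finset.prod_inv_distrib] at h1
  exact eq_inv_of_mul_eq_one_right h1

end Crest.Agent.R6.HalfDisc
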