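import Crest.Agent.R6.Defs

/-! Row 6: the matrix entries are double integrals. -/

set_option autoImplicit false

namespace Crest.Agent.R6

open Polynomial Finset Filter Topology MeasureTheory

namespace Integral

theorem cast_lin (a : ℕ → ℚ) (P : ℤ[X]) :
    ((lin a P : ℚ) : ℝ) = lin (fun i => (a i : ℝ)) P := by
  rw [lin_eq_range a P (Nat.lt_succ_self _), lin_eq_range _ P (Nat.lt_succ_self _)]
  push_cast
  rfl

theorem lin_add (a b : ℕ → ℝ) (P : ℤ[X]) :
    lin (fun i => a i + b i) P = lin a P + lin b P := by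
  simp only [lin, Polynomial.sum, mul_add, Finset.sum_add_distrib]

theorem lin_mul_const (a : ℕ → ℝ) (z : ℝ) (P : ℤ[X]) :
    lin (fun i => a i * z) P = lin a P * z := by
  simp only [lin, Polynomial.sum, Finset.sum_mul, mul_assoc]

theorem lin_ite (j : ℕ) (z : ℝ) (P : ℤ[X]) :
    lin (fun i => if i = j then z else 0) P = (P.coeff j : ℝ) * z := by
  rw [lin_eq_range _ P (m := max P.natDegree j + 1) (Nat.lt_succ_of_le (le_max_left _ _)),
    Finset.sum_eq_single j]
  · simp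
  · intro i _ hi
    simp [hi]
  · intro hj
    exact absurd (Finset.mem_range.mpr (Nat.lt_succ_of_le (le_max_right _ _))) hj

theorem lin_pow (t : ℝ) (P : ℤ[X]) : lin (fun i => t ^ i) P = aeval t P := by
  rw [lin_eq_range _ P (Nat.lt_succ_self _), aeval_eq_sum_range]
  simp

/-- the value of the pairing when `x` is Catalan's constant -/
theorem V_eq (hS : SeriesStmt) (hZ : ZSeriesStmt) (hC : CancelStmt) (hV : ValuesStmt)
    (x : ℚ) (hx : (x : ℝ) = cat) (c h : ℕ) (u : ℤ) (j : ℕ) (hu : u.natAbs < c)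
    (hj : (j : ℤ) < c + u) :
    (V x (rowP c h u) (rowD c h u) j : ℝ) =
      lin (fun i => Ms ℝ i j) (rowP c h u) - 3 / 4 * lin (fun l => Zs l j) (rowD c h u) := by
  obtain ⟨h1, h2, h3, h4⟩ := hV
  have hM : (fun i => Ms ℝ i j) =
      fun i => ((tA i j + x * tG i j : ℚ) : ℝ) + ((tZe i j : ℚ) : ℝ) * Zs 0 0 := by
    funext i
    rw [hS ℝ h1 h2 i j, h3, h4]
    push_cast
    rw [hx]
    ring
  have hZ' : (fun l => Zs l j) = fun l => ((tZ l j : ℚ) : ℝ) + if l = j then Zs 0 0 else 0 := by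
    funext l
    exact (hZ l j).2
  have hc := congrArg (fun q : ℚ => (q : ℝ)) (hC c h u j hu hj)
  simp only [cast_lin] at hc
  rw [hM, hZ', lin_add, lin_add, lin_mul_const, lin_ite, hc, V]
  rw [Rat.cast_sub, Rat.cast_mul, cast_lin, cast_lin]
  push_cast
  ring

/-- integrating a finite combination -/
theorem integral_lin {s : Set ℝ} (F : ℕ → ℝ → ℝ) (a : ℕ → ℝ) (P : ℤ[X]) {m : ℕ}
    (hm : P.natDegree < m) (hF : ∀ i < m, IntegrableOn (F i) s ∧ ∫ y in s, F i y = a i) :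
    IntegrableOn (fun y => lin (fun i => F i y) P) s ∧
      ∫ y in s, lin (fun i => F i y) P = lin a P := by
  simp only [lin_eq_range _ P hm]
  have hi : ∀ i ∈ range m, Integrable (fun y => (P.coeff i : ℝ) * F i y) (volume.restrict s) :=
    fun i hi => (hF i (Finset.mem_range.mp hi)).1.const_mul _
  refine ⟨integrable_finsetSum _ hi, ?_⟩
  rw [integral_finsetSum _ hi]
  refine Finset.sum_congr rfl fun i hi => ?_
  rw [integral_const_mul, (hF i (Finset.mem_range.mp hi)).2]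

theorem pp_dd (t f : ℝ) (hf : f ^ 2 = 1 - t ^ 2) (a : ℕ) :
    aeval t (pp a) - f * aeval t (dd a) = (1 - f) ^ a := by
  induction a with
  | zero => simp
  | succ a ih =>
    rw [pow_succ, ← ih, pp_succ, dd_succ]
    simp only [map_add, map_mul, map_sub, map_one, map_pow, aeval_X]
    rw [← hf]
    ring

theorem row_aux (y : ℝ) (hy : y ≠ 0) (a : ℕ) :
    aeval (tt y) (pp a) = tt y ^ a * ((y ^ a + y⁻¹ ^ a) / 2) ∧
    (1 - y ^ 2) / (1 + y ^ 2) * aeval (tt y) (dd a) = tt y ^ a * ((y⁻¹ ^ a - y ^ a) / 2) := by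
  have hp : (1 + y ^ 2) ≠ 0 := by positivity
  have hf : ((1 - y ^ 2) / (1 + y ^ 2)) ^ 2 = 1 - tt y ^ 2 := by
    unfold tt; field_simp; ring
  have h1 := pp_dd (tt y) _ hf a
  have h2 := pp_dd (tt y) (-((1 - y ^ 2) / (1 + y ^ 2))) (by rw [neg_sq, hf]) a
  have e1 : 1 - (1 - y ^ 2) / (1 + y ^ 2) = tt y * y := by
    unfold tt; field_simp; ring
  have e2 : 1 - -((1 - y ^ 2) / (1 + y ^ 2)) = tt y * y⁻¹ := by
    unfold tt; field_simp; ring
  rw [e1, mul_pow] at h1
  rw [e2, mul_pow] at h2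
  constructor
  · linear_combination (h1 + h2) / 2
  · linear_combination (h2 - h1) / 2

theorem zpow_aux (y : ℝ) (u : ℤ) :
    y ^ u.natAbs + y⁻¹ ^ u.natAbs = y ^ u + y ^ (-u) ∧
    (u.sign : ℝ) * (y⁻¹ ^ u.natAbs - y ^ u.natAbs) = y ^ (-u) - y ^ u := by
  rcases u with (_ | n) | n
  · simp
  · have : (Int.ofNat (n + 1)).sign = 1 := rfl
    rw [this]
    simp only [Int.ofNat_eq_natCast, Int.natAbs_natCast, zpow_neg, zpow_natCast, inv_pow]
    simp
  · have : (Int.negSucc n).sign = -1 := rfl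
    rw [this]
    simp only [Int.natAbs_negSucc, Nat.succ_eq_add_one, zpow_neg, zpow_negSucc, inv_pow, inv_inv]
    constructor
    · ring
    · push_cast; ring

theorem rowP_eval (c h : ℕ) (u : ℤ) (hu : u.natAbs < c) (y : ℝ) (hy : y ≠ 0) :
    tt y * aeval (tt y) (rowP c h u) =
      tt y ^ c * (1 - tt y) ^ h * ((y ^ u + y ^ (-u)) / 2) := by
  obtain ⟨d, rfl⟩ := Nat.exists_eq_add_of_lt hu
  rw [rowP, show u.natAbs + d + 1 - 1 - u.natAbs = d by omega]
  simp only [map_mul, map_pow, map_sub, map_one, aeval_X]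
  rw [(row_aux y hy _).1, (zpow_aux y u).1]
  ring

theorem rowD_eval (c h : ℕ) (u : ℤ) (hu : u.natAbs < c) (y : ℝ) (hy : y ≠ 0) :
    (1 - y ^ 2) / (1 + y ^ 2) * aeval (tt y) (rowD c h u) =
      tt y ^ c * (1 - tt y) ^ h * ((y ^ (-u) - y ^ u) / 2) := by
  obtain ⟨d, rfl⟩ := Nat.exists_eq_add_of_lt hu
  rw [rowD, show u.natAbs + d + 1 - u.natAbs = d + 1 by omega]
  simp only [map_mul, map_pow, map_sub, map_one, aeval_X, eq_intCast, map_intCast]
  rw [← (zpow_aux y u).2]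
  linear_combination (u.sign : ℝ) * tt y ^ (d + 1) * (1 - tt y) ^ h * (row_aux y hy u.natAbs).2

theorem rowF_eq (c h : ℕ) (u : ℤ) (hu : u.natAbs < c) (y I : ℝ) (hy : y < 1) :
    rowF c h u y * I = |tt y| / 2 * aeval (tt y) (rowP c h u) * I - 3 / 4 *
      (Set.Ioo (0 : ℝ) 1).indicator
        (fun y => (1 - y ^ 2) / (1 + y ^ 2) * aeval (tt y) (rowD c h u)) y * I := by
  have hp : 0 < 1 + y ^ 2 := by positivity
  rcases lt_trichotomy y 0 with h0 | rfl | h0
  · have ht : tt y ≤ 0 := div_nonpos_of_nonpos_of_nonneg (by linarith) hp.le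
    rw [Set.indicator_of_notMem (fun hm => absurd hm.1 h0.not_gt), abs_of_nonpos ht, rowF, wa, wb,
      if_neg h0.not_gt, if_neg h0.not_gt]
    linear_combination I / 2 * rowP_eval c h u hu y h0.ne
  · have hc : c ≠ 0 := by omega
    simp [rowF, tt, hc]
  · have ht : 0 ≤ tt y := div_nonneg (by linarith) hp.le
    rw [Set.indicator_of_mem (show y ∈ Set.Ioo (0 : ℝ) 1 from ⟨h0, hy⟩), abs_of_nonneg ht, rowF,
      wa, wb, if_pos h0, if_pos h0]
    linear_combination -I / 2 * rowP_eval c h u hu y h0.ne' +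
      3 / 4 * I * rowD_eval c h u hu y h0.ne'

theorem integrableOn_ker (y : ℝ) (hy : y ∈ Set.Ioo (-1 : ℝ) 1) (g : ℝ → ℝ) (hg : Continuous g) :
    IntegrableOn (fun s => ker y s * g s) (Set.Ioo 0 1) := by
  refine (ContinuousOn.integrableOn_Icc (a := 0) (b := 1) ?_).mono_set Set.Ioo_subset_Icc_self
  refine ContinuousOn.mul ?_ hg.continuousOn
  refine continuousOn_const.div (by fun_prop) fun s hs => ne_of_gt ?_
  rcases le_total y 0 with h | h
  · nlinarith [mul_nonneg (neg_nonneg.mpr h) hs.1, sq_nonneg y]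
  · nlinarith [mul_nonneg h (sub_nonneg.mpr hs.2), sq_pos_of_pos (sub_pos.mpr hy.2)]

/-- the row against the monomial `s^j` -/
theorem row_mono (hM : MomStmt) (c h : ℕ) (u : ℤ) (hu : u.natAbs < c) (j : ℕ) :
    IntegrableOn (fun y => rowF c h u y * ∫ s in Set.Ioo (0 : ℝ) 1, ker y s * s ^ j)
      (Set.Ioo (-1) 1) ∧
    ∫ y in Set.Ioo (-1 : ℝ) 1, rowF c h u y * ∫ s in Set.Ioo (0 : ℝ) 1, ker y s * s ^ j =
      lin (fun i => Ms ℝ i j) (rowP c h u) - 3 / 4 * lin (fun l => Zs l j) (rowD c h u) := by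
  set I : ℝ → ℝ := fun y => ∫ s in Set.Ioo (0 : ℝ) 1, ker y s * s ^ j with hI
  obtain ⟨a1, a2⟩ := integral_lin (s := Set.Ioo (-1) 1)
    (fun i y => |tt y| / 2 * tt y ^ i * I y) (fun i => Ms ℝ i j) (rowP c h u)
    (Nat.lt_succ_self _) (fun i _ => ⟨(hM i j).1, (hM i j).2.1⟩)
  obtain ⟨b1, b2⟩ := integral_lin (s := Set.Ioo 0 1)
    (fun i y => (1 - y ^ 2) / (1 + y ^ 2) * tt y ^ i * I y) (fun i => Zs i j) (rowD c h u)
    (Nat.lt_succ_self _) (fun i _ => ⟨(hM i j).2.2.1, (hM i j).2.2.2⟩)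
  have e : ∀ (w z t : ℝ) (P : ℤ[X]), lin (fun i => w * t ^ i * z) P = w * aeval t P * z := by
    intro w z t P
    have : (fun i => w * t ^ i * z) = fun i => t ^ i * (w * z) := by
      funext i; ring
    rw [this, lin_mul_const, lin_pow]
    ring
  simp only [e] at a1 a2 b1 b2
  have hsub : Set.Ioo (0 : ℝ) 1 ⊆ Set.Ioo (-1) 1 := Set.Ioo_subset_Ioo (by norm_num) le_rfl
  set G : ℝ → ℝ := fun y => (1 - y ^ 2) / (1 + y ^ 2) * aeval (tt y) (rowD c h u) * I y with hG
  have c1 : IntegrableOn ((Set.Ioo (0 : ℝ) 1).indicator G) (Set.Ioo (-1) 1) :=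
    ((integrable_indicator_iff measurableSet_Ioo).mpr b1).integrableOn
  have c2 : ∫ y in Set.Ioo (-1 : ℝ) 1, (Set.Ioo (0 : ℝ) 1).indicator G y =
      lin (fun l => Zs l j) (rowD c h u) := by
    rw [setIntegral_indicator measurableSet_Ioo, Set.inter_eq_self_of_subset_right hsub, b2]
  have heq : Set.EqOn (fun y => |tt y| / 2 * aeval (tt y) (rowP c h u) * I y -
      3 / 4 * (Set.Ioo (0 : ℝ) 1).indicator G y) (fun y => rowF c h u y * I y)
      (Set.Ioo (-1) 1) := by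
    intro y hy
    simp only [rowF_eq c h u hu y (I y) hy.2, hG, Set.indicator_mul_left, mul_assoc]
  refine ⟨IntegrableOn.congr_fun (a1.sub (c1.const_mul (3 / 4))) heq measurableSet_Ioo, ?_⟩
  rw [← setIntegral_congr_fun measurableSet_Ioo heq, integral_sub a1 (c1.const_mul (3 / 4)),
    integral_const_mul, a2, c2]

theorem natDegree_colQ (N k : ℕ) : (colQ N k).natDegree ≤ 8 * N + k := by
  have h1 : (1 - X : ℤ[X]).natDegree ≤ 1 := by compute_degree
  have h2 := (natDegree_pow_le (p := (1 - X : ℤ[X])) (n := 2 * N)).trans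
    (Nat.mul_le_mul_left _ h1)
  have h3 := natDegree_mul_le (p := (X : ℤ[X]) ^ (6 * N + k)) (q := (1 - X) ^ (2 * N))
  rw [natDegree_X_pow] at h3
  unfold colQ
  omega

theorem colF_eq (N k : ℕ) (s : ℝ) : colF N k s = aeval s (colQ N k) := by
  simp [colF, colQ]

end Integral

open Integral in
theorem integral : SeriesStmt → ZSeriesStmt → CancelStmt → ValuesStmt → MomStmt →
    IntegralStmt := by
  intro hS hZ hC hV hM x hx N u k hN hu0 hu1 hk
  have hu : u.natAbs < 47 * N := by omega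
  have hdeg : (colQ N k).natDegree < 44 * N := (natDegree_colQ N k).trans_lt (by omega)
  obtain ⟨a1, a2⟩ := integral_lin (s := Set.Ioo (-1) 1)
    (fun j y => rowF (47 * N) (2 * N) u y * ∫ s in Set.Ioo (0 : ℝ) 1, ker y s * s ^ j)
    (fun j => (V x (rowP (47 * N) (2 * N) u) (rowD (47 * N) (2 * N) u) j : ℝ)) (colQ N k) hdeg
    (fun j hj => ⟨(row_mono hM _ _ u hu j).1, by
      rw [(row_mono hM _ _ u hu j).2, V_eq hS hZ hC hV x hx _ _ u j hu (by push_cast; omega)]⟩)
  have heq : Set.EqOn (fun y => lin (fun j => rowF (47 * N) (2 * N) u y *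
      ∫ s in Set.Ioo (0 : ℝ) 1, ker y s * s ^ j) (colQ N k))
      (fun y => rowF (47 * N) (2 * N) u y * ∫ s in Set.Ioo (0 : ℝ) 1, ker y s * colF N k s)
      (Set.Ioo (-1) 1) := by
    intro y hy
    obtain ⟨-, b2⟩ := integral_lin (s := Set.Ioo 0 1) (fun j s => ker y s * s ^ j)
      (fun j => ∫ s in Set.Ioo (0 : ℝ) 1, ker y s * s ^ j) (colQ N k) hdeg
      (fun j _ => ⟨integrableOn_ker y hy _ (by fun_prop), rfl⟩)
    have e : ∀ s, lin (fun j => ker y s * s ^ j) (colQ N k) = ker y s * colF N k s := by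
      intro s
      simp only [mul_comm (ker y s)]
      rw [lin_mul_const, lin_pow, colF_eq]
    simp only [e] at b2
    simp only [b2, mul_comm (rowF (47 * N) (2 * N) u y)]
    rw [lin_mul_const]
  refine ⟨IntegrableOn.congr_fun a1 heq measurableSet_Ioo,
    fun y hy => integrableOn_ker y hy _ (by unfold colF; fun_prop), ?_⟩
  rw [← setIntegral_congr_fun measurableSet_Ioo heq, a2, ent, cast_lin]

end Crest.Agent.R6
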