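import Crest.Agent.R6.Red

/-! Row 6: the determinant does not vanish for `N` a large prime; final assembly. -/

set_option autoImplicit false

namespace Crest.Agent.R6

open Polynomial Finset Filter Topology

namespace Nonvan

theorem det_ne_zero {F : Type} [Field F] (h2 : (2 : F) ≠ 0) {n p : ℕ}
    (b0 b1 : Matrix (Fin n) (Fin n) F) (d0 : b0.det ≠ 0) (d1 : (b0 + b1).det ≠ 0)
    (d2 : (b0 - b1).det ≠ 0) (c : ℕ → ℕ → F) (hc0 : ∀ u l, l < u → c u l = 0)
    (hc1 : ∀ l, c l l ≠ 0) :
    (Matrix.of fun r k : Fin n × Fin p =>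
      c r.2 k.2 * b0 r.1 k.1 + c (p - r.2) k.2 * b1 r.1 k.1).det ≠ 0 := by
  intro hdet
  obtain ⟨z, hz0, hz⟩ := Matrix.exists_mulVec_eq_zero_iff.2 hdet
  let ζ : ℕ → Fin n → F := fun u k => ∑ l : Fin p, c u l * z (k, l)
  have hrow : ∀ u, u < p → b0.mulVec (ζ u) + b1.mulVec (ζ (p - u)) = 0 := by
    intro u hu
    funext a
    have := congrFun hz (a, ⟨u, hu⟩)
    simp only [Matrix.mulVec, dotProduct, Matrix.of_apply, Fintype.sum_prod_type,
      Pi.zero_apply] at this
    simp only [Matrix.mulVec, dotProduct, Pi.add_apply, Pi.zero_apply, ζ, mul_sum,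
      ← sum_add_distrib]
    rw [← this]
    exact sum_congr rfl fun k _ => sum_congr rfl fun l _ => by ring
  have hζp : ζ p = 0 := funext fun k => sum_eq_zero fun l _ => by rw [hc0 p l l.2, zero_mul]
  have hζ : ∀ u, u < p → ζ u = 0 := by
    intro u hu
    rcases Nat.eq_zero_or_pos u with rfl | hu0
    · have := hrow 0 hu
      rw [Nat.sub_zero, hζp, Matrix.mulVec_zero, add_zero] at this
      exact Matrix.eq_zero_of_mulVec_eq_zero d0 this
    · have e1 := hrow u hu
      have e2 := hrow (p - u) (by omega)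
      rw [Nat.sub_sub_self hu.le] at e2
      have e3 : ζ u + ζ (p - u) = 0 := Matrix.eq_zero_of_mulVec_eq_zero d1 (by
        rw [Matrix.add_mulVec, Matrix.mulVec_add, Matrix.mulVec_add]
        linear_combination e1 + e2)
      have e4 : ζ u - ζ (p - u) = 0 := Matrix.eq_zero_of_mulVec_eq_zero d2 (by
        rw [Matrix.sub_mulVec, Matrix.mulVec_sub, Matrix.mulVec_sub]
        linear_combination e1 - e2)
      funext k
      have e5 := congrFun e3 k
      have e6 := congrFun e4 k
      simp only [Pi.add_apply, Pi.sub_apply, Pi.zero_apply] at e5 e6 ⊢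
      exact (mul_eq_zero.1 (by linear_combination e5 + e6 : 2 * ζ u k = 0)).resolve_left h2
  have hC : (Matrix.of fun u l : Fin p => c u l).det ≠ 0 := by
    rw [Matrix.det_of_isUpperTriangular (M := Matrix.of fun u l : Fin p => c u l)
      fun u l h => hc0 u l h]
    exact prod_ne_zero_iff.2 fun l _ => hc1 l
  refine hz0 (funext fun ⟨k, l⟩ => ?_)
  exact congrFun (Matrix.eq_zero_of_mulVec_eq_zero (v := fun l => z (k, l)) hC
    (funext fun u => congrFun (hζ u u.2) k)) l

theorem aco_lt {u l : ℕ} (h : l < u) : aco u l = 0 := by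
  rw [aco, if_neg]
  rw [Int.natAbs_natCast]
  omega

theorem aco_self (l : ℕ) : aco l l = 1 := by
  simp [aco]

theorem red_ne_zero {p : ℕ} [Fact p.Prime] {q : ℚ} {y : ZMod p} (h : Red p q y) (hq : q ≠ 0)
    (hp : q.num.natAbs < p) : y ≠ 0 := fun hy =>
  Nat.not_dvd_of_pos_of_lt (Int.natAbs_pos.2 (Rat.num_ne_zero.2 hq)) hp
    (Int.natCast_dvd.1 (h.eq_zero_iff.1 hy))

end Nonvan

open Nonvan in
theorem nonvan : CertBStmt → EntStmt → NonvanStmt := by
  rintro ⟨c0, c1, c2⟩ hE x
  filter_upwards [eventually_gt_atTop 100, eventually_gt_atTop x.den,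
    eventually_gt_atTop B0.det.num.natAbs, eventually_gt_atTop (B0 + B1).det.num.natAbs,
    eventually_gt_atTop (B0 - B1).det.num.natAbs,
    eventually_all.2 fun i => eventually_all.2 fun j => eventually_gt_atTop (B0 i j).den,
    eventually_all.2 fun i => eventually_all.2 fun j => eventually_gt_atTop (B1 i j).den]
    with p h100 hx n0 n1 n2 e0 e1 hp
  have : Fact p.Prime := ⟨hp⟩
  have r0 : ∀ i j, Red p (B0 i j) ((B0.map fun q : ℚ => (q : ZMod p)) i j) := fun i j =>
    Red.self (Nat.not_dvd_of_pos_of_lt (B0 i j).pos (e0 i j))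
  have r1 : ∀ i j, Red p (B1 i j) ((B1.map fun q : ℚ => (q : ZMod p)) i j) := fun i j =>
    Red.self (Nat.not_dvd_of_pos_of_lt (B1 i j).pos (e1 i j))
  have h2 : (2 : ZMod p) ≠ 0 := by
    exact_mod_cast natCast_ne_zero_of_lt (p := p) (k := 2) two_ne_zero (by omega)
  have hA := det_ne_zero (p := p) h2 (B0.map fun q : ℚ => (q : ZMod p))
    (B1.map fun q : ℚ => (q : ZMod p)) (red_ne_zero (Red.det r0) c0 n0)
    (red_ne_zero (Red.det fun i j => (r0 i j).add (r1 i j)) c1 n1)
    (red_ne_zero (Red.det fun i j => (r0 i j).sub (r1 i j)) c2 n2)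
    (fun u l => (aco u l : ZMod p) / 2 ^ l) (fun u l h => by simp [aco_lt h])
    (fun l => by simp [aco_self, h2])
  have hR : Red p ((((p : ℚ) ^ 2) • mat x p).submatrix finProdFinEquiv finProdFinEquiv).det _ :=
    Red.det (B := Matrix.of fun r k : Fin 36 × Fin p =>
      (aco (r.2 : ℕ) k.2 : ZMod p) / 2 ^ (k.2 : ℕ) * (B0.map fun q : ℚ => (q : ZMod p)) r.1 k.1 +
      (aco (p - r.2 : ℕ) k.2 : ZMod p) / 2 ^ (k.2 : ℕ) *
        (B1.map fun q : ℚ => (q : ZMod p)) r.1 k.1) fun ⟨a, u⟩ ⟨k, l⟩ => by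
      refine (hE p h100 x (Nat.not_dvd_of_pos_of_lt x.pos hx) ((a : ℕ) - 3) u k l (by omega)
        (by omega) u.2 k.2 l.2).congr ?_ ?_
      · simp only [Matrix.submatrix_apply, Matrix.smul_apply, mat, Matrix.of_apply, smul_eq_mul,
          finProdFinEquiv_apply_val]
        congr 2
        · push_cast; ring
        · ring
      · simp only [Matrix.of_apply, Matrix.map_apply, B0, B1, Nat.cast_sub u.2.le]
        rw [show ((a : ℕ) : ℤ) - 3 + 1 = (a : ℕ) - 2 by ring]
        ring
  intro h0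
  refine hR.ne_zero hA ?_
  rw [Matrix.det_submatrix_equiv_self, Matrix.det_smul, h0, mul_zero]

theorem final : RealStmt → ArithStmt → NonvanStmt → Irrational cat := by
  rintro hR hA hN ⟨x, hx⟩
  obtain ⟨N, hp, h1, h2, h3⟩ := ((Nat.frequently_atTop_iff_infinite.2
    Nat.infinite_setOfPred_prime).and_eventually ((hR x hx).and ((hA x).and (hN x)))).exists
  have h4 := Real.exp_le_exp.1 ((h2 (h3 hp)).trans h1)
  have h5 : (0 : ℝ) < N := Nat.cast_pos.2 hp.pos
  nlinarith [mul_pos h5 h5]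

end Crest.Agent.R6
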