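import Crest.Agent.R6.Red

/-! Row 6: the exponent of a large odd prime in the denominator of the determinant. -/

set_option autoImplicit false

namespace Crest.Agent.R6

open Polynomial Finset

namespace OddBig

variable {p : ℕ} [hp : Fact p.Prime]

section Pool

variable {n σ : Type}

/-- `w` is a combination of the pool vectors `v s`, `s ∈ S`, with coefficients of norm
`≤ p^(a + e s)`, up to a vector of norm `≤ p^a`. -/
def In (a : ℕ) (S : Finset σ) (v : σ → n → ℚ_[p]) (e : σ → ℕ) (w : n → ℚ_[p]) : Prop :=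
  ∃ c : σ → ℚ_[p], (∀ s ∈ S, ‖c s‖ ≤ (p : ℝ) ^ (a + e s)) ∧
    ∀ r, ‖w r - ∑ s ∈ S, c s * v s r‖ ≤ (p : ℝ) ^ a

variable {a : ℕ} {S : Finset σ} {v : σ → n → ℚ_[p]} {e : σ → ℕ} {w w' : n → ℚ_[p]}

theorem In.small (h : ∀ r, ‖w r‖ ≤ (p : ℝ) ^ a) : In a S v e w :=
  ⟨0, fun s _ => by simp, fun r => by simpa using h r⟩

theorem In.basis {s : σ} (hs : s ∈ S) {c : ℚ_[p]} (hc : ‖c‖ ≤ (p : ℝ) ^ (a + e s))
    (h : ∀ r, w r = c * v s r) : In a S v e w := by
  classical
  refine ⟨fun t => if t = s then c else 0, fun t _ => ?_, fun r => ?_⟩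
  · by_cases ht : t = s
    · simpa [ht] using hc
    · simp [ht]
  · simp [h r, hs]

theorem In.add (h : In a S v e w) (h' : In a S v e w') : In a S v e (fun r => w r + w' r) := by
  obtain ⟨c, h1, h2⟩ := h
  obtain ⟨c', h1', h2'⟩ := h'
  refine ⟨fun s => c s + c' s, fun s hs => ?_, fun r => ?_⟩
  · exact (IsUltrametricDist.norm_add_le_max _ _).trans (max_le (h1 s hs) (h1' s hs))
  · have : w r + w' r - ∑ s ∈ S, (c s + c' s) * v s r =
        (w r - ∑ s ∈ S, c s * v s r) + (w' r - ∑ s ∈ S, c' s * v s r) := by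
      simp only [add_mul, sum_add_distrib]; ring
    rw [this]
    exact (IsUltrametricDist.norm_add_le_max _ _).trans (max_le (h2 r) (h2' r))

theorem In.smul (h : In a S v e w) {t : ℚ_[p]} (ht : ‖t‖ ≤ 1) :
    In a S v e (fun r => t * w r) := by
  obtain ⟨c, h1, h2⟩ := h
  refine ⟨fun s => t * c s, fun s hs => ?_, fun r => ?_⟩
  · rw [norm_mul]
    exact (mul_le_of_le_one_left (norm_nonneg _) ht).trans (h1 s hs)
  · have : t * w r - ∑ s ∈ S, t * c s * v s r = t * (w r - ∑ s ∈ S, c s * v s r) := by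
      simp only [mul_sub, mul_sum, mul_assoc]
    rw [this, norm_mul]
    exact (mul_le_of_le_one_left (norm_nonneg _) ht).trans (h2 r)

theorem In.congr (h : In a S v e w) (hw : ∀ r, w' r = w r) : In a S v e w' := by
  rw [show w' = w from funext hw]; exact h

theorem In.sub (h : In a S v e w) (h' : In a S v e w') : In a S v e (fun r => w r - w' r) :=
  (h.add (h'.smul (t := -1) (by simp))).congr fun r => by ring

theorem In.near (h : In a S v e w) (h' : ∀ r, ‖w' r - w r‖ ≤ (p : ℝ) ^ a) : In a S v e w' :=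
  (h.add (In.small h')).congr fun r => by ring

theorem In.sum {τ : Type} {T : Finset τ} {u : τ → n → ℚ_[p]} (h : ∀ t ∈ T, In a S v e (u t)) :
    In a S v e (fun r => ∑ t ∈ T, u t r) := by
  classical
  induction T using Finset.induction_on with
  | empty => exact In.small fun r => by simp
  | insert t T ht ih =>
    exact ((h t (mem_insert_self _ _)).add (ih fun j hj => h j (mem_insert_of_mem hj))).congr
      fun r => by rw [sum_insert ht]

theorem pool_bound (hP : PoolStmt) [Fintype n] [DecidableEq n] (E : Matrix n n ℚ_[p])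
    (hv : ∀ s ∈ S, ∀ r, ‖v s r‖ ≤ 1) (hE : ∀ k, In a S v e (fun r => E r k)) :
    ‖E.det‖ ≤ (p : ℝ) ^ (a * Fintype.card n + ∑ s ∈ S, e s) := by
  choose c h1 h2 using hE
  have hp1 : (1 : ℝ) ≤ p := by exact_mod_cast hp.out.one_le
  have := hP ℚ_[p] n (S ⊕ n) E (Sum.elim (fun s => v s) (fun i r => if r = i then 1 else 0))
    (fun k => Sum.elim (fun s => c k s) (fun i => E i k - ∑ s ∈ S, c k s * v s i))
    (fun _ => (p : ℝ) ^ a) (Sum.elim (fun s => (p : ℝ) ^ e s) (fun _ => 1)) ?_ ?_ ?_ ?_ ?_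
  · refine this.trans (le_of_eq ?_)
    rw [Fintype.prod_sum_type]
    simp only [Sum.elim_inl, Sum.elim_inr, prod_const, card_univ, one_pow, mul_one]
    rw [prod_coe_sort S (fun s => (p : ℝ) ^ e s), prod_pow_eq_pow_sum, ← pow_mul, ← pow_add]
  · intro r k
    rw [Fintype.sum_sum_type]
    simp only [Sum.elim_inl, Sum.elim_inr, mul_ite, mul_one, mul_zero, sum_ite_eq, mem_univ,
      if_true]
    rw [sum_coe_sort S (fun s => c k s * v s r)]
    ring
  · rintro (s | i) r
    · exact hv s s.2 r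
    · simp only [Sum.elim_inr]
      split_ifs <;> simp
  · rintro k (s | i)
    · simpa [pow_add] using h1 k s s.2
    · simpa using h2 k i
  · rintro (s | i)
    · exact one_le_pow₀ hp1
    · simp
  · intro k
    positivity

end Pool

/-! ### The combinatorial argument -/

def K1 (N p : ℕ) : Finset ℕ := Ico (max (6 * N) (49 * N - 2 * p)) (min (14 * N) (44 * N - p))
def K1p (N p : ℕ) : Finset ℕ :=
  Ico (max (6 * N) (49 * N - 2 * p) + p) (min (14 * N) (44 * N - p) + p)
def K2 (N p : ℕ) : Finset ℕ := Ico (max (6 * N) (49 * N - p)) (min p (44 * N))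
def B2 (N p : ℕ) : Finset ℕ := (Ico (6 * N) (44 * N) \ K2 N p) \ K1p N p
def Virt (N p : ℕ) : Finset ℕ := Ico (44 * N - p) (min (6 * N) (49 * N - p))

theorem card_B2 (N p : ℕ) : (B2 N p).card = r2 N p := by
  have h2 : K2 N p ⊆ Ico (6 * N) (44 * N) := by
    intro j hj
    simp only [K2, mem_Ico] at hj ⊢
    omega
  have h1 : K1p N p ⊆ Ico (6 * N) (44 * N) \ K2 N p := by
    intro j hj
    simp only [K1p, K2, mem_Ico, mem_sdiff] at hj ⊢
    omega
  rw [B2, card_sdiff_of_subset h1, card_sdiff_of_subset h2]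
  simp only [K1p, K2, Nat.card_Ico, r2, k1, k2]
  omega

theorem card_C (N p : ℕ) :
    2 * (B2 N p).card + ((K1 N p).card + (Virt N p).card) = r2 N p + r12 N p := by
  rw [card_B2]
  simp only [K1, Virt, Nat.card_Ico, r2, r12, k1, k2]
  omega

theorem norm_p_inv : ‖((p : ℚ_[p]))⁻¹‖ = p := by
  rw [norm_inv, Padic.norm_p, inv_inv]

theorem p_ne : (p : ℚ_[p]) ≠ 0 := Nat.cast_ne_zero.2 hp.out.ne_zero

/-- `p * z ≡ 0` means that `z` is integral. -/
theorem norm_le_of_red {z : ℚ} (h : Red p (p * z) 0) : ‖(z : ℚ_[p])‖ ≤ 1 := by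
  have hp0 : (p : ℚ) ≠ 0 := Nat.cast_ne_zero.2 hp.out.ne_zero
  have := h.div_p
  rw [mul_div_cancel_left₀ _ hp0] at this
  exact not_dvd_den_iff_norm.1 this

theorem norm_le_p {z : ℚ_[p]} (h : ‖(p : ℚ_[p]) * z‖ ≤ 1) : ‖z‖ ≤ (p : ℝ) ^ 1 := by
  have hp1 : (0 : ℝ) < p := Nat.cast_pos.2 hp.out.pos
  rwa [norm_mul, Padic.norm_p, inv_mul_le_iff₀ hp1, mul_one, ← pow_one (p : ℝ)] at h

/-- the facts about the columns that the argument uses. -/
structure Facts (p : ℕ) [Fact p.Prime] (N : ℕ) {n : Type} (W : ℕ → n → ℚ) (y : ℕ → n → ZMod p) :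
    Prop where
  h1 : ∀ j r, j < 49 * N → ¬ p ∣ ((p : ℚ) ^ 2 * W j r).den
  h2 : ∀ l r, l < p → 49 * N ≤ l + 2 * p → Red p (p ^ 2 * W l r) (y l r)
  h3 : ∀ l r, l < p → 49 * N ≤ l + 2 * p → l < 14 * N → Red p (p ^ 2 * W (l + p) r) (-y l r)
  h4 : ∀ l r, 49 * N ≤ l + p → y l r = 0
  h5 : ∀ j r, j < p → 49 * N ≤ j + p →
    Red p (p * W j r) (∑ l ∈ range (49 * N - p), y l r / ((l : ZMod p) - j))

section Cases

variable {N : ℕ} {n : Type} {W : ℕ → n → ℚ} {y : ℕ → n → ZMod p}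

theorem Facts.n1 (F : Facts p N W y) {j : ℕ} (hj : j < 49 * N) (r : n) :
    ‖(p : ℚ_[p]) ^ 2 * (W j r : ℚ_[p])‖ ≤ 1 := by
  have := not_dvd_den_iff_norm.1 (F.h1 j r hj)
  push_cast at this
  exact this

theorem Facts.nK1 (F : Facts p N W y) (hN : 14 * N ≤ p) {l : ℕ} (hl : l ∈ K1 N p) (r : n) :
    ‖(p : ℚ_[p]) * ((W l r : ℚ_[p]) + W (l + p) r)‖ ≤ 1 := by
  simp only [K1, mem_Ico] at hl
  have h := (F.h2 l r (by omega) (by omega)).add (F.h3 l r (by omega) (by omega) (by omega))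
  have := norm_le_of_red (z := p * (W l r + W (l + p) r)) (h.congr (by ring) (by ring))
  push_cast at this
  exact this

theorem Facts.nK2 (F : Facts p N W y) {j : ℕ} (hj : j ∈ K2 N p) (r : n) :
    ‖(p : ℚ_[p]) * (W j r : ℚ_[p])‖ ≤ 1 := by
  simp only [K2, mem_Ico] at hj
  have h := F.h2 j r (by omega) (by omega)
  have := norm_le_of_red (z := p * W j r) (h.congr (by ring) (F.h4 j r (by omega)))
  push_cast at this
  exact this

theorem caseA (F : Facts p N W y) {j : ℕ} (hj : j ∈ Ico (6 * N) (44 * N)) :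
    In 2 (∅ : Finset ℕ) (fun _ _ => 0) (fun _ => 0) (fun r => (W j r : ℚ_[p])) := by
  simp only [mem_Ico] at hj
  exact In.small fun r => (Red.self (F.h1 j r (by omega))).norm_le_pow

theorem norm_p_inv_sq : ‖((p : ℚ_[p]) ^ 2)⁻¹‖ = (p : ℝ) ^ 2 := by
  rw [← inv_pow, norm_pow, norm_p_inv]

theorem caseB (F : Facts p N W y) (hN : 14 * N ≤ p) {j : ℕ} (hj : j ∈ Ico (6 * N) (44 * N)) :
    In 1 (B2 N p) (fun j r => (p : ℚ_[p]) ^ 2 * (W j r : ℚ_[p])) (fun _ => 1)
      (fun r => (W j r : ℚ_[p])) := by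
  have key : ∀ j ∈ Ico (6 * N) (44 * N), j ∉ K1p N p →
      In 1 (B2 N p) (fun j r => (p : ℚ_[p]) ^ 2 * (W j r : ℚ_[p])) (fun _ => 1)
        (fun r => (W j r : ℚ_[p])) := by
    intro j hj h1
    by_cases h2 : j ∈ K2 N p
    · exact In.small fun r => norm_le_p (F.nK2 h2 r)
    · refine In.basis (s := j) (c := ((p : ℚ_[p]) ^ 2)⁻¹) ?_ norm_p_inv_sq.le fun r => ?_
      · simp only [B2, mem_sdiff]
        exact ⟨⟨hj, h2⟩, h1⟩
      · have := p_ne (p := p)
        field_simp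
  by_cases h1 : j ∈ K1p N p
  · simp only [K1p, mem_Ico] at h1
    obtain ⟨l, rfl⟩ : ∃ l, j = l + p := ⟨j - p, by omega⟩
    have hl : l ∈ K1 N p := by
      simp only [K1, mem_Ico]; omega
    have h := key l (by simp only [mem_Ico]; omega) (by simp only [K1p, mem_Ico]; omega)
    exact ((In.small fun r => norm_le_p (F.nK1 hN hl r)).sub h).congr fun r => by ring
  · exact key j hj h1

/-- the pool of the third case. -/
noncomputable def vC (p : ℕ) [Fact p.Prime] (W : ℕ → n → ℚ) : ℕ ⊕ ℕ ⊕ ℕ → n → ℚ_[p] :=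
  Sum.elim (fun j r => (p : ℚ_[p]) ^ 2 * (W j r : ℚ_[p]))
    (Sum.elim (fun l r => (p : ℚ_[p]) * ((W l r : ℚ_[p]) + W (l + p) r))
      (fun j r => (p : ℚ_[p]) ^ 2 * (W j r : ℚ_[p])))

def eC : ℕ ⊕ ℕ ⊕ ℕ → ℕ := Sum.elim (fun _ => 2) (fun _ => 1)

def SC (N p : ℕ) : Finset (ℕ ⊕ ℕ ⊕ ℕ) := (B2 N p).disjSum ((K1 N p).disjSum (Virt N p))

theorem caseC_aux (F : Facts p N W y) (hN : 51 * N < 2 * p) {l : ℕ} (hl : l < 49 * N - p) :
    ∃ z : n → ℚ, (∀ r, Red p (z r) (y l r)) ∧
      In 0 (SC N p) (vC p W) eC (fun r => (p : ℚ_[p])⁻¹ * (z r : ℚ_[p])) := by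
  have hp1 : (1 : ℝ) ≤ p := by exact_mod_cast hp.out.one_le
  have hp2 : ‖((p : ℚ_[p]))⁻¹‖ ≤ (p : ℝ) ^ (0 + 2) := by
    rw [norm_p_inv]
    exact le_self_pow₀ hp1 (by norm_num)
  by_cases h6 : 6 * N ≤ l
  · refine ⟨fun r => p ^ 2 * W l r, fun r => F.h2 l r (by omega) (by omega), ?_⟩
    refine In.basis (s := Sum.inl l) (c := (p : ℚ_[p])⁻¹) ?_ hp2 fun r => by simp [vC]
    simp only [SC, inl_mem_disjSum, B2, K2, K1p, mem_sdiff, mem_Ico]
    omega
  by_cases h44 : 44 * N - p ≤ l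
  · refine ⟨fun r => p ^ 2 * W l r, fun r => F.h2 l r (by omega) (by omega), ?_⟩
    refine In.basis (s := Sum.inr (Sum.inr l)) (c := (p : ℚ_[p])⁻¹) ?_
      (by simp [eC]) fun r => by simp [vC]
    simp only [SC, inr_mem_disjSum, Virt, mem_Ico]
    omega
  · refine ⟨fun r => -(p ^ 2 * W (l + p) r), fun r =>
      (F.h3 l r (by omega) (by omega) (by omega)).neg.congr_right (neg_neg _), ?_⟩
    refine In.basis (s := Sum.inl (l + p)) (c := -(p : ℚ_[p])⁻¹) ?_ (by rwa [norm_neg])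
      fun r => by simp [vC]
    simp only [SC, inl_mem_disjSum, B2, K2, K1p, mem_sdiff, mem_Ico]
    omega

theorem caseC_K2 (F : Facts p N W y) (hN : 51 * N < 2 * p) {j : ℕ} (hj : j ∈ K2 N p) :
    In 0 (SC N p) (vC p W) eC (fun r => (W j r : ℚ_[p])) := by
  simp only [K2, mem_Ico] at hj
  choose! z hz1 hz2 using fun l (hl : l < 49 * N - p) => caseC_aux F hN hl
  have hc : ∀ l ∈ range (49 * N - p), Red p (((l : ℚ) - j)⁻¹) (((l : ZMod p) - j)⁻¹) := by
    intro l hl
    rw [mem_range] at hl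
    refine ((Red.natCast l).sub (Red.natCast j)).inv ?_
    have := natCast_ne_zero_of_lt (p := p) (k := j - l) (by omega) (by omega)
    rw [Nat.cast_sub (by omega)] at this
    intro h
    apply this
    linear_combination -h
  have h := In.sum (T := range (49 * N - p)) fun l hl =>
    (hz2 l (mem_range.1 hl)).smul (hc l hl).norm_le_one
  refine h.near fun r => ?_
  have h5 := (F.h5 j r (by omega) (by omega)).sub
    (Red.sum (s := range (49 * N - p)) fun l hl => (hc l hl).mul (hz1 l (mem_range.1 hl) r))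
  have hp0 : (p : ℚ) ≠ 0 := Nat.cast_ne_zero.2 hp.out.ne_zero
  have := norm_le_of_red (z := W j r - ∑ l ∈ range (49 * N - p), ((l : ℚ) - j)⁻¹ * ((p : ℚ)⁻¹ * z l r))
    (h5.congr ?_ ?_)
  · push_cast at this ⊢
    simpa using this
  · rw [mul_sub, mul_sum]
    congr 1
    refine sum_congr rfl fun l _ => ?_
    field_simp
  · rw [sub_eq_zero]
    exact sum_congr rfl fun l _ => by rw [div_eq_mul_inv, mul_comm]

theorem caseC (F : Facts p N W y) (hN : 51 * N < 2 * p) {j : ℕ} (hj : j ∈ Ico (6 * N) (44 * N)) :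
    In 0 (SC N p) (vC p W) eC (fun r => (W j r : ℚ_[p])) := by
  have key : ∀ j ∈ Ico (6 * N) (44 * N), j ∉ K1p N p →
      In 0 (SC N p) (vC p W) eC (fun r => (W j r : ℚ_[p])) := by
    intro j hj h1
    by_cases h2 : j ∈ K2 N p
    · exact caseC_K2 F hN h2
    · refine In.basis (s := Sum.inl j) (c := ((p : ℚ_[p]) ^ 2)⁻¹) ?_ norm_p_inv_sq.le fun r => ?_
      · simp only [SC, inl_mem_disjSum, B2, mem_sdiff]
        exact ⟨⟨hj, h2⟩, h1⟩
      · have := p_ne (p := p)
        simp only [vC, Sum.elim_inl]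
        field_simp
  by_cases h1 : j ∈ K1p N p
  · simp only [K1p, mem_Ico] at h1
    obtain ⟨l, rfl⟩ : ∃ l, j = l + p := ⟨j - p, by omega⟩
    have hl : l ∈ K1 N p := by
      simp only [K1, mem_Ico]; omega
    have h := key l (by simp only [mem_Ico]; omega) (by simp only [K1p, mem_Ico]; omega)
    have h' : In 0 (SC N p) (vC p W) eC (fun r => (W l r : ℚ_[p]) + W (l + p) r) := by
      refine In.basis (s := Sum.inr (Sum.inl l)) (c := (p : ℚ_[p])⁻¹) ?_
        (by simp [eC]) fun r => ?_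
      · simpa only [SC, inr_mem_disjSum, inl_mem_disjSum] using hl
      · have := p_ne (p := p)
        simp only [vC, Sum.elim_inl, Sum.elim_inr]
        field_simp
    exact (h'.sub h).congr fun r => by ring
  · exact key j hj h1

theorem vC_int (F : Facts p N W y) (hN : 51 * N < 2 * p) :
    ∀ s ∈ SC N p, ∀ r, ‖vC p W s r‖ ≤ 1 := by
  rintro (j | l | j) hs r
  · simp only [SC, inl_mem_disjSum, B2, mem_sdiff, mem_Ico] at hs
    exact F.n1 (by omega) r
  · simp only [SC, inr_mem_disjSum, inl_mem_disjSum] at hs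
    exact F.nK1 (by omega) hs r
  · simp only [SC, inr_mem_disjSum, Virt, mem_Ico] at hs
    exact F.n1 (by omega) r

end Cases

/-! ### The facts -/

theorem M00 : M0 0 0 = 0 := by simp [M0_zero, tA_zero_succ, rowA]
theorem M10 : M0 1 0 = 0 := by simp [M0_succ, tA_zero_right, colA]
theorem M20 : M0 2 0 = 1 := by simp [M0_succ, tA_zero_right, colA, sum_range_succ]
theorem M11 : M0 1 1 = 0 := by simp [M0_succ, tA_zero_succ, rowA]
theorem M21 : M0 2 1 = -1 := by simp [M0_succ, tA_succ_succ, tA_zero_right, colA, al]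
theorem Z00 : tZ 0 0 = 0 := by simp [tZ_zero_right]
theorem Z10 : tZ 1 0 = 1 := by simp [tZ_zero_right]
theorem Z11 : tZ 1 1 = -1 := by simp [tZ_succ_succ, tZ_zero_right]

theorem coeff_hi (hp2 : p ≠ 2) {P : ℤ[X]} {m i : ℕ} (hP : P.natDegree < m) (hi : m + p ≤ i) :
    (X * rp p P * gp p).coeff i = 0 := by
  apply coeff_eq_zero_of_natDegree_lt
  have h1 : (rp p P).natDegree ≤ P.natDegree := natDegree_map_le
  have h2 : (gp p).natDegree ≤ p / 2 * 2 := by
    refine natDegree_pow_le.trans (Nat.mul_le_mul_left _ ?_)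
    compute_degree
  have h3 : (X * rp p P * gp p).natDegree ≤ 1 + (rp p P).natDegree + (gp p).natDegree :=
    natDegree_mul_le.trans (Nat.add_le_add_right
      (natDegree_mul_le.trans (Nat.add_le_add_right natDegree_X_le _)) _)
  have h4 := hp.out.eq_two_or_odd
  omega

theorem coeff_hi' {D : ℤ[X]} {m i : ℕ} (hD : D.natDegree < m) (hi : m ≤ i) :
    (rp p D).coeff i = 0 := by
  apply coeff_eq_zero_of_natDegree_lt
  have h1 : (rp p D).natDegree ≤ D.natDegree := natDegree_map_le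
  omega

theorem rp_dvd {D : ℤ[X]} {m : ℕ} (hD : X ^ m ∣ D) : X ^ m ∣ rp p D := by
  simpa [rp] using Polynomial.map_dvd (Int.castRingHom (ZMod p)) hD

theorem coeff_lo {P : ℤ[X]} {m i : ℕ} (hP : X ^ m ∣ X * P) (hi : i < m) :
    (X * rp p P * gp p).coeff i = 0 := by
  have h : X ^ m ∣ X * rp p P := by simpa [rp] using rp_dvd (p := p) hP
  exact X_pow_dvd_iff.1 (h.mul_right _) i hi

theorem coeff_lo' {D : ℤ[X]} {m i : ℕ} (hD : X ^ m ∣ D) (hi : i < m) : (rp p D).coeff i = 0 :=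
  X_pow_dvd_iff.1 (rp_dvd hD) i hi

theorem facts (hC : ContrStmt) {x : ℚ} {N : ℕ} (hN : 10 ≤ N) (hNp : 100 * N < p ^ 2)
    (hx : ¬ p ∣ x.den) {n : Type} (P D : n → ℤ[X]) (hP : ∀ r, (P r).natDegree < 49 * N)
    (hD : ∀ r, (D r).natDegree < 49 * N) (hP' : ∀ r, X ^ (14 * N) ∣ X * P r)
    (hD' : ∀ r, X ^ (14 * N) ∣ D r) :
    Facts p N (fun j r => V x (P r) (D r) j) (fun l r =>
      (X * rp p (P r) * gp p).coeff (2 * p + l) - 3 / 4 * (rp p (D r)).coeff (p + l)) := by
  have hp31 : 31 < p := by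
    by_contra h
    have : p ^ 2 ≤ 31 ^ 2 := Nat.pow_le_pow_left (by omega) 2
    omega
  have hp2 : p ≠ 2 := by omega
  have hq : 49 * N / p + 2 < p := by
    have h1 : 49 * N / p * p ≤ 49 * N := Nat.div_mul_le_self _ _
    have h2 : 100 * (49 * N / p) * p < 49 * p * p := by nlinarith
    have h3 := Nat.lt_of_mul_lt_mul_right h2
    omega
  have hC' := fun r j => hC p hp2 x hx (P r) (D r) (49 * N) j (hP r) (hD r)
  refine ⟨fun j r hj => ?_, fun l r hl hl2 => ?_, fun l r hl hl2 hl3 => ?_, fun l r hl => ?_,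
    fun j r hj hj2 => (hC' r j).2 hj hj2⟩
  · have : j / p ≤ 49 * N / p := Nat.div_le_div_right hj.le
    exact ((hC' r j).1 (49 * N + 1) hq (by omega) (by nlinarith)).1
  · have e1 : l / p = 0 := Nat.div_eq_of_lt hl
    have e2 : l % p = l := Nat.mod_eq_of_lt hl
    refine ((hC' r l).1 4 hq (by omega) (by omega)).congr_right ?_
    simp only [e1, e2, sum_range_succ, sum_range_zero, M00, M10, M20, Z00, Z10]
    rw [coeff_hi hp2 (hP r) (i := p * 3 + l) (by omega), coeff_hi' (hD r) (i := p * 2 + l) (by omega),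
      coeff_hi' (hD r) (i := p * 3 + l) (by omega), mul_comm p 2, mul_one p]
    simp
    ring
  · have e1 : (l + p) / p = 1 := by
      rw [Nat.add_div_right _ hp.out.pos, Nat.div_eq_of_lt hl]
    have e2 : (l + p) % p = l := by rw [Nat.add_mod_right, Nat.mod_eq_of_lt hl]
    refine ((hC' r (l + p)).1 4 hq (by omega) (by omega)).congr_right ?_
    simp only [e1, e2, sum_range_succ, sum_range_zero, M11, M21, Z11]
    rw [coeff_hi hp2 (hP r) (i := p * 3 + l) (by omega), coeff_hi' (hD r) (i := p * 2 + l) (by omega),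
      coeff_hi' (hD r) (i := p * 3 + l) (by omega), coeff_lo (hP' r) (i := p * 0 + l) (by omega),
      coeff_lo' (hD' r) (i := p * 0 + l) (by omega), mul_comm p 2, mul_one p]
    simp
    ring
  · rw [coeff_hi hp2 (hP r) (i := 2 * p + l) (by omega), coeff_hi' (hD r) (i := p + l) (by omega)]
    simp

theorem col_in {x : ℚ} {N : ℕ} {σ : Type} {a : ℕ} {S : Finset σ} {v : σ → Fin (36 * N) → ℚ_[p]}
    {e : σ → ℕ}
    (h : ∀ j ∈ Ico (6 * N) (44 * N), In a S v e fun r : Fin (36 * N) =>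
      (V x (rowP (47 * N) (2 * N) ((r : ℕ) - 3 * N)) (rowD (47 * N) (2 * N) ((r : ℕ) - 3 * N)) j :
        ℚ_[p])) (k : Fin (36 * N)) :
    In a S v e fun r => ((mat x N r k : ℚ) : ℚ_[p]) := by
  have hk := k.2
  have hd : (colQ N k).natDegree < 44 * N := by
    have h1 : (colQ N k).natDegree ≤ (6 * N + k) + 2 * N * 1 := by
      refine natDegree_mul_le.trans (add_le_add (natDegree_X_pow_le _) ?_)
      refine natDegree_pow_le.trans (Nat.mul_le_mul_left _ ?_)
      compute_degree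
    omega
  refine In.congr (In.sum (T := range (44 * N))
    (u := fun j (r : Fin (36 * N)) => (((colQ N k).coeff j : ℤ) : ℚ_[p]) *
    (V x (rowP (47 * N) (2 * N) ((r : ℕ) - 3 * N)) (rowD (47 * N) (2 * N) ((r : ℕ) - 3 * N)) j :
        ℚ_[p])) fun j hj => ?_) fun r => ?_
  · by_cases h6 : 6 * N ≤ j
    · exact (h j (mem_Ico.2 ⟨h6, mem_range.1 hj⟩)).smul (Padic.norm_int_le_one _)
    · have : (colQ N k).coeff j = 0 :=
        X_pow_dvd_iff.1 (dvd_mul_right (X ^ (6 * N + k)) _) j (by omega)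
      exact In.small fun r => by simp [this]
  · simp only [mat, ent, Matrix.of_apply, lin_eq_range _ _ hd]
    push_cast
    rfl

end OddBig

open OddBig in
theorem oddBig : RowStmt → PoolStmt → ContrStmt → OddBigStmt := by
  intro hR hP hC x N p hp hN hNp hx
  have hu : ∀ r : Fin (36 * N), (((r : ℕ) : ℤ) - 3 * N).natAbs ≤ 33 * N := by
    intro r
    have := r.2
    omega
  have hrow := fun r : Fin (36 * N) =>
    hR (47 * N) (2 * N) (((r : ℕ) : ℤ) - 3 * N) (by have := hu r; omega)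
  have F := facts (p := p) hC hN hNp hx
    (fun r : Fin (36 * N) => rowP (47 * N) (2 * N) ((r : ℕ) - 3 * N))
    (fun r : Fin (36 * N) => rowD (47 * N) (2 * N) ((r : ℕ) - 3 * N))
    (fun r => by have := (hrow r).1; omega) (fun r => by have := (hrow r).2.1; omega)
    (fun r => (pow_dvd_pow X (by have := hu r; omega)).trans (hrow r).2.2.1)
    (fun r => (pow_dvd_pow X (by have := hu r; omega)).trans (hrow r).2.2.2.1)
  have hdet : (((mat x N).det : ℚ) : ℚ_[p]) =
      ((mat x N).map fun q => (q : ℚ_[p])).det := (Rat.castHom ℚ_[p]).map_det _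
  rw [hdet, eodd]
  split_ifs with h1 h2
  · refine (pool_bound hP _ (by simp) (col_in fun j hj => caseA F hj)).trans (le_of_eq ?_)
    congr 1
    simp only [Fintype.card_fin, sum_empty]
    ring
  · refine (pool_bound hP _ (fun j hj r => F.n1 ?_ r)
      (col_in fun j hj => caseB F (by omega) hj)).trans (le_of_eq ?_)
    · simp only [B2, mem_sdiff, mem_Ico] at hj
      omega
    · congr 1
      simp [card_B2]
  · refine (pool_bound hP _ (vC_int F (by omega))
      (col_in fun j hj => caseC F (by omega) hj)).trans (le_of_eq ?_)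
    congr 1
    rw [← card_C]
    simp [SC, eC, sum_disjSum, mul_comm]

end Crest.Agent.R6
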