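import Crest.Agent.R6.Defs

/-! Row 6: the pointwise bound of the integrand and the real bound. -/

set_option autoImplicit false

namespace Crest.Agent.R6

open Polynomial Finset Filter Topology MeasureTheory

namespace Point

theorem prod_eq_exp {ι : Type} (s : Finset ι) (f : ι → ℝ) (h : ∀ i ∈ s, 0 < f i) :
    ∏ i ∈ s, f i = Real.exp (∑ i ∈ s, Real.log (f i)) := by
  rw [Real.exp_sum]
  exact Finset.prod_congr rfl fun i hi => (Real.exp_log (h i hi)).symm

theorem prod2_eq_exp {ι : Type} [Fintype ι] (t : ι → Finset ι) (f : ι → ι → ℝ)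
    (h : ∀ i, ∀ j ∈ t i, 0 < f i j) :
    ∏ i, ∏ j ∈ t i, f i j = Real.exp (∑ i, ∑ j ∈ t i, Real.log (f i j)) := by
  rw [Real.exp_sum]
  exact Finset.prod_congr rfl fun i _ => prod_eq_exp _ _ (h i)

theorem vand_eq_exp {n : ℕ} {x : Fin n → ℝ} (hx : Function.Injective x) :
    vand x = Real.exp (∑ i, ∑ j ∈ Ioi i, Real.log |x i - x j|) :=
  prod2_eq_exp _ _ fun _ _ hj => abs_pos.2 (sub_ne_zero.2 (hx.ne (mem_Ioi.1 hj).ne))

theorem sum_card_Ioi (n : ℕ) : ∑ i : Fin n, ((Ioi i).card : ℝ) ≤ (n : ℝ) ^ 2 / 2 := by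
  have h1 : ∑ i : Fin n, (Ioi i).card = ∑ i ∈ range n, i := by
    simp only [Fin.card_Ioi]
    rw [Fin.sum_univ_eq_sum_range (fun i => n - 1 - i) n, Finset.sum_range_reflect (fun i => i) n]
  have h2 : (∑ i : Fin n, (Ioi i).card) * 2 ≤ n ^ 2 := by
    rw [h1, Finset.sum_range_id_mul_two, sq]
    exact Nat.mul_le_mul_left _ (Nat.sub_le _ _)
  have h3 : ((∑ i : Fin n, (Ioi i).card : ℕ) : ℝ) * 2 ≤ (n : ℝ) ^ 2 := by exact_mod_cast h2
  push_cast at h3
  linarith

theorem weight_eq_exp (N : ℕ) {x : ℝ} (hx : x ∈ Set.Ioo (-1 : ℝ) 1) (h0 : x ≠ 0) :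
    |tt x ^ (47 * N) * (1 - tt x) ^ (2 * N)| = Real.exp (N * (47 * Real.log |x| + 47 * Real.log 2
      - 49 * Real.log (1 + x ^ 2) + 4 * Real.log (1 - x))) := by
  have h1 : 0 < 1 + x ^ 2 := by positivity
  have h2 : 0 < 1 - x := sub_pos.2 hx.2
  have h3 : 0 < |x| := abs_pos.2 h0
  have e1 : |tt x| = Real.exp (Real.log 2 + Real.log |x| - Real.log (1 + x ^ 2)) := by
    rw [Real.exp_sub, Real.exp_add, Real.exp_log h1, Real.exp_log h3, Real.exp_log two_pos, tt,
      abs_div, abs_mul, abs_two, abs_of_pos h1]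
  have e2 : |1 - tt x| = Real.exp (((2 : ℕ) : ℝ) * Real.log (1 - x) - Real.log (1 + x ^ 2)) := by
    rw [Real.exp_sub, Real.exp_nat_mul, Real.exp_log h1, Real.exp_log h2]
    have : 1 - tt x = (1 - x) ^ 2 / (1 + x ^ 2) := by
      unfold tt
      field_simp
      ring
    rw [this, abs_of_pos (by positivity)]
  rw [abs_mul, abs_pow, abs_pow, e1, e2, ← Real.exp_nat_mul, ← Real.exp_nat_mul, ← Real.exp_add]
  congr 1
  push_cast
  ring

theorem det_row (N : ℕ) {x : Fin (36 * N) → ℝ} (hx : ∀ i, x i ∈ Set.Ioo (-1 : ℝ) 1)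
    (h0 : ∀ i, x i ≠ 0) :
    |(Matrix.of fun (r i : Fin (36 * N)) =>
        rowF (47 * N) (2 * N) ((r : ℕ) - 3 * N) (x i)).det| =
      Real.exp (N * ∑ i, (47 * Real.log |x i| + 47 * Real.log 2
        - 49 * Real.log (1 + x i ^ 2) + 4 * Real.log (1 - x i))) *
      |(Matrix.of fun (r i : Fin (36 * N)) =>
        wa (x i) * x i ^ (((r : ℕ) : ℤ) - (3 * N : ℕ)) +
          wb (x i) * x i ^ (-(((r : ℕ) : ℤ) - (3 * N : ℕ)))).det| := by
  have := Matrix.det_mul_row (fun i => tt (x i) ^ (47 * N) * (1 - tt (x i)) ^ (2 * N))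
    (Matrix.of fun (r i : Fin (36 * N)) =>
      wa (x i) * x i ^ (((r : ℕ) : ℤ) - (3 * N : ℕ)) +
        wb (x i) * x i ^ (-(((r : ℕ) : ℤ) - (3 * N : ℕ))))
  refine (congrArg abs (Eq.trans ?_ this)).trans ?_
  · congr 1
  · rw [abs_mul, Finset.abs_prod, Finset.mul_sum, Real.exp_sum]
    congr 1
    exact Finset.prod_congr rfl fun i _ => weight_eq_exp N (hx i) (h0 i)

theorem det_col (N : ℕ) {s : Fin (36 * N) → ℝ} (hs : ∀ j, s j ∈ Set.Ioo (0 : ℝ) 1) :
    |(Matrix.of fun (k j : Fin (36 * N)) => colF N k (s j)).det| =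
      Real.exp (N * ∑ j, (6 * Real.log (s j) + 2 * Real.log (1 - s j))) * vand s := by
  have := Matrix.det_mul_row (fun j => s j ^ (6 * N) * (1 - s j) ^ (2 * N))
    (Matrix.vandermonde s).transpose
  refine (congrArg abs (Eq.trans ?_ this)).trans ?_
  · congr 1
    ext k j
    simp only [Matrix.of_apply, Matrix.transpose_apply, Matrix.vandermonde_apply, colF]
    ring
  · rw [abs_mul, Finset.abs_prod, Finset.mul_sum, Real.exp_sum, Matrix.det_transpose,
      Matrix.det_vandermonde, Finset.abs_prod]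
    congr 1
    · refine Finset.prod_congr rfl fun j _ => ?_
      have h1 := (hs j).1
      have h2 : 0 < 1 - s j := sub_pos.2 (hs j).2
      rw [abs_of_pos (by positivity), ← Real.exp_log (show 0 < s j ^ (6 * N) * (1 - s j) ^ (2 * N)
        by positivity), Real.log_mul (by positivity) (by positivity), Real.log_pow, Real.log_pow]
      congr 1
      push_cast
      ring
    · refine Finset.prod_congr rfl fun i _ => ?_
      rw [Finset.abs_prod]
      exact Finset.prod_congr rfl fun j _ => abs_sub_comm _ _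

theorem det_ker (hC : CauchyStmt) {n : ℕ} {x s : Fin n → ℝ} (hx : ∀ i, x i ∈ Set.Ioo (-1 : ℝ) 1)
    (hs : ∀ j, s j ∈ Set.Ioo (0 : ℝ) 1) :
    |(Matrix.of fun i j => ker (x i) (s j)).det| ≤
      Real.exp (n * Real.log 2 + (n : ℝ) ^ 2 / 2 * Real.log 2 +
        ∑ i, ∑ j ∈ Ioi i, Real.log (1 - x i * x j)
        - ∑ i, ∑ j, Real.log (1 + x i ^ 2 - 2 * x i * s j)) * vand x * vand s := by
  have h1 : ∀ i j, 0 < 1 - x i * x j := fun i j => by
    nlinarith [(hx i).1, (hx i).2, (hx j).1, (hx j).2]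
  have h2 : ∀ i j, 0 < 1 + x i ^ 2 - 2 * x i * s j := fun i j => by
    nlinarith [(hs j).1, (hs j).2, sq_nonneg (x i - s j)]
  have hv : ∀ y : Fin n → ℝ, 0 ≤ vand y := fun y =>
    Finset.prod_nonneg fun _ _ => Finset.prod_nonneg fun _ _ => abs_nonneg _
  have h3 : ∑ i, ∑ j ∈ Ioi i, Real.log (2 * (1 - x i * x j)) ≤
      (n : ℝ) ^ 2 / 2 * Real.log 2 + ∑ i, ∑ j ∈ Ioi i, Real.log (1 - x i * x j) := by
    have e : ∑ i, ∑ j ∈ Ioi i, Real.log (2 * (1 - x i * x j)) =
        (∑ i : Fin n, ((Ioi i).card : ℝ)) * Real.log 2 +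
          ∑ i, ∑ j ∈ Ioi i, Real.log (1 - x i * x j) := by
      rw [Finset.sum_mul, ← Finset.sum_add_distrib]
      refine Finset.sum_congr rfl fun i _ => ?_
      rw [← nsmul_eq_mul, ← Finset.sum_const, ← Finset.sum_add_distrib]
      exact Finset.sum_congr rfl fun j _ => Real.log_mul two_ne_zero (h1 i j).ne'
    rw [e]
    have := mul_le_mul_of_nonneg_right (sum_card_Ioi n) (Real.log_nonneg one_le_two)
    linarith
  rw [hC n x s hx hs, prod2_eq_exp _ _ fun i j _ => mul_pos two_pos (h1 i j),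
    prod2_eq_exp (fun _ => univ) _ fun i j _ => h2 i j]
  have e2 : (2 : ℝ) ^ n = Real.exp (n * Real.log 2) := by
    rw [Real.exp_nat_mul, Real.exp_log two_pos]
  rw [e2, mul_assoc, mul_div_right_comm, ← Real.exp_add, ← Real.exp_sub, mul_assoc]
  refine mul_le_mul_of_nonneg_right (Real.exp_le_exp.2 ?_) (mul_nonneg (hv x) (hv s))
  linarith

theorem core (hA : EnergyAStmt) (hB : EnergyBStmt) {a m c₀ : ℝ} (hc : Cert a m c₀) :
    ∀ᶠ N : ℕ in atTop, ∀ x s : Fin (36 * N) → ℝ, (∀ i, x i ∈ Set.Ioo (-1 : ℝ) 1) →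
      (∀ j, s j ∈ Set.Ioo (0 : ℝ) 1) → (∀ i, x i ≠ 0) → Function.Injective x →
      Function.Injective s →
      N * ∑ i, (a * Real.log |x i| + 47 * Real.log 2 - m * Real.log (1 + x i ^ 2)
          + 4 * Real.log (1 - x i))
        + N * ∑ j, (6 * Real.log (s j) + 2 * Real.log (1 - s j))
        + 2 * ∑ i, ∑ j ∈ Ioi i, Real.log |x i - x j|
        + (∑ i, ∑ j ∈ Ioi i, Real.log (1 - x i * x j)
          + 2 * ∑ i, ∑ j ∈ Ioi i, Real.log |s i - s j|
          - ∑ i, ∑ j, Real.log (1 + x i ^ 2 - 2 * x i * s j))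
        + 648 * (N : ℝ) ^ 2 * Real.log 2 + c₀ * (N : ℝ) ^ 2 + 300 * N ≤
        -(25056 / 10) * (N : ℝ) ^ 2 := by
  obtain ⟨K, L, γ, y, η, z, v, w, hy, hz, h1, h2, h3⟩ := hc
  obtain ⟨CA, hCA⟩ := hA K γ y hy (1 / 10000) (by norm_num)
  obtain ⟨CB, hCB⟩ := hB L η z hz (1 / 10000) (by norm_num)
  filter_upwards [eventually_ge_atTop 1024, tendsto_natCast_atTop_atTop.eventually_ge_atTop
    (10 * (36 * CA + 36 * CB + 300))] with N hN hN' x s hx hs h0 hxi hsi
  have hN1 : (1024 : ℝ) ≤ N := by exact_mod_cast hN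
  have a1 := hCA _ x hxi fun i => abs_le.2 ⟨(hx i).1.le, (hx i).2.le⟩
  have a2 := hCB _ x s hx hsi hs
  have b1 := Finset.sum_le_sum fun i (_ : i ∈ univ) => h1 (x i) (hx i) (h0 i)
  have b2 := Finset.sum_le_sum fun j (_ : j ∈ univ) => h2 (s j) (hs j)
  have c1 : ∑ i, Real.log ((1 - x i) / 2) ≤ 0 := Finset.sum_nonpos fun i _ =>
    Real.log_nonpos (by linarith [(hx i).2]) (by linarith [(hx i).1])
  have c2 : ∑ j, Real.log (1 - s j) ≤ 0 := Finset.sum_nonpos fun j _ =>
    Real.log_nonpos (by linarith [(hs j).2]) (by linarith [(hs j).1])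
  simp only [Finset.sum_add_distrib, Finset.sum_sub_distrib, ← Finset.mul_sum, Finset.sum_const,
    Finset.card_univ, Fintype.card_fin, nsmul_eq_mul] at b1 b2 ⊢
  push_cast at a1 a2 b1 b2 ⊢
  have hN0 : (0 : ℝ) ≤ N := by linarith
  have d1 := mul_le_mul_of_nonneg_left b1 hN0
  have d2 := mul_le_mul_of_nonneg_left b2 hN0
  have d3 := mul_le_mul_of_nonneg_left h3 (sq_nonneg (N : ℝ))
  have d4 := mul_le_mul_of_nonpos_right hN1 c1
  have d5 := mul_le_mul_of_nonpos_right hN1 c2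
  have d6 := mul_le_mul_of_nonneg_left hN' hN0
  have d7 := sq_nonneg (N : ℝ)
  linarith

end Point

open Point

theorem point : CauchyStmt → RowDetStmt → EnergyAStmt → EnergyBStmt → CertStmt → PointStmt := by
  intro hC hR hA hB hc
  filter_upwards [eventually_ge_atTop 1, core hA hB hc.1, core hA hB hc.2] with N hN k1 k2 x s hx hs
  by_cases hxi : Function.Injective x
  swap
  · obtain ⟨i, j, hij, hne⟩ := Function.not_injective_iff.1 hxi
    rw [Matrix.det_zero_of_column_eq hne fun k => by simp only [Matrix.of_apply, hij]]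
    simpa using (Real.exp_pos _).le
  by_cases hsi : Function.Injective s
  swap
  · obtain ⟨i, j, hij, hne⟩ := Function.not_injective_iff.1 hsi
    rw [Matrix.det_zero_of_column_eq (M := Matrix.of fun (k j : Fin (36 * N)) => colF N k (s j))
      hne fun k => by simp only [Matrix.of_apply, hij]]
    simpa using (Real.exp_pos _).le
  by_cases h0 : ∀ i, x i ≠ 0
  swap
  · obtain ⟨i, hi⟩ := not_forall.1 h0
    have hN' : 47 * N ≠ 0 := by omega
    rw [Matrix.det_eq_zero_of_column_eq_zero i fun k => by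
      simp [not_not.1 hi, rowF, tt, hN']]
    simpa using (Real.exp_pos _).le
  have k1 := k1 x s hx hs h0 hxi hsi
  have k2 := k2 x s hx hs h0 hxi hsi
  obtain ⟨r1, r2⟩ := hR (36 * N) (3 * N) x (by omega) hxi hx h0
  have hker := det_ker hC hx hs
  have hN0 : (0 : ℝ) ≤ N := Nat.cast_nonneg N
  have l2 : Real.log 2 ≤ 1 := by linarith [Real.log_le_sub_one_of_pos two_pos]
  have l3 : Real.log 3 ≤ 2 := by linarith [Real.log_le_sub_one_of_pos three_pos]
  have fin : ∀ e : ℕ, |(Matrix.of fun (r i : Fin (36 * N)) =>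
        wa (x i) * x i ^ (((r : ℕ) : ℤ) - (3 * N : ℕ)) +
          wb (x i) * x i ^ (-(((r : ℕ) : ℤ) - (3 * N : ℕ)))).det| ≤
        3 ^ (36 * N) * vand x / ∏ i, |x i| ^ (e * N) →
      N * ∑ i, ((47 - e) * Real.log |x i| + 47 * Real.log 2 - 49 * Real.log (1 + x i ^ 2)
          + 4 * Real.log (1 - x i))
        + N * ∑ j, (6 * Real.log (s j) + 2 * Real.log (1 - s j))
        + 2 * ∑ i, ∑ j ∈ Ioi i, Real.log |x i - x j|
        + (∑ i, ∑ j ∈ Ioi i, Real.log (1 - x i * x j)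
          + 2 * ∑ i, ∑ j ∈ Ioi i, Real.log |s i - s j|
          - ∑ i, ∑ j, Real.log (1 + x i ^ 2 - 2 * x i * s j))
        + 648 * (N : ℝ) ^ 2 * Real.log 2 + 108 * N ≤ -(25056 / 10) * (N : ℝ) ^ 2 →
      |(Matrix.of fun (r i : Fin (36 * N)) =>
          rowF (47 * N) (2 * N) ((r : ℕ) - 3 * N) (x i)).det| *
        |(Matrix.of fun i j => ker (x i) (s j)).det| *
        |(Matrix.of fun (k j : Fin (36 * N)) => colF N k (s j)).det| ≤
        Real.exp (-(25056 / 10) * (N : ℝ) ^ 2) := by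
    intro e he hle
    have e3 : (3 : ℝ) ^ (36 * N) = Real.exp ((36 * N : ℕ) * Real.log 3) := by
      rw [Real.exp_nat_mul, Real.exp_log three_pos]
    rw [e3, prod_eq_exp _ _ fun i _ => pow_pos (abs_pos.2 (h0 i)) _, vand_eq_exp hxi,
      ← Real.exp_add, ← Real.exp_sub] at he
    rw [vand_eq_exp hxi, vand_eq_exp hsi, ← Real.exp_add, ← Real.exp_add] at hker
    rw [det_row N hx h0, det_col N hs, vand_eq_exp hsi, ← Real.exp_add]
    refine (mul_le_mul_of_nonneg_right (mul_le_mul (mul_le_mul_of_nonneg_left he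
      (Real.exp_pos _).le) hker (abs_nonneg _) (by positivity)) (Real.exp_pos _).le).trans ?_
    rw [← Real.exp_add, ← Real.exp_add, ← Real.exp_add, Real.exp_le_exp]
    simp only [Real.log_pow, Finset.sum_add_distrib, Finset.sum_sub_distrib, ← Finset.mul_sum]
      at hle ⊢
    push_cast
    have d1 := mul_le_mul_of_nonneg_left l2 hN0
    have d2 := mul_le_mul_of_nonneg_left l3 hN0
    linarith
  by_cases hcase : 3 / 4 * (2 * ((3 * N : ℕ) : ℝ) + 1) ≤ ∑ i, Real.log (1 + x i ^ 2)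
  · refine fin 33 (by rw [show 33 * N = 36 * N - 3 * N by omega]; exact r1 hcase) ?_
    rw [show (47 : ℝ) - (33 : ℕ) = 14 by norm_num]
    linarith
  · refine fin 39 (by rw [show 39 * N = 36 * N + 3 * N by omega]; exact r2) ?_
    rw [show (47 : ℝ) - (39 : ℕ) = 8 by norm_num]
    have d1 := mul_le_mul_of_nonneg_left (not_le.1 hcase).le hN0
    simp only [Finset.sum_add_distrib, Finset.sum_sub_distrib, ← Finset.mul_sum] at k2 ⊢
    push_cast at d1
    linarith

theorem real : IntegralStmt → AndreiefStmt → PointStmt → RealStmt := by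
  intro hI hA hP x hx
  filter_upwards [eventually_ge_atTop 360, hP] with N hN hp
  have hI' := fun r k : Fin (36 * N) => hI x hx N ((r : ℕ) - 3 * N) k (by omega) (by omega)
    (by have := r.2; omega) k.2
  have key := hA (36 * N) (fun r y => rowF (47 * N) (2 * N) ((r : ℕ) - 3 * N) y)
    (fun k s => colF N k s) ker _ (fun r k => (hI' r k).1) (fun y hy k => (hI' k k).2.1 y hy) hp
  have e : ((mat x N).det : ℝ) = (Matrix.of fun (r k : Fin (36 * N)) =>
      ∫ y in Set.Ioo (-1 : ℝ) 1, rowF (47 * N) (2 * N) ((r : ℕ) - 3 * N) y *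
        ∫ s in Set.Ioo (0 : ℝ) 1, ker y s * colF N k s).det := by
    rw [Rat.cast_det]
    congr 1
    ext r k
    exact (hI' r k).2.2
  rw [e]
  refine key.trans ?_
  have e2 : (2 : ℝ) ^ (36 * N) = Real.exp ((36 * N : ℕ) * Real.log 2) := by
    rw [Real.exp_nat_mul, Real.exp_log two_pos]
  have l2 : Real.log 2 ≤ 1 := by linarith [Real.log_le_sub_one_of_pos two_pos]
  have hN1 : (360 : ℝ) ≤ N := by exact_mod_cast hN
  rw [e2, ← Real.exp_add, Real.exp_le_exp]
  push_cast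
  nlinarith

end Crest.Agent.R6
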