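import Crest.Agent.R6.Defs

/-! Row 6: determinants whose columns are combinations of a weighted pool of integral vectors. -/

set_option autoImplicit false

namespace Crest.Agent.R6

open Finset

namespace Pool

variable {K : Type} [NormedField K] [IsUltrametricDist K] {n : Type} [Fintype n] [DecidableEq n]

theorem norm_det_le_one (A : Matrix n n K) (h : ∀ r c, ‖A r c‖ ≤ 1) : ‖A.det‖ ≤ 1 := by
  rw [Matrix.det_apply']
  refine IsUltrametricDist.norm_sum_le_of_forall_le_of_nonneg zero_le_one fun σ _ => ?_
  rw [norm_mul, norm_prod]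
  exact mul_le_one₀ (IsUltrametricDist.norm_intCast_le_one K _)
    (prod_nonneg fun _ _ => norm_nonneg _) (prod_le_one (fun _ _ => norm_nonneg _) fun _ _ => h _ _)

omit [IsUltrametricDist K] in
theorem det_expand {ι : Type} [Fintype ι] (E : Matrix n n K) (v : ι → n → K) (a : n → ι → K)
    (h : ∀ r c, E r c = ∑ π, a c π * v π r) :
    E.det = ∑ f : n → ι, (∏ c, a c (f c)) * (Matrix.of fun r c => v (f c) r).det := by
  classical
  simp only [Matrix.det_apply', h, prod_univ_sum, mul_sum, Fintype.piFinset_univ, Matrix.of_apply]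
  rw [sum_comm]
  refine sum_congr rfl fun f _ => sum_congr rfl fun σ _ => ?_
  rw [prod_mul_distrib]
  ring

end Pool

theorem pool : PoolStmt := by
  intro K _ _ n ι _ _ _ E v a lam mu hE hv ha hmu hlam
  classical
  have hmu0 : ∀ π, 0 ≤ mu π := fun π => zero_le_one.trans (hmu π)
  have h0 : 0 ≤ (∏ c, lam c) * ∏ π, mu π :=
    mul_nonneg (prod_nonneg fun c _ => hlam c) (prod_nonneg fun π _ => hmu0 π)
  rw [Pool.det_expand E v a hE]
  refine IsUltrametricDist.norm_sum_le_of_forall_le_of_nonneg h0 fun f _ => ?_
  by_cases hf : Function.Injective f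
  · rw [norm_mul, norm_prod]
    refine (mul_le_of_le_one_right (prod_nonneg fun _ _ => norm_nonneg _)
      (Pool.norm_det_le_one _ fun r c => hv _ _)).trans ?_
    refine (prod_le_prod (fun _ _ => norm_nonneg _) fun c _ => ha c (f c)).trans ?_
    rw [prod_mul_distrib]
    refine mul_le_mul_of_nonneg_left ?_ (prod_nonneg fun c _ => hlam c)
    rw [← prod_image (s := univ) (g := f) (f := mu) fun _ _ _ _ e => hf e]
    exact prod_le_prod_of_subset_of_one_le (subset_univ _) (fun π _ => hmu0 π) fun π _ _ => hmu π
  · obtain ⟨c, c', e, hne⟩ := Function.not_injective_iff.1 hf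
    rw [Matrix.det_zero_of_column_eq hne (fun r => by simp [e]), mul_zero, norm_zero]
    exact h0

end Crest.Agent.R6
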