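import Crest.Agent.R6.Defs

/-! Row 6: the calculus of `Red p x y` (`x` is `p`-integral with residue `y`). -/

set_option autoImplicit false

namespace Crest.Agent.R6

open Polynomial Finset

variable {p : ℕ} [hp : Fact p.Prime]

namespace Red

variable {x x' : ℚ} {y y' : ZMod p}

theorem den_ne (h : ¬ p ∣ x.den) : (x.den : ZMod p) ≠ 0 := by
  rwa [Ne, ZMod.natCast_eq_zero_iff]

theorem self (h : ¬ p ∣ x.den) : Red p x x := ⟨h, rfl⟩

theorem int (h : Red p x y) : ¬ p ∣ x.den := h.1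

theorem cast_eq (h : Red p x y) : (x : ZMod p) = y := h.2

theorem unique (h : Red p x y) (h' : Red p x y') : y = y' := h.2.symm.trans h'.2

theorem congr (h : Red p x y) (e : x = x') (e' : y = y') : Red p x' y' := e ▸ e' ▸ h

theorem congr_left (h : Red p x y) (e : x = x') : Red p x' y := e ▸ h

theorem congr_right (h : Red p x y) (e : y = y') : Red p x y' := e ▸ h

theorem intCast (n : ℤ) : Red p (n : ℚ) (n : ZMod p) :=
  ⟨by simpa using hp.out.ne_one, Rat.cast_intCast n⟩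

theorem natCast (n : ℕ) : Red p (n : ℚ) (n : ZMod p) :=
  ⟨by simpa using hp.out.ne_one, Rat.cast_natCast n⟩

theorem ofNat (n : ℕ) [n.AtLeastTwo] : Red p (OfNat.ofNat n : ℚ) (OfNat.ofNat n : ZMod p) :=
  natCast n

theorem zero : Red p 0 0 := by simpa using natCast (p := p) 0

theorem one : Red p 1 1 := by simpa using natCast (p := p) 1

theorem p_self : Red p (p : ℚ) 0 := by simpa using natCast (p := p) p

theorem add (h : Red p x y) (h' : Red p x' y') : Red p (x + x') (y + y') :=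
  ⟨fun d => ((hp.out.dvd_mul).1 (d.trans (Rat.add_den_dvd x x'))).elim h.1 h'.1, by
    rw [Rat.cast_add_of_ne_zero (den_ne h.1) (den_ne h'.1), h.2, h'.2]⟩

theorem neg (h : Red p x y) : Red p (-x) (-y) :=
  ⟨by simpa using h.1, by rw [Rat.cast_neg, h.2]⟩

theorem sub (h : Red p x y) (h' : Red p x' y') : Red p (x - x') (y - y') := by
  simpa only [sub_eq_add_neg] using h.add h'.neg

theorem mul (h : Red p x y) (h' : Red p x' y') : Red p (x * x') (y * y') :=
  ⟨fun d => ((hp.out.dvd_mul).1 (d.trans (Rat.mul_den_dvd x x'))).elim h.1 h'.1, by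
    rw [Rat.cast_mul_of_ne_zero (den_ne h.1) (den_ne h'.1), h.2, h'.2]⟩

theorem pow (h : Red p x y) (n : ℕ) : Red p (x ^ n) (y ^ n) := by
  induction n with
  | zero => simpa using one
  | succ n ih => simpa only [pow_succ] using ih.mul h

theorem sum {ι : Type*} {s : Finset ι} {a : ι → ℚ} {b : ι → ZMod p}
    (h : ∀ i ∈ s, Red p (a i) (b i)) : Red p (∑ i ∈ s, a i) (∑ i ∈ s, b i) := by
  classical
  induction s using Finset.induction_on with
  | empty => simpa using zero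
  | insert i s hi ih =>
    rw [Finset.sum_insert hi, Finset.sum_insert hi]
    exact (h i (mem_insert_self _ _)).add (ih fun j hj => h j (mem_insert_of_mem hj))

theorem prod {ι : Type*} {s : Finset ι} {a : ι → ℚ} {b : ι → ZMod p}
    (h : ∀ i ∈ s, Red p (a i) (b i)) : Red p (∏ i ∈ s, a i) (∏ i ∈ s, b i) := by
  classical
  induction s using Finset.induction_on with
  | empty => simpa using one
  | insert i s hi ih =>
    rw [Finset.prod_insert hi, Finset.prod_insert hi]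
    exact (h i (mem_insert_self _ _)).mul (ih fun j hj => h j (mem_insert_of_mem hj))

theorem ite {c : Prop} [Decidable c] (h : c → Red p x y) (h' : ¬ c → Red p x' y') :
    Red p (if c then x else x') (if c then y else y') := by
  split_ifs with hc
  exacts [h hc, h' hc]

theorem ne_zero (h : Red p x y) (hy : y ≠ 0) : x ≠ 0 := by
  rintro rfl
  exact hy (h.unique zero)

/-- the residue vanishes iff `p` divides the numerator. -/
theorem eq_zero_iff (h : Red p x y) : y = 0 ↔ (p : ℤ) ∣ x.num := by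
  rw [← h.2, Rat.cast_def, div_eq_zero_iff, or_iff_left (den_ne h.1),
    ZMod.intCast_zmod_eq_zero_iff_dvd]

theorem inv (h : Red p x y) (hy : y ≠ 0) : Red p x⁻¹ y⁻¹ := by
  have h1 : ¬ (p : ℤ) ∣ x.num := fun d => hy (h.eq_zero_iff.2 d)
  refine ⟨?_, ?_⟩
  · rwa [Rat.den_inv_of_ne_zero (h.ne_zero hy), ← Int.natCast_dvd]
  · rw [Rat.cast_inv_of_ne_zero (by rwa [Ne, ZMod.intCast_zmod_eq_zero_iff_dvd]), h.2]

theorem div (h : Red p x y) (h' : Red p x' y') (hy : y' ≠ 0) : Red p (x / x') (y / y') := by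
  simpa only [div_eq_mul_inv] using h.mul (h'.inv hy)

theorem p_mul (h : Red p x y) : Red p (p * x) 0 := by
  simpa using p_self.mul h

theorem mul_p (h : Red p x y) : Red p (x * p) 0 := by
  simpa using h.mul p_self

theorem div_p (h : Red p x 0) : ¬ p ∣ (x / p).den := by
  obtain ⟨c, hc⟩ := h.eq_zero_iff.1 rfl
  have hp0 : (p : ℚ) ≠ 0 := Nat.cast_ne_zero.2 hp.out.ne_zero
  have e : x / p = (c : ℚ) / (x.den : ℚ) := by
    calc x / p = (x.num : ℚ) / x.den / p := by rw [Rat.num_div_den]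
      _ = _ := by rw [hc]; push_cast; field_simp
  rw [e]
  exact ((intCast c).div (natCast x.den) (den_ne h.1)).1

theorem det {n : Type*} [Fintype n] [DecidableEq n] {A : Matrix n n ℚ} {B : Matrix n n (ZMod p)}
    (h : ∀ i j, Red p (A i j) (B i j)) : Red p A.det B.det := by
  rw [Matrix.det_apply', Matrix.det_apply']
  exact sum fun σ _ => (intCast _).mul (prod fun i _ => h _ _)

theorem lin {a : ℕ → ℚ} {b : ℕ → ZMod p} {P : ℤ[X]}
    (h : ∀ i ≤ P.natDegree, Red p (a i) (b i)) : Red p (R6.lin a P) (R6.lin b P) := by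
  rw [lin_eq_range a P (Nat.lt_succ_self _), lin_eq_range b P (Nat.lt_succ_self _)]
  exact sum fun i hi => (intCast _).mul (h i (Nat.lt_succ_iff.1 (mem_range.1 hi)))

/-- version of `Red.lin` that only looks at the support. -/
theorem lin' {a : ℕ → ℚ} {b : ℕ → ZMod p} {P : ℤ[X]}
    (h : ∀ i, P.coeff i ≠ 0 → Red p (a i) (b i)) : Red p (R6.lin a P) (R6.lin b P) :=
  sum fun i hi => (intCast _).mul (h i (mem_support_iff.1 hi))

theorem norm_le_one (h : Red p x y) : ‖(x : ℚ_[p])‖ ≤ 1 := Padic.norm_rat_le_one h.1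

end Red

theorem not_dvd_den_iff_norm {x : ℚ} : ¬ p ∣ x.den ↔ ‖(x : ℚ_[p])‖ ≤ 1 := by
  refine ⟨Padic.norm_rat_le_one, fun h => ?_⟩
  simpa [Nat.Prime.coprime_iff_not_dvd hp.out] using
    PadicInt.isUnit_iff.1 <| PadicInt.isUnit_den _ h

theorem red_zero_iff_norm {x : ℚ} : Red p x 0 ↔ ‖(x : ℚ_[p])‖ ≤ (p : ℝ)⁻¹ := by
  have hp0 : (p : ℚ) ≠ 0 := Nat.cast_ne_zero.2 hp.out.ne_zero
  have hp1 : (0 : ℝ) < p := Nat.cast_pos.2 hp.out.pos
  have e : ‖((x / p : ℚ) : ℚ_[p])‖ ≤ 1 ↔ ‖(x : ℚ_[p])‖ ≤ (p : ℝ)⁻¹ := by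
    push_cast
    rw [norm_div, Padic.norm_p, div_le_one (inv_pos.2 hp1)]
  rw [← e, ← not_dvd_den_iff_norm]
  exact ⟨Red.div_p, fun h => (Red.self h).p_mul.congr_left (mul_div_cancel₀ _ hp0)⟩

/-- a unit residue means norm one. -/
theorem Red.norm_eq_one {x : ℚ} {y : ZMod p} (h : Red p x y) (hy : y ≠ 0) :
    ‖(x : ℚ_[p])‖ = 1 := by
  refine le_antisymm h.norm_le_one ?_
  have h1 := (h.inv hy).norm_le_one
  have h2 : (x : ℚ_[p]) ≠ 0 := Rat.cast_ne_zero.2 (h.ne_zero hy)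
  rwa [Rat.cast_inv, norm_inv, inv_le_one₀ (norm_pos_iff.2 h2)] at h1

/-- `p^e x` integral means `‖x‖ ≤ p^e`. -/
theorem Red.norm_le_pow {x : ℚ} {y : ZMod p} {e : ℕ} (h : Red p (p ^ e * x) y) :
    ‖(x : ℚ_[p])‖ ≤ (p : ℝ) ^ e := by
  have hp1 : (0 : ℝ) < p := Nat.cast_pos.2 hp.out.pos
  have h1 := h.norm_le_one
  push_cast at h1
  rwa [norm_mul, norm_pow, Padic.norm_p, inv_pow, inv_mul_le_iff₀ (pow_pos hp1 e), mul_one] at h1

theorem natCast_ne_zero_of_lt {k : ℕ} (h0 : k ≠ 0) (h : k < p) : (k : ZMod p) ≠ 0 := by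
  rw [Ne, ZMod.natCast_eq_zero_iff]
  exact Nat.not_dvd_of_pos_of_lt (Nat.pos_of_ne_zero h0) h

end Crest.Agent.R6
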