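import Crest.Agent.R6.Defs

/-! Row 6: the row determinant (linear algebra, diameter bounds, assembly). -/

set_option autoImplicit false

namespace Crest.Agent.R6

open Finset Matrix

namespace RowDet

open scoped MatrixOrder in
theorem det_bound {n : Type} [Fintype n] [DecidableEq n] (w : n → ℝ) (C : Matrix n n ℝ)
    (hC : C.PosSemidef) {K : ℝ} (hK : 0 ≤ K)
    (h : ∀ c : n → ℝ, |∑ i, w i * (C *ᵥ c) i ^ 2| ≤ K * (c ⬝ᵥ C *ᵥ c)) :
    |(1 + diagonal w * C).det| ≤ (1 + K) ^ Fintype.card n := by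
  obtain ⟨B, rfl⟩ := CStarAlgebra.nonneg_iff_eq_star_mul_self.mp hC.nonneg
  have hB : star B = Bᵀ := by rw [star_eq_conjTranspose, conjTranspose_eq_transpose_of_trivial]
  rw [hB] at h ⊢
  rw [← Matrix.mul_assoc, det_one_add_mul_comm]
  have hH : (1 + B * (diagonal w * Bᵀ)).IsHermitian := by
    rw [IsHermitian, conjTranspose_eq_transpose_of_trivial]
    simp [transpose_mul, Matrix.mul_assoc]
  rw [hH.det_eq_prod_eigenvalues, abs_prod, ← card_univ, ← prod_const]
  refine prod_le_prod (fun _ _ => abs_nonneg _) fun j _ => ?_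
  have h1 := hH.mulVec_eigenvectorBasis j
  have h0 : (0 : ℝ) < ⇑(hH.eigenvectorBasis j) ⬝ᵥ ⇑(hH.eigenvectorBasis j) := by
    refine lt_of_le_of_ne (sum_nonneg fun i _ => mul_self_nonneg _) fun e => ?_
    have h2 := dotProduct_self_eq_zero.1 e.symm
    exact hH.eigenvectorBasis.orthonormal.ne_zero j (by ext i; exact congrFun h2 i)
  generalize (⇑(hH.eigenvectorBasis j) : n → ℝ) = v at h1 h0
  generalize hH.eigenvalues j = μ at h1
  simp only [RCLike.ofReal_real_eq_id, id]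
  set u := Bᵀ *ᵥ v with hu
  set c := diagonal w *ᵥ u with hc
  have h2 : B *ᵥ c = (μ - 1) • v := by
    rw [add_mulVec, one_mulVec, ← mulVec_mulVec, ← mulVec_mulVec] at h1
    rw [sub_smul, ← h1, one_smul, add_sub_cancel_left]
  have h3 : (Bᵀ * B) *ᵥ c = (μ - 1) • u := by rw [← mulVec_mulVec, h2, mulVec_smul]
  have h4 : c ⬝ᵥ u = (μ - 1) * (v ⬝ᵥ v) := by
    rw [hu, dotProduct_mulVec, vecMul_transpose, h2, smul_dotProduct, smul_eq_mul]
  have h5 : ∑ i, w i * ((μ - 1) • u) i ^ 2 = (μ - 1) ^ 2 * (c ⬝ᵥ u) := by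
    rw [dotProduct, mul_sum]
    refine sum_congr rfl fun i _ => ?_
    simp only [hc, mulVec_diagonal, Pi.smul_apply, smul_eq_mul]
    ring
  have h6 := h c
  rw [h3, h5, dotProduct_smul, h4, smul_eq_mul, abs_mul, abs_mul, abs_of_pos h0,
    abs_of_nonneg (sq_nonneg _)] at h6
  have h7 : |μ - 1| ≤ K := by
    rcases eq_or_ne (μ - 1) 0 with e | e
    · rwa [e, abs_zero]
    · have : 0 < (μ - 1) ^ 2 * (v ⬝ᵥ v) := by positivity
      refine le_of_mul_le_mul_right ?_ this
      linarith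
  have := abs_add_le (μ - 1) 1
  rw [sub_add_cancel, abs_one] at this
  linarith

theorem one_sub_pos {a b : ℝ} (ha : a ∈ Set.Ioo (-1 : ℝ) 1) (hb : b ∈ Set.Ioo (-1 : ℝ) 1) :
    0 < 1 - a * b := by
  nlinarith [mul_pos (sub_pos.2 ha.2) (sub_pos.2 hb.1), mul_pos (sub_pos.2 ha.1) (sub_pos.2 hb.2)]

/-- Lagrange interpolation of `z ^ r`, evaluated at `1 / x i`. -/
theorem lagr {n : ℕ} {x : Fin n → ℝ} (hx : Function.Injective x)
    (h1 : ∀ i, x i ∈ Set.Ioo (-1 : ℝ) 1) (h0 : ∀ i, x i ≠ 0) (i r : Fin n) :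
    x i ^ (n - 1 - r) = (∏ k, (1 - x k * x i)) *
      ∑ j, 1 / (1 - x i * x j) * ((∏ k ∈ univ.erase j, (x j - x k))⁻¹ * x j ^ (r : ℕ)) := by
  have h := Lagrange.eq_interpolate (s := univ) (v := x) (f := Polynomial.X ^ (r : ℕ)) hx.injOn
    (by simp)
  have h2 := congrArg (Polynomial.eval (x i)⁻¹) h
  simp only [Lagrange.interpolate_apply, Polynomial.eval_finsetSum, Polynomial.eval_mul,
    Polynomial.eval_C, Polynomial.eval_pow, Polynomial.eval_X, Lagrange.basis,
    Polynomial.eval_prod, Lagrange.basisDivisor, Polynomial.eval_sub] at h2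
  have hr : (r : ℕ) ≤ n - 1 := by have := r.2; omega
  rw [pow_sub₀ _ (h0 i) hr, ← inv_pow, h2, mul_sum, mul_sum]
  refine sum_congr rfl fun j _ => ?_
  have h3 : x i ^ (n - 1) = ∏ _k ∈ univ.erase j, x i := by simp
  have h4 : 1 - x i * x j ≠ 0 := (one_sub_pos (h1 i) (h1 j)).ne'
  rw [prod_mul_distrib, prod_inv_distrib, ← mul_prod_erase univ _ (mem_univ j), h3]
  have h5 : (∏ _k ∈ univ.erase j, x i) * ∏ k ∈ univ.erase j, ((x i)⁻¹ - x k) =
      ∏ k ∈ univ.erase j, (1 - x k * x i) := by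
    rw [← prod_mul_distrib]
    refine prod_congr rfl fun k _ => ?_
    have := h0 i
    field_simp
  rw [← h5, mul_comm (x j) (x i)]
  generalize 1 - x i * x j = t at h4
  field_simp

theorem wa_eq (y : ℝ) : wa y = wb y * (1 - if 0 < y then 6 else 0) := by
  unfold wa wb
  split_ifs <;> norm_num

theorem abs_wb (y : ℝ) : |wb y| ≤ 1 / 4 := by
  unfold wb
  split_ifs <;> norm_num [abs_le]

/-! ### diameter bounds -/

theorem log_bound {X Y : ℝ} (hX : 0 < X) (hX1 : X < 1) (hY : 0 < Y) (hY1 : Y ≤ 1) :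
    Real.log (1 + X * Y) - Real.log (X + Y) ≤ -((1 - X) / (1 + X)) * Real.log Y := by
  have key : AntitoneOn (fun Y => -((1 - X) / (1 + X)) * Real.log Y - Real.log (1 + X * Y)
      + Real.log (X + Y)) (Set.Ioi 0) := by
    have hd : ∀ Y ∈ Set.Ioi (0 : ℝ), HasDerivAt (fun Y => -((1 - X) / (1 + X)) * Real.log Y
        - Real.log (1 + X * Y) + Real.log (X + Y))
        (-((1 - X) / (1 + X)) * Y⁻¹ - X * 1 / (1 + X * Y) + 1 / (X + Y)) Y := by
      intro Y hY
      have hY : 0 < Y := hY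
      exact (((Real.hasDerivAt_log hY.ne').const_mul _).sub
        ((((hasDerivAt_id Y).const_mul X).const_add 1).log (by simp only [id]; positivity))).add
        (((hasDerivAt_id Y).const_add X).log (by simp only [id]; positivity))
    refine antitoneOn_of_deriv_nonpos (convex_Ioi 0)
      (fun Y hY => (hd Y hY).continuousAt.continuousWithinAt)
      (fun Y hY => (hd Y (interior_subset hY)).differentiableAt.differentiableWithinAt)
      fun Y hY => ?_
    have hY : 0 < Y := interior_subset (s := Set.Ioi (0 : ℝ)) hY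
    rw [(hd Y hY).deriv]
    have : -((1 - X) / (1 + X)) * Y⁻¹ - X * 1 / (1 + X * Y) + 1 / (X + Y) =
        -((1 - X) * X * (1 - Y) ^ 2 / ((1 + X) * Y * (1 + X * Y) * (X + Y))) := by
      field_simp
      ring
    rw [this, neg_nonpos]
    have := sub_pos.2 hX1
    positivity
  have := key hY (Set.mem_Ioi.2 one_pos) hY1
  simp only [Real.log_one, mul_zero, mul_one, add_comm X 1] at this
  linarith

theorem kappa_le {X : ℝ} (hX : 0 < X) (hX1 : X < 1) :
    (1 - X) / (1 + X) ≤ 1 - 4 / 3 * Real.log (1 + X) := by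
  have h1 : 0 ≤ Real.log (1 + X) := Real.log_nonneg (by linarith)
  have h2 := Real.self_le_sinh_iff.2 h1
  rw [Real.sinh_log (by linarith)] at h2
  have h3 : (1 - X) / (1 + X) = 1 - 4 / 3 * ((1 + X - (1 + X)⁻¹) / 2)
      - 2 / 3 * (X * (1 - X) / (1 + X)) := by
    field_simp
    ring
  have h4 : 0 ≤ X * (1 - X) / (1 + X) := by
    have := sub_pos.2 hX1
    positivity
  linarith

theorem sq_mem {a : ℝ} (ha : a ∈ Set.Ioo (-1 : ℝ) 1) (h0 : a ≠ 0) : 0 < a ^ 2 ∧ a ^ 2 < 1 :=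
  ⟨by positivity, by nlinarith [ha.1, ha.2]⟩

end RowDet

open RowDet

theorem rowLin : HalfDiscStmt → RowLinStmt := by
  intro hH n g x M hg hx h1 h0 hM hD
  set e := n - 1 - 2 * g with he
  let ρ : Fin n → ℝ := fun i => 1 - if 0 < x i then 6 else 0
  let C : Matrix (Fin n) (Fin n) ℝ := of fun i j => 1 / (1 - x i * x j)
  let P : Fin n → ℝ := fun i => ∏ k, (1 - x k * x i)
  let Q : Fin n → ℝ := fun j => (∏ k ∈ univ.erase j, (x j - x k))⁻¹
  have hCc : ∀ (c : Fin n → ℝ) i, (C *ᵥ c) i = ∑ j, c j / (1 - x j * x i) := fun c i => by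
    simp only [mulVec, dotProduct, C, of_apply, mul_comm (x i)]
    exact sum_congr rfl fun j _ => by ring
  have hcC : ∀ c : Fin n → ℝ, c ⬝ᵥ C *ᵥ c = ∑ i, ∑ j, c i * c j / (1 - x i * x j) := fun c =>
    sum_congr rfl fun i _ => by
      rw [hCc, mul_sum]
      exact sum_congr rfl fun j _ => by rw [mul_comm (x j)]; ring
  have hC : C.PosSemidef := by
    refine .of_dotProduct_mulVec_nonneg ?_ fun c => ?_
    · ext i j
      simp [C, mul_comm]
    · rw [star_trivial, hcC]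
      exact (abs_nonneg _).trans (hH n e x c M hx h1 h0 hM hD).1
  have hdet := det_bound (fun i => Q i * (ρ i * x i ^ e * P i)) C hC (K := 7 + 3 * M)
    (by positivity) fun c => by
      obtain ⟨a1, a2⟩ := hH n e x c M hx h1 h0 hM hD
      have : ∑ i, Q i * (ρ i * x i ^ e * P i) * (C *ᵥ c) i ^ 2 =
          ∑ i, resB x i * x i ^ e * (∑ j, c j / (1 - x j * x i)) ^ 2 -
          6 * ∑ i, if 0 < x i then resB x i * x i ^ e * (∑ j, c j / (1 - x j * x i)) ^ 2
            else 0 := by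
        rw [mul_sum, ← sum_sub_distrib]
        refine sum_congr rfl fun i _ => ?_
        simp only [hCc, resB, ρ, P, Q]
        split_ifs <;> ring
      rw [this, hcC]
      refine (abs_sub _ _).trans ?_
      rw [abs_mul, abs_of_pos (by norm_num : (0 : ℝ) < 6)]
      linarith
  have hmat : ((of fun (r i : Fin n) => wa (x i) * x i ^ (((r : ℕ) : ℤ) - g) +
      wb (x i) * x i ^ (-(((r : ℕ) : ℤ) - g))).submatrix Fin.revPerm id)ᵀ =
      diagonal (fun i => wb (x i) / x i ^ (n - 1 - g)) *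
        ((1 + diagonal (fun i => ρ i * x i ^ e * P i) * C * diagonal Q) * vandermonde x) := by
    ext i r
    rw [diagonal_mul, Matrix.add_mul, Matrix.one_mul, Matrix.mul_assoc, Matrix.mul_assoc,
      Matrix.add_apply, diagonal_mul, Matrix.mul_apply]
    simp only [diagonal_mul, vandermonde_apply, C, of_apply, transpose_apply, submatrix_apply, id,
      Fin.revPerm_apply, Fin.val_rev]
    rw [mul_assoc _ (P i), ← lagr hx h1 h0 i r, wa_eq]
    have hr := r.2
    have e1 : x i ^ (((n - (r + 1) : ℕ) : ℤ) - g) =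
        x i ^ e * x i ^ (n - 1 - r) / x i ^ (n - 1 - g) := by
      rw [← pow_add, ← zpow_natCast, ← zpow_natCast, ← zpow_sub₀ (h0 i)]
      congr 1
      omega
    have e2 : x i ^ (-(((n - (r + 1) : ℕ) : ℤ) - g)) = x i ^ (r : ℕ) / x i ^ (n - 1 - g) := by
      rw [← zpow_natCast, ← zpow_natCast, ← zpow_sub₀ (h0 i)]
      congr 1
      omega
    rw [e1, e2]
    simp only [ρ]
    ring
  have h2 := congrArg (fun A => |A.det|) hmat
  simp only [det_transpose, det_permute, det_mul, det_diagonal, abs_mul, det_vandermonde] at h2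
  rw [det_one_add_mul_comm, ← Matrix.mul_assoc, diagonal_mul_diagonal, abs_unit_intCast,
    one_mul] at h2
  have hv : |∏ i, ∏ j ∈ Ioi i, (x j - x i)| = vand x := by
    simp only [abs_prod, vand, abs_sub_comm]
  have hv0 : 0 ≤ vand x := hv ▸ abs_nonneg _
  have hw : |∏ i, wb (x i) / x i ^ (n - 1 - g)| ≤ (1 / 4) ^ n / ∏ i, |x i| ^ (n - 1 - g) := by
    have : (1 / 4 : ℝ) ^ n = ∏ _i : Fin n, 1 / 4 := by simp
    rw [abs_prod, this, ← prod_div_distrib]
    refine prod_le_prod (fun i _ => abs_nonneg _) fun i _ => ?_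
    rw [abs_div, abs_pow]
    exact div_le_div_of_nonneg_right (abs_wb _) (by positivity)
  rw [h2, hv]
  rw [Fintype.card_fin] at hdet
  calc _ ≤ ((1 / 4) ^ n / ∏ i, |x i| ^ (n - 1 - g)) * ((1 + (7 + 3 * M)) ^ n * vand x) := by
        gcongr
    _ = _ := by
        rw [show (8 + 3 * M) / 4 = 1 / 4 * (1 + (7 + 3 * M)) by ring, mul_pow]
        ring

theorem diam : DiamStmt := by
  intro n g x hg h1 h0
  have hs := fun i => sq_mem (h1 i) (h0 i)
  refine ⟨fun hl y hy => ?_, ?_⟩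
  · have hY1 : y ^ 2 ≤ 1 := by rwa [← sq_abs, pow_le_one_iff_of_nonneg (abs_nonneg _) two_ne_zero]
    have hk : ∑ i, (1 - x i ^ 2) / (1 + x i ^ 2) ≤ ((n - 1 - 2 * g : ℕ) : ℝ) := by
      refine (sum_le_sum fun i _ => kappa_le (hs i).1 (hs i).2).trans ?_
      rw [sum_sub_distrib, ← mul_sum, Nat.sub_sub, Nat.cast_sub (by omega)]
      simp only [sum_const, card_univ, Fintype.card_fin, nsmul_eq_mul]
      push_cast
      linarith
    rcases (sq_nonneg y).eq_or_lt with hY | hY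
    · have : Nonempty (Fin n) := ⟨⟨0, by omega⟩⟩
      have h2 : 0 < ∑ i, (1 - x i ^ 2) / (1 + x i ^ 2) :=
        sum_pos (fun i _ => div_pos (sub_pos.2 (hs i).2) (by positivity)) univ_nonempty
      rw [← hY, zero_pow (Nat.cast_pos.1 (h2.trans_le hk)).ne', zero_mul]
      positivity
    · generalize y ^ 2 = Y at *
      rw [one_pow, one_mul, ← Real.log_le_log_iff (by positivity) (by positivity),
        Real.log_mul (by positivity) (by positivity), Real.log_pow,
        Real.log_prod fun i _ => by positivity, Real.log_prod fun i _ => by positivity]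
      have h2 := sum_le_sum fun i (_ : i ∈ univ) => log_bound (hs i).1 (hs i).2 hY hY1
      rw [sum_sub_distrib, ← sum_mul, sum_neg_distrib] at h2
      nlinarith [Real.log_nonpos hY.le hY1]
  · have hn : n ≠ 0 := by omega
    have hp : 0 < ∏ i, |x i| ^ (2 * g + 1) := prod_pos fun i _ => pow_pos (abs_pos.2 (h0 i)) _
    have hp1 : ∏ i, |x i| ^ (2 * g + 1) ≤ 1 := prod_le_one (fun i _ => by positivity) fun i _ =>
      pow_le_one₀ (abs_nonneg _) (abs_le.2 ⟨(h1 i).1.le, (h1 i).2.le⟩)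
    have hM : ((∏ i, |x i| ^ (2 * g + 1))⁻¹ ^ ((n : ℝ)⁻¹)) ^ n = (∏ i, |x i| ^ (2 * g + 1))⁻¹ :=
      Real.rpow_inv_natCast_pow (by positivity) hn
    refine ⟨(∏ i, |x i| ^ (2 * g + 1))⁻¹ ^ ((n : ℝ)⁻¹),
      Real.one_le_rpow ((one_le_inv₀ hp).2 hp1) (by positivity),
      by rw [hM, inv_mul_cancel₀ hp.ne'], fun y hy => ?_⟩
    have hY1 : y ^ 2 ≤ 1 := by rwa [← sq_abs, pow_le_one_iff_of_nonneg (abs_nonneg _) two_ne_zero]
    have hY := sq_nonneg y
    refine le_of_pow_le_pow_left₀ hn (by positivity) ?_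
    rw [mul_pow (_ ^ 2), ← pow_mul _ 2 n, mul_comm 2 n, pow_mul _ n 2, hM, inv_pow,
      le_inv_mul_iff₀ (by positivity), mul_pow, ← prod_pow, ← prod_pow, ← prod_pow]
    generalize y ^ 2 = Y at *
    have : (Y ^ (n - 1 - 2 * g)) ^ n = ∏ _i : Fin n, Y ^ (n - 1 - 2 * g) := by simp
    rw [this, ← prod_mul_distrib, ← prod_mul_distrib]
    refine prod_le_prod (fun i _ => by positivity) fun i _ => ?_
    rw [← pow_mul, mul_comm _ 2, pow_mul, sq_abs]
    obtain ⟨a1, a2⟩ := hs i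
    generalize x i ^ 2 = X at *
    obtain ⟨e, rfl⟩ : ∃ e, n = e + (2 * g + 1) := ⟨n - (2 * g + 1), by omega⟩
    have he : e + (2 * g + 1) - 1 - 2 * g = e := by omega
    rw [he, pow_add (X + Y), pow_add (1 + X * Y)]
    calc X ^ (2 * g + 1) * (Y ^ e * ((1 + X * Y) ^ e * (1 + X * Y) ^ (2 * g + 1)))
        = (Y * (1 + X * Y)) ^ e * (X * (1 + X * Y)) ^ (2 * g + 1) := by rw [mul_pow, mul_pow]; ring
      _ ≤ _ := by
        have b1 : Y * (1 + X * Y) ≤ X + Y := by nlinarith [mul_nonneg hY (sub_nonneg.2 hY1)]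
        have b2 : X * (1 + X * Y) ≤ X + Y := by nlinarith [mul_pos a1 (sub_pos.2 a2)]
        gcongr

theorem rowDet : RowLinStmt → DiamStmt → RowDetStmt := by
  intro hL hD n g x hg hx h1 h0
  obtain ⟨d1, M, hM, hMn, d2⟩ := hD n g x hg h1 h0
  have hv : 0 ≤ vand x := prod_nonneg fun i _ => prod_nonneg fun j _ => abs_nonneg _
  have hp : ∀ k : ℕ, 0 < ∏ i, |x i| ^ k := fun k =>
    prod_pos fun i _ => pow_pos (abs_pos.2 (h0 i)) _
  refine ⟨fun hl => (hL n g x 1 hg hx h1 h0 zero_le_one (d1 hl)).trans ?_,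
    (hL n g x M hg hx h1 h0 (by linarith) d2).trans ?_⟩
  · refine div_le_div₀ (by positivity) (by gcongr; norm_num) (hp _) ?_
    exact prod_le_prod (fun i _ => by positivity) fun i _ => pow_le_pow_of_le_one (abs_nonneg _)
      (abs_le.2 ⟨(h1 i).1.le, (h1 i).2.le⟩) (by omega)
  · have e : ∏ i, |x i| ^ (n + g) = (∏ i, |x i| ^ (2 * g + 1)) * ∏ i, |x i| ^ (n - 1 - g) := by
      rw [← prod_mul_distrib]
      refine prod_congr rfl fun i _ => ?_
      rw [← pow_add]
      congr 1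
      omega
    rw [e, ← div_div, eq_inv_of_mul_eq_one_right hMn, div_inv_eq_mul, mul_right_comm, ← mul_pow]
    have := hp (n - 1 - g)
    gcongr
    linarith

end Crest.Agent.R6
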