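import Crest.Agent.R6.Defs

set_option autoImplicit false

namespace Crest.Agent.R6

open Polynomial Finset Filter Topology

namespace Series

theorem be_rec (k : ℕ) : ((k : ℚ) + 2) * be (k + 2) = (k + 1) * be k := by
  rw [be_add_two]
  have : (k : ℚ) + 2 ≠ 0 := by positivity
  field_simp

theorem be_mul (k : ℕ) : ((k : ℚ) + 1) * be k * be (k + 1) = 1 := by
  induction k with
  | zero => simp
  | succ k ih =>
    have h := be_rec k
    push_cast
    have e : ((k : ℚ) + 1 + 1) * be (k + 1) * be (k + 1 + 1)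
        = be (k + 1) * (((k : ℚ) + 2) * be (k + 2)) := by ring
    rw [e, h]
    linear_combination ih

theorem al_rec (n : ℕ) : ((n : ℚ) + 3) * al (n + 2) = (n + 2) * al n := by
  unfold al
  have h : (n + 2) % 2 = n % 2 := by omega
  rw [h]
  split_ifs
  · have := be_rec (n + 1)
    push_cast at this
    have e : n + 2 + 1 = n + 1 + 2 := by ring
    rw [e]
    linear_combination this
  · simp

@[simp] theorem al_zero : al 0 = 1 := by simp [al]
@[simp] theorem al_one : al 1 = 0 := by simp [al]

/-- telescoping with step two. -/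
theorem tele {K : Type} [NormedField K] (a : ℕ → K) (S : K) (h0 : Tendsto a atTop (𝓝 0))
    (hS : HasSum (fun k => a k - a (k + 2)) S) : S = a 0 + a 1 := by
  have h1 := hS.tendsto_sum_nat
  have h2 : (fun n => ∑ k ∈ range n, (a k - a (k + 2)))
      = fun n => a 0 + a 1 - a n - a (n + 1) := by
    funext n
    induction n with
    | zero => simp
    | succ n ih => rw [sum_range_succ, ih]; ring
  rw [h2] at h1
  have h3 : Tendsto (fun n => a 0 + a 1 - a n - a (n + 1)) atTop (𝓝 (a 0 + a 1 - 0 - 0)) :=
    (tendsto_const_nhds.sub h0).sub (h0.comp (tendsto_add_atTop_nat 1))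
  have := tendsto_nhds_unique h1 h3
  rw [this]; ring

section
variable {K : Type} [NormedField K] [CharZero K]

theorem term_eq (i j k : ℕ) : ((al (i + k) / ((j + k + 1 : ℕ) : ℚ) : ℚ) : K)
    = (al (i + k) : K) / ((j : K) + k + 1) := by
  push_cast; rfl

theorem al_recK (n : ℕ) : ((n : K) + 3) * (al (n + 2) : K) = (n + 2) * (al n : K) := by
  have := congrArg (fun q : ℚ => (q : K)) (al_rec n)
  push_cast at this
  exact this

theorem natK_ne (j k : ℕ) : (j : K) + k + 1 ≠ 0 := by
  have : ((j + k + 1 : ℕ) : K) ≠ 0 := Nat.cast_ne_zero.mpr (by omega)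
  push_cast at this
  exact this

variable (hs : ∀ i j : ℕ, Summable fun k : ℕ => ((al (i + k) / ((j + k + 1 : ℕ) : ℚ) : ℚ) : K))
  (h0 : Tendsto (fun n : ℕ => ((al n : ℚ) : K)) atTop (𝓝 0))

include hs in
theorem hasSum_M (i j : ℕ) :
    HasSum (fun k : ℕ => (al (i + k) : K) / ((j : K) + k + 1)) (Ms K i j) := by
  have := (hs i j).hasSum
  simp only [term_eq] at this
  unfold Ms
  simp only [term_eq]
  exact this

include hs in
theorem displ (i j : ℕ) : Ms K i j = (al i : K) / (j + 1) + Ms K (i + 1) (j + 1) := by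
  unfold Ms
  rw [(hs i j).tsum_eq_zero_add]
  congr 1
  · push_cast; simp
  · refine tsum_congr fun k => ?_
    have e1 : i + (k + 1) = i + 1 + k := by ring
    have e2 : j + (k + 1) + 1 = j + 1 + k + 1 := by ring
    rw [e1, e2]

include hs h0 in
theorem col_rec (i : ℕ) : ((i : K) + 2) * Ms K (i + 2) 0 - (i + 1) * Ms K i 0
    = (al i : K) + (al (i + 1) : K) := by
  have h1 := ((hasSum_M hs (i + 2) 0).mul_left ((i : K) + 2)).sub
    ((hasSum_M hs i 0).mul_left ((i : K) + 1))
  have h2 := tele (fun k => (al (i + k) : K)) (((i : K) + 2) * Ms K (i + 2) 0 - (i + 1) * Ms K i 0)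
    (h0.comp (tendsto_atTop_mono (fun n => Nat.le_add_left n i) tendsto_id)) (by
      refine h1.congr_fun ?_
      intro k
      have hk := natK_ne (K := K) 0 k
      have hr := al_recK (K := K) (i + k)
      have e1 : i + (k + 2) = i + k + 2 := by ring
      have e2 : i + 2 + k = i + k + 2 := by ring
      rw [e1, e2]
      push_cast at hr hk ⊢
      field_simp
      linear_combination -hr)
  simpa using h2

include hs h0 in
theorem M_one_zero : Ms K 1 0 = 1 := by
  have hd := displ hs 1 0
  have h1 := hasSum_M hs 2 1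
  have h2 := tele (fun k => (al k : K)) (Ms K 2 1) h0 (by
      refine h1.congr_fun ?_
      intro k
      have hk := natK_ne (K := K) 1 k
      have hr := al_recK (K := K) k
      have e2 : 2 + k = k + 2 := by ring
      rw [e2]
      push_cast at hr hk ⊢
      field_simp
      linear_combination -hr)
  rw [hd, h2]
  simp

include hs h0 in
theorem row_rec (j : ℕ) : ((j : K) + 1) * Ms K 0 (j + 2) = j * Ms K 0 j + 1 / (j + 1) := by
  have hd1 := displ hs 0 j
  have hd2 := displ hs 1 (j + 1)
  have h1 := ((hasSum_M hs 0 (j + 2)).mul_left ((j : K) + 1)).sub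
    ((hasSum_M hs 2 (j + 2)).mul_left (j : K))
  have h2 := tele (fun k => (al k : K)) (((j : K) + 1) * Ms K 0 (j + 2) - j * Ms K 2 (j + 2)) h0 (by
      refine h1.congr_fun ?_
      intro k
      have hk := natK_ne (K := K) (j + 2) k
      have hr := al_recK (K := K) k
      have e2 : 2 + k = k + 2 := by ring
      rw [e2, zero_add]
      push_cast at hr hk ⊢
      field_simp
      linear_combination -hr)
  have hj := natK_ne (K := K) j 0
  simp only [al_zero, al_one, Rat.cast_one, Rat.cast_zero, zero_div, zero_add, add_zero,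
    Nat.cast_zero] at hd1 hd2 h2 hj
  rw [hd1, hd2]
  field_simp
  linear_combination ((j : K) + 1) * h2

end

theorem colA_zero : colA 0 = 0 := by simp [colA]
theorem colA_one : colA 1 = 1 := by simp [colA, sum_range_succ]

theorem colA_rec (i : ℕ) : ((i : ℚ) + 2) * colA (i + 2) - (i + 1) * colA i = al i + al (i + 1) := by
  unfold colA
  have h : (i + 2) % 2 = i % 2 := by omega
  rw [h]
  have hb := be_rec i
  have hm := be_mul i
  split_ifs with hi
  · rw [sum_range_succ, sum_range_succ]
    have h1 : al (i + 1) = 0 := by unfold al; rw [if_neg (by omega)]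
    have h2 : al i = be (i + 1) := by unfold al; rw [if_pos hi]
    rw [h1, h2]
    linear_combination (∑ n ∈ range i, al n ^ 2 + be (i + 1) ^ 2) * hb + be (i + 1) * hm
  · rw [sum_range_succ _ (i + 2), sum_range_succ _ (i + 1), if_neg (by omega), if_pos (by omega)]
    have h1 : al i = 0 := by unfold al; rw [if_neg hi]
    have h2 : al (i + 1) = be (i + 2) := by unfold al; rw [if_pos (by omega)]
    rw [h1, h2]
    have h3 : ((i + 2 : ℕ) : ℚ) ≠ 0 := by positivity
    have h4 : ((i : ℚ) + 2) * (1 / ((i + 2 : ℕ) : ℚ)) = 1 := by push_cast; field_simp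
    linear_combination (∑ k ∈ range (i + 1), if k % 2 = 1 then 1 / (k : ℚ) else 0) * hb
      + be (i + 2) * h4

theorem rowA_zero : rowA 0 = 0 := by simp [rowA]
theorem rowA_one : rowA 1 = 1 := by simp [rowA]

theorem rowA_rec (j : ℕ) : ((j : ℚ) + 2) * rowA (j + 2) = (j + 1) * rowA j + 1 / (j + 2) := by
  unfold rowA
  have h : (j + 2) % 2 = j % 2 := by omega
  rw [h, sum_range_succ, sum_range_succ, if_neg (by omega), if_pos (by omega)]
  have hb := be_rec j
  have hm := be_mul (j + 1)
  push_cast at hm ⊢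
  have h3 : (j : ℚ) + 2 ≠ 0 := by positivity
  have h4 : (j : ℚ) + 1 + 1 = j + 2 := by ring
  rw [h4] at hm ⊢
  have h5 : ((j : ℚ) + 2) * (be (j + 2) * (be (j + 1) / (j + 2))) = 1 / (j + 2) := by
    field_simp
    linear_combination hm
  linear_combination
    (∑ k ∈ range j, if (k + 1) % 2 = j % 2 then be k / ((k : ℚ) + 1) else 0) * hb + h5

theorem tG_succ (i j : ℕ) : tG (i + 1) (j + 1) = tG i j := by
  unfold tG
  simp only [Nat.add_sub_add_right, Nat.add_le_add_iff_right]

theorem tZe_succ (i j : ℕ) : tZe (i + 1) (j + 1) = tZe i j := by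
  unfold tZe
  simp only [Nat.add_sub_add_right, Nat.add_lt_add_iff_right]

theorem tG_rec (i : ℕ) : ((i : ℚ) + 2) * tG (i + 2) 0 = (i + 1) * tG i 0 := by
  unfold tG
  have h : (i + 2) % 2 = i % 2 := by omega
  simp only [zero_le, true_and, Nat.sub_zero, h]
  split_ifs
  · linear_combination 2 * be_rec i
  · simp

theorem tZe_rec (j : ℕ) : ((j : ℚ) + 2) * tZe 0 (j + 3) = (j + 1) * tZe 0 (j + 1) := by
  unfold tZe
  have h : (j + 2) % 2 = j % 2 := by omega
  have e1 : j + 3 - 0 - 1 = j + 2 := by omega
  have e2 : j + 1 - 0 - 1 = j := by omega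
  simp only [e1, e2, h, Nat.zero_lt_succ, true_and]
  split_ifs
  · linear_combination 3 / 4 * be_rec j
  · simp

end Series

open Series in
theorem series : SeriesStmt := by
  intro K _ _ hs h0
  have hcol : ∀ i, Ms K i 0 = (colA i : K) + (tG i 0 : K) * (Ms K 0 0 / 2) := by
    intro i
    induction i using Nat.twoStepInduction with
    | zero => simp [colA_zero, tG]; ring
    | one => simp [colA_one, tG, M_one_zero hs h0]
    | more i ih _ =>
      have h1 := col_rec hs h0 i
      have h2 := congrArg (fun q : ℚ => (q : K)) (colA_rec i)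
      have h3 := congrArg (fun q : ℚ => (q : K)) (tG_rec i)
      have h4 := natK_ne (K := K) i 1
      push_cast at h2 h3 h4
      have h5 : (i : K) + 2 ≠ 0 := by
        intro h; apply h4; linear_combination h
      apply mul_left_cancel₀ h5
      linear_combination h1 - h2 - (Ms K 0 0 / 2) * h3 + ((i : K) + 1) * ih
  have hrow : ∀ j, Ms K 0 (j + 1) = (rowA j : K) + (tZe 0 (j + 1) : K) * (4 / 3 * Ms K 0 1) := by
    intro j
    induction j using Nat.twoStepInduction with
    | zero => simp [rowA_zero, tZe]; ring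
    | one =>
      have := row_rec hs h0 0
      simp [rowA_one, tZe] at this ⊢
      exact this
    | more j ih _ =>
      have h1 := row_rec hs h0 (j + 1)
      have h2 := congrArg (fun q : ℚ => (q : K)) (rowA_rec j)
      have h3 := congrArg (fun q : ℚ => (q : K)) (tZe_rec j)
      have h4 := natK_ne (K := K) j 1
      push_cast at h1 h2 h3 h4
      have h6 : (j : K) + 1 + 1 = j + 2 := by ring
      rw [h6] at h1 h4
      apply mul_left_cancel₀ h4
      linear_combination h1 - h2 - (4 / 3 * Ms K 0 1) * h3 + ((j : K) + 1) * ih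
  intro i
  induction i with
  | zero =>
    intro j
    cases j with
    | zero => rw [tA_zero_right]; simpa [tZe] using hcol 0
    | succ j => rw [tA_zero_succ, hrow j]; simp [tG]
  | succ i ih =>
    intro j
    cases j with
    | zero => rw [tA_zero_right, hcol]; simp [tZe]
    | succ j =>
      have h1 := displ hs i j
      rw [tA_succ_succ, tG_succ, tZe_succ]
      push_cast
      linear_combination ih j - h1

namespace Series

theorem z_summable (l j : ℕ) :
    Summable fun k : ℕ => 1 / (((l : ℝ) + k + 1) * ((j : ℝ) + k + 1)) := by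
  have h : Summable fun k : ℕ => 1 / (((k + 1 : ℕ) : ℝ)) ^ 2 :=
    (summable_nat_add_iff (f := fun n : ℕ => 1 / (n : ℝ) ^ 2) 1).mpr
      (Real.summable_one_div_nat_pow.mpr (by norm_num))
  refine Summable.of_nonneg_of_le (fun k => by positivity) (fun k => ?_) h
  apply one_div_le_one_div_of_le (by positivity)
  push_cast
  have h1 : (0 : ℝ) ≤ l := Nat.cast_nonneg l
  have h2 : (0 : ℝ) ≤ j := Nat.cast_nonneg j
  have h3 : (0 : ℝ) ≤ k := Nat.cast_nonneg k
  nlinarith [mul_nonneg h1 h2, mul_nonneg h1 h3, mul_nonneg h2 h3]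

theorem z_displ (l j : ℕ) : Zs l j = 1 / (((l : ℝ) + 1) * (j + 1)) + Zs (l + 1) (j + 1) := by
  unfold Zs
  rw [(z_summable l j).tsum_eq_zero_add]
  congr 1
  · simp
  · refine tsum_congr fun k => ?_
    push_cast
    ring

theorem z_symm (l j : ℕ) : Zs l j = Zs j l := by
  unfold Zs
  refine tsum_congr fun k => ?_
  rw [mul_comm]

theorem z_step (l : ℕ) :
    HasSum (fun k : ℕ => 1 / ((l : ℝ) + k + 1) - 1 / ((l : ℝ) + 1 + k + 1)) (1 / ((l : ℝ) + 1)) := by
  rw [hasSum_iff_tendsto_nat_of_nonneg]
  · have h2 : (fun n : ℕ => ∑ k ∈ range n, (1 / ((l : ℝ) + k + 1) - 1 / ((l : ℝ) + 1 + k + 1)))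
        = fun n : ℕ => 1 / ((l : ℝ) + 1) - 1 / (((n + l : ℕ) : ℝ) + 1) := by
      funext n
      induction n with
      | zero => simp
      | succ n ih => rw [sum_range_succ, ih]; push_cast; ring
    rw [h2]
    have h3 : Tendsto (fun n : ℕ => 1 / (((n + l : ℕ) : ℝ) + 1)) atTop (𝓝 0) :=
      tendsto_one_div_add_atTop_nhds_zero_nat.comp (tendsto_add_atTop_nat l)
    simpa using tendsto_const_nhds.sub h3
  · intro k
    rw [sub_nonneg]
    apply one_div_le_one_div_of_le (by positivity)
    linarith

theorem z_harm (l : ℕ) :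
    HasSum (fun k : ℕ => 1 / ((k : ℝ) + 1) - 1 / ((l : ℝ) + k + 1)) (harmonic l : ℝ) := by
  induction l with
  | zero => simp
  | succ l ih =>
    have := ih.add (z_step l)
    rw [harmonic_succ]
    push_cast
    rw [← one_div]
    refine this.congr_fun fun k => ?_
    ring

theorem z_col (l : ℕ) : Zs (l + 1) 0 = (harmonic (l + 1) : ℝ) / (l + 1) := by
  have h := (z_harm (l + 1)).div_const ((l : ℝ) + 1)
  rw [← h.tsum_eq]
  unfold Zs
  refine tsum_congr fun k => ?_
  push_cast
  field_simp
  ring

end Series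

open Series in
theorem zseries : ZSeriesStmt := by
  intro l j
  refine ⟨z_summable l j, ?_⟩
  induction l generalizing j with
  | zero =>
    cases j with
    | zero => simp [tZ_zero_right]
    | succ j => rw [z_symm, z_col, tZ_zero_succ]; simp
  | succ l ih =>
    cases j with
    | zero => rw [z_col, tZ_zero_right]; simp
    | succ j =>
      have h1 := z_displ l j
      rw [tZ_succ_succ]
      have h2 := ih j
      simp only [Nat.add_right_cancel_iff]
      push_cast
      linear_combination h2 - h1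

namespace Series

theorem pp_rec (u : ℕ) : pp (u + 2) = 2 * pp (u + 1) - X ^ 2 * pp u := by
  rw [pp_succ (u + 1), dd_succ u, pp_succ u]; ring

theorem dd_rec (u : ℕ) : dd (u + 2) = 2 * dd (u + 1) - X ^ 2 * dd u := by
  rw [dd_succ (u + 1), dd_succ u, pp_succ u]; ring

theorem pp_one : pp 1 = 1 := by rw [pp_succ]; simp
theorem dd_one : dd 1 = 1 := by rw [dd_succ]; simp

theorem pp_deg (u : ℕ) : (pp u).natDegree ≤ u := by
  induction u using Nat.twoStepInduction with
  | zero => simp
  | one => simp [pp_one]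
  | more u h1 h2 =>
    rw [pp_rec]
    refine (natDegree_sub_le _ _).trans (max_le ?_ ?_)
    · refine natDegree_mul_le.trans ?_
      have : (2 : ℤ[X]).natDegree = 0 := natDegree_ofNat 2
      omega
    · refine natDegree_mul_le.trans ?_
      rw [natDegree_X_pow]
      omega

theorem dd_deg (u : ℕ) : (dd (u + 1)).natDegree ≤ u := by
  induction u with
  | zero => simp [dd_one]
  | succ u ih =>
    rw [dd_succ]
    exact (natDegree_add_le _ _).trans (max_le (pp_deg _) (by omega))

theorem oneSub_deg (h : ℕ) : ((1 - X : ℤ[X]) ^ h).natDegree ≤ h := by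
  refine natDegree_pow_le.trans ?_
  have : (1 - X : ℤ[X]).natDegree ≤ 1 := by compute_degree
  nlinarith

theorem rowD_nat (c h n : ℕ) : rowD c h n = X ^ (c - n) * (1 - X) ^ h * dd n := by
  unfold rowD
  cases n with
  | zero => simp
  | succ n =>
    rw [Int.natAbs_natCast, Int.sign_eq_one_of_pos (by omega)]
    simp

theorem rowD_neg (c h : ℕ) (u : ℤ) : rowD c h (-u) = -rowD c h u := by
  unfold rowD
  simp

theorem rowP_neg (c h : ℕ) (u : ℤ) : rowP c h (-u) = rowP c h u := by
  unfold rowP
  simp

theorem rowP_nat (c h n : ℕ) : rowP c h n = X ^ (c - 1 - n) * (1 - X) ^ h * pp n := by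
  unfold rowP
  simp

theorem row_rec_nat (c h n : ℕ) (hn : n + 1 < c) :
    X * (rowP c h (n + 1) + rowP c h (n - 1)) = 2 * rowP c h n ∧
      X * (rowD c h (n + 1) + rowD c h (n - 1)) = 2 * rowD c h n := by
  cases n with
  | zero =>
    obtain ⟨m, rfl⟩ : ∃ m, c = m + 2 := ⟨c - 2, by omega⟩
    have e1 : ((0 : ℕ) : ℤ) + 1 = ((1 : ℕ) : ℤ) := by simp
    have e2 : ((0 : ℕ) : ℤ) - 1 = -((1 : ℕ) : ℤ) := by simp
    rw [e1, e2, rowP_neg, rowD_neg, rowP_nat, rowP_nat, rowD_nat, rowD_nat, pp_one]
    constructor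
    · have e3 : m + 2 - 1 - 1 = m := by omega
      have e4 : m + 2 - 1 - 0 = m + 1 := by omega
      rw [e3, e4, pp_zero]; ring
    · simp
  | succ n =>
    obtain ⟨m, rfl⟩ : ∃ m, c = m + n + 3 := ⟨c - n - 3, by omega⟩
    have e1 : ((n + 1 : ℕ) : ℤ) + 1 = ((n + 2 : ℕ) : ℤ) := by push_cast; ring
    have e2 : ((n + 1 : ℕ) : ℤ) - 1 = ((n : ℕ) : ℤ) := by simp
    rw [e1, e2, rowP_nat, rowP_nat, rowP_nat, rowD_nat, rowD_nat, rowD_nat, pp_rec, dd_rec]
    have e3 : m + n + 3 - 1 - (n + 2) = m := by omega
    have e4 : m + n + 3 - 1 - n = m + 2 := by omega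
    have e5 : m + n + 3 - 1 - (n + 1) = m + 1 := by omega
    have e6 : m + n + 3 - (n + 2) = m + 1 := by omega
    have e7 : m + n + 3 - n = m + 3 := by omega
    have e8 : m + n + 3 - (n + 1) = m + 2 := by omega
    rw [e3, e4, e5, e6, e7, e8]
    constructor <;> ring

end Series

open Series in
theorem rowShape : RowStmt := by
  intro c h u hu
  refine ⟨?_, ?_, ?_, ?_, ?_⟩
  · unfold rowP
    have h1 := natDegree_mul_le (p := X ^ (c - 1 - u.natAbs) * (1 - X : ℤ[X]) ^ h)
      (q := pp u.natAbs)
    have h2 := natDegree_mul_le (p := (X : ℤ[X]) ^ (c - 1 - u.natAbs)) (q := (1 - X : ℤ[X]) ^ h)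
    rw [natDegree_X_pow] at h2
    have h3 := oneSub_deg h
    have h4 := pp_deg u.natAbs
    omega
  · unfold rowD
    rcases hn : u.natAbs with _ | n
    · simp only [dd_zero, mul_zero, natDegree_zero]; omega
    · have h1 := natDegree_mul_le (p := C u.sign * X ^ (c - (n + 1)) * (1 - X : ℤ[X]) ^ h)
        (q := dd (n + 1))
      have h2 := natDegree_mul_le (p := C u.sign * (X : ℤ[X]) ^ (c - (n + 1)))
        (q := (1 - X : ℤ[X]) ^ h)
      have h5 := natDegree_C_mul_X_pow_le u.sign (c - (n + 1))
      have h3 := oneSub_deg h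
      have h4 := dd_deg n
      omega
  · unfold rowP
    have e : c - u.natAbs = (c - 1 - u.natAbs) + 1 := by omega
    rw [e]
    exact ⟨(1 - X) ^ h * pp u.natAbs, by ring⟩
  · unfold rowD
    exact ⟨C u.sign * (1 - X) ^ h * dd u.natAbs, by ring⟩
  · intro hc
    obtain ⟨n, rfl | rfl⟩ := Int.eq_nat_or_neg u
    · exact row_rec_nat c h n (by simpa using hc)
    · have := row_rec_nat c h n (by simpa using hc)
      have e1 : -(n : ℤ) + 1 = -(n - 1) := by ring
      have e2 : -(n : ℤ) - 1 = -(n + 1) := by ring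
      rw [e1, e2]
      simp only [rowP_neg, rowD_neg]
      constructor
      · linear_combination this.1
      · linear_combination -this.2

namespace Series

/-- `1 / √(1 - X²)`. -/
noncomputable def gs : PowerSeries ℚ := PowerSeries.mk fun k => if k % 2 = 0 then be k else 0

theorem gs_coeff (k : ℕ) : PowerSeries.coeff k gs = if k % 2 = 0 then be k else 0 :=
  PowerSeries.coeff_mk _ _

theorem gs_ode : (1 - PowerSeries.X ^ 2) * PowerSeries.derivative ℚ gs = PowerSeries.X * gs := by
  ext n
  rw [sub_mul, one_mul, map_sub, PowerSeries.coeff_X_pow_mul', PowerSeries.coeff_derivative]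
  rcases n with _ | _ | n
  · simp [gs_coeff]
  · simp [gs_coeff, PowerSeries.coeff_succ_X_mul, be_add_two]
    norm_num
  · rw [if_pos (by omega), PowerSeries.coeff_succ_X_mul, PowerSeries.coeff_derivative]
    have e : n + 1 + 1 - 2 = n := by omega
    rw [e, gs_coeff, gs_coeff]
    have h : (n + 1 + 1 + 1) % 2 = (n + 1) % 2 := by omega
    rw [h]
    split_ifs
    · have := be_rec (n + 1)
      push_cast at this ⊢
      linear_combination this
    · simp

theorem gs_const : PowerSeries.constantCoeff gs = 1 := by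
  rw [← PowerSeries.coeff_zero_eq_constantCoeff_apply, gs_coeff]; simp

theorem gs_sq : (1 - PowerSeries.X ^ 2) * gs ^ 2 = 1 := by
  apply PowerSeries.derivative.ext
  · rw [Derivation.leibniz, Derivation.leibniz_pow, map_sub, Derivation.leibniz_pow,
      PowerSeries.derivative_X, Derivation.map_one_eq_zero]
    simp only [smul_eq_mul, nsmul_eq_mul]
    push_cast
    linear_combination (2 * gs) * gs_ode
  · simp [gs_const]

/-- integer polynomials as rational power series. -/
noncomputable def toS : ℤ[X] →+* PowerSeries ℚ :=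
  (Polynomial.coeToPowerSeries.ringHom (R := ℚ)).comp (Polynomial.mapRingHom (Int.castRingHom ℚ))

theorem toS_coeff (P : ℤ[X]) (n : ℕ) : PowerSeries.coeff n (toS P) = (P.coeff n : ℚ) := by
  simp [toS]

theorem toS_X : toS X = PowerSeries.X := by simp [toS]

theorem pow_eq (u : ℕ) : (1 - (1 - PowerSeries.X ^ 2) * gs) ^ u
    = toS (pp u) - (1 - PowerSeries.X ^ 2) * gs * toS (dd u) := by
  induction u with
  | zero => simp
  | succ u ih =>
    rw [pow_succ, ih, pp_succ, dd_succ]
    simp only [map_add, map_mul, map_sub, map_one, map_pow, toS_X]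
    linear_combination ((1 - PowerSeries.X ^ 2) * toS (dd u)) * gs_sq

theorem sq_dvd : (PowerSeries.X : PowerSeries ℚ) ^ 2 ∣ 1 - (1 - PowerSeries.X ^ 2) * gs := by
  have h : (PowerSeries.X : PowerSeries ℚ) ^ 2 ∣ 1 - gs := by
    rw [PowerSeries.X_pow_dvd_iff]
    intro m hm
    interval_cases m <;> simp [gs_coeff, gs_const, PowerSeries.coeff_one]
  have e : 1 - (1 - PowerSeries.X ^ 2) * gs = (1 - gs) + PowerSeries.X ^ 2 * gs := by ring
  rw [e]
  exact dvd_add h (dvd_mul_right _ _)

theorem lin_tZe (P : ℤ[X]) (j : ℕ) :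
    lin (fun i => tZe i j) P = 3 / 4 * PowerSeries.coeff j (PowerSeries.X * (toS P * gs)) := by
  cases j with
  | zero =>
    rw [lin_eq_range _ _ (Nat.lt_succ_self _)]
    simp [tZe]
  | succ j =>
    rw [PowerSeries.coeff_succ_X_mul, PowerSeries.coeff_mul,
      Finset.Nat.sum_antidiagonal_eq_sum_range_succ_mk, mul_sum,
      lin_eq_range _ _ (m := max (P.natDegree + 1) (j + 1)) (by omega)]
    symm
    apply sum_subset_zero_on_sdiff
    · intro i hi
      simp only [mem_range] at hi ⊢
      omega
    · intro i hi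
      rw [Finset.mem_sdiff, mem_range, mem_range] at hi
      unfold tZe
      rw [if_neg (by omega), mul_zero]
    · intro i hi
      rw [mem_range] at hi
      rw [toS_coeff, gs_coeff]
      unfold tZe
      have e : j + 1 - i - 1 = j - i := by omega
      rw [e]
      by_cases h : (j - i) % 2 = 0
      · rw [if_pos h, if_pos ⟨by omega, h⟩]; ring
      · rw [if_neg h, if_neg (by tauto)]; ring

end Series

open Series in
theorem cancel : CancelStmt := by
  intro c h u j hu hj
  rw [lin_tZe, ← toS_coeff]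
  congr 1
  rw [← sub_eq_zero, ← map_sub]
  have key : (PowerSeries.X : PowerSeries ℚ) ^ (j + 1) ∣
      PowerSeries.X * (toS (rowP c h u) * gs) - toS (rowD c h u) := by
    obtain ⟨n, rfl | rfl⟩ := Int.eq_nat_or_neg u
    · rw [Int.natAbs_natCast] at hu
      obtain ⟨m, rfl⟩ : ∃ m, c = m + n + 1 := ⟨c - n - 1, by omega⟩
      rw [rowP_nat, rowD_nat]
      have e1 : m + n + 1 - 1 - n = m := by omega
      have e2 : m + n + 1 - n = m + 1 := by omega
      rw [e1, e2]
      simp only [map_mul, map_sub, map_one, map_pow, toS_X]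
      have e3 : PowerSeries.X * (PowerSeries.X ^ m * (1 - PowerSeries.X) ^ h * toS (pp n) * gs)
          - PowerSeries.X ^ (m + 1) * (1 - PowerSeries.X) ^ h * toS (dd n)
          = PowerSeries.X ^ (m + 1) * (1 - (1 - PowerSeries.X ^ 2) * gs) ^ n
            * ((1 - PowerSeries.X) ^ h * gs) := by
        rw [pow_eq]
        linear_combination
          (PowerSeries.X ^ (m + 1) * (1 - PowerSeries.X) ^ h * toS (dd n)) * gs_sq
      rw [e3]
      refine Dvd.dvd.mul_right ?_ _
      have h1 : (PowerSeries.X : PowerSeries ℚ) ^ (j + 1) ∣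
          PowerSeries.X ^ (m + 1) * (PowerSeries.X ^ 2) ^ n := by
        rw [← pow_mul, ← pow_add]
        exact pow_dvd_pow _ (by omega)
      exact h1.trans (mul_dvd_mul_left _ (pow_dvd_pow_of_dvd sq_dvd n))
    · rw [Int.natAbs_neg, Int.natAbs_natCast] at hu
      obtain ⟨m, rfl⟩ : ∃ m, c = m + n + 1 := ⟨c - n - 1, by omega⟩
      rw [rowP_neg, rowD_neg, rowP_nat, rowD_nat]
      have e1 : m + n + 1 - 1 - n = m := by omega
      have e2 : m + n + 1 - n = m + 1 := by omega
      rw [e1, e2]
      simp only [map_mul, map_sub, map_one, map_pow, map_neg, toS_X]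
      have h1 : (PowerSeries.X : PowerSeries ℚ) ^ (j + 1) ∣ PowerSeries.X ^ (m + 1) :=
        pow_dvd_pow _ (by omega)
      refine h1.trans ⟨(1 - PowerSeries.X) ^ h * (toS (pp n) * gs + toS (dd n)), by ring⟩
  exact PowerSeries.X_pow_dvd_iff.mp key j (Nat.lt_succ_self j)

end Crest.Agent.R6
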