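import Crest.Agent.R6.TwoB
import Crest.Agent.R6.Pool

/-! Row 6: the 2-adic bound of the determinant. -/

set_option autoImplicit false

namespace Crest.Agent.R6

open Polynomial Finset Filter

namespace Two

theorem sum_a (M n : ℕ) :
    2 * ∑ k ∈ range n, (M - k) + (M - n) * (M - n + 1) ≤ M * (M + 1) := by
  induction n with
  | zero => simp
  | succ n ih =>
    rw [sum_range_succ]
    rcases Nat.lt_or_ge n M with h | h
    · obtain ⟨m, rfl⟩ := Nat.exists_eq_add_of_lt h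
      rw [show n + m + 1 - n = m + 1 by omega] at ih ⊢
      rw [show n + m + 1 - (n + 1) = m by omega]
      nlinarith
    · rw [show M - n = 0 by omega] at ih ⊢
      rw [show M - (n + 1) = 0 by omega]
      simpa using ih

theorem sum_b (M n : ℕ) : 4 * ∑ e ∈ range n, (2 * e + 2 - M) ≤ (2 * n - M) * (2 * n - M + 3) := by
  induction n with
  | zero => simp
  | succ n ih =>
    rw [sum_range_succ, show 2 * (n + 1) = 2 * n + 2 from rfl]
    rcases Nat.lt_or_ge (2 * n) M with h | h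
    · rw [show 2 * n - M = 0 by omega] at ih
      have h1 : 2 * n + 2 - M = 0 ∨ 2 * n + 2 - M = 1 := by omega
      rcases h1 with h1 | h1 <;> rw [h1] <;> omega
    · obtain ⟨m, hm⟩ := Nat.exists_eq_add_of_le h
      rw [show 2 * n - M = m by omega] at ih
      rw [show 2 * n + 2 - M = m + 2 by omega]
      nlinarith

theorem sum_c (M n : ℕ) : 2 * ∑ e ∈ range n, (e + 1 - M) ≤ (n - M) * (n - M + 1) := by
  induction n with
  | zero => simp
  | succ n ih =>
    rw [sum_range_succ]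
    rcases Nat.lt_or_ge n M with h | h
    · rw [show n - M = 0 by omega] at ih
      rw [show n + 1 - M = 0 by omega]
      omega
    · obtain ⟨m, hm⟩ := Nat.exists_eq_add_of_le h
      rw [show n - M = m by omega] at ih
      rw [show n + 1 - M = m + 1 by omega]
      nlinarith

theorem two_pow_eq (n : ℕ) : (2 : ℝ) ^ n = Real.exp (n * Real.log 2) := by
  rw [Real.exp_nat_mul, Real.exp_log two_pos]

theorem weight_le {T : ℝ} (hT : 0 ≤ T) {z : ℤ} {a b c : ℕ} (h : z ≤ b + c - a) :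
    T * (2 : ℝ) ^ z ≤ T / 2 ^ a * 2 ^ b * 2 ^ c := by
  have e : T / 2 ^ a * 2 ^ b * 2 ^ c = T * (2 : ℝ) ^ ((b : ℤ) + c - a) := by
    rw [zpow_sub₀ two_ne_zero, zpow_add₀ two_ne_zero, zpow_natCast, zpow_natCast, zpow_natCast]
    ring
  rw [e]
  exact mul_le_mul_of_nonneg_left (zpow_le_zpow_right₀ one_le_two h) hT

theorem norm_scale {a : ℚ_[2]} {z : ℤ} (h : ‖a‖ ≤ (2 : ℝ) ^ z) : ‖a * 2 ^ z‖ ≤ 1 := by
  rw [norm_mul, norm_two_zpow, zpow_neg]
  exact mul_inv_le_one_of_le₀ h (by positivity)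

theorem pool3 (hP : PoolStmt) (N : ℕ) {T : ℝ} (hT : 0 ≤ T)
    (E S : Matrix (Fin (36 * N)) (Fin (36 * N)) ℚ_[2]) (p d A B : Fin (36 * N) → ℕ → ℚ_[2])
    (hE : ∀ r k, E r k = S r k + ∑ e ∈ range (47 * N), p r e * A k e +
      ∑ e ∈ range (47 * N), d r e * B k e)
    (hp : ∀ r (e : ℕ), ‖p r e‖ ≤ (2 : ℝ) ^ ((e : ℤ) + (2 - (47 * N : ℕ))))
    (hd : ∀ r (e : ℕ), ‖d r e‖ ≤ (2 : ℝ) ^ ((e : ℤ) + (1 - (47 * N : ℕ))))
    (hA : ∀ k (e : ℕ), ‖A k e‖ ≤ T * (2 : ℝ) ^ ((e : ℤ) - 4 * N - (k : ℕ)))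
    (hB : ∀ k e, e < 47 * N → ‖B k e‖ ≤ T) (hS : ∀ r k, ‖S r k‖ ≤ T * (2 : ℝ) ^ (-16 * N : ℤ)) :
    ‖E.det‖ ≤ T ^ (36 * N) * Real.exp ((529 / 4 * (N : ℝ) ^ 2 + 48 * N) * Real.log 2) := by
  have h2 : (2 : ℚ_[2]) ≠ 0 := two_ne_zero
  have h := hP ℚ_[2] (Fin (36 * N)) (Fin (47 * N) ⊕ Fin (47 * N) ⊕ Fin (36 * N)) E
    (Sum.elim (fun e r => p r e * 2 ^ (((e : ℕ) : ℤ) + (2 - (47 * N : ℕ))))
      (Sum.elim (fun e r => d r e * 2 ^ (((e : ℕ) : ℤ) + (1 - (47 * N : ℕ))))
        fun r' r => if r = r' then 1 else 0))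
    (fun k => Sum.elim (fun e => A k e * 2 ^ (-(((e : ℕ) : ℤ) + (2 - (47 * N : ℕ)))))
      (Sum.elim (fun e => B k e * 2 ^ (-(((e : ℕ) : ℤ) + (1 - (47 * N : ℕ))))) fun r' => S r' k))
    (fun k => T / 2 ^ (16 * N) * 2 ^ (20 * N - k))
    (Sum.elim (fun e => 2 ^ (2 * (e : ℕ) + 2 - 55 * N))
      (Sum.elim (fun e => 2 ^ ((e : ℕ) + 1 - 31 * N)) fun _ => 1)) ?_ ?_ ?_ ?_ ?_
  · refine h.trans ?_
    simp only [Fintype.prod_sum_type, Sum.elim_inl, Sum.elim_inr, prod_const_one, mul_one,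
      prod_mul_distrib, prod_const, card_univ, Fintype.card_fin, prod_pow_eq_pow_sum]
    rw [Fin.sum_univ_eq_sum_range (fun k => 20 * N - k),
      Fin.sum_univ_eq_sum_range (fun e => 2 * e + 2 - 55 * N),
      Fin.sum_univ_eq_sum_range (fun e => e + 1 - 31 * N)]
    have a1 := (Nat.le_add_right _ _).trans (sum_a (20 * N) (36 * N))
    have a2 := sum_b (55 * N) (47 * N)
    have a3 := sum_c (31 * N) (47 * N)
    rw [show 2 * (47 * N) - 55 * N = 39 * N by omega] at a2
    rw [show 47 * N - 31 * N = 16 * N by omega] at a3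
    generalize ∑ k ∈ range (36 * N), (20 * N - k) = s1 at a1
    generalize ∑ e ∈ range (47 * N), (2 * e + 2 - 55 * N) = s2 at a2
    generalize ∑ e ∈ range (47 * N), (e + 1 - 31 * N) = s3 at a3
    have b1 : 2 * (s1 : ℝ) ≤ 20 * N * (20 * N + 1) := by exact_mod_cast a1
    have b2 : 4 * (s2 : ℝ) ≤ 39 * N * (39 * N + 3) := by exact_mod_cast a2
    have b3 : 2 * (s3 : ℝ) ≤ 16 * N * (16 * N + 1) := by exact_mod_cast a3
    rw [div_pow, ← pow_mul, two_pow_eq, two_pow_eq, two_pow_eq, two_pow_eq, div_eq_mul_inv,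
      ← Real.exp_neg, mul_assoc, mul_assoc, ← Real.exp_add, ← Real.exp_add, ← Real.exp_add]
    refine mul_le_mul_of_nonneg_left (Real.exp_le_exp.2 ?_) (pow_nonneg hT _)
    have hl : 0 < Real.log 2 := Real.log_pos one_lt_two
    have hN : (0 : ℝ) ≤ N := Nat.cast_nonneg N
    have : -((16 * N * (36 * N) : ℕ) : ℝ) + (s1 + (s2 + s3)) ≤ 529 / 4 * (N : ℝ) ^ 2 + 48 * N := by
      push_cast
      nlinarith
    nlinarith [mul_le_mul_of_nonneg_right this hl.le]
  · intro r k
    have e1 : ∀ (a b : ℚ_[2]) (z : ℤ), a * 2 ^ (-z) * (b * 2 ^ z) = b * a := fun a b z => by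
      rw [zpow_neg]
      field_simp
    simp only [Fintype.sum_sum_type, Sum.elim_inl, Sum.elim_inr, e1, mul_ite, mul_one, mul_zero,
      sum_ite_eq, mem_univ, if_true]
    rw [hE, Fin.sum_univ_eq_sum_range (fun e => p r e * A k e),
      Fin.sum_univ_eq_sum_range (fun e => d r e * B k e)]
    ring
  · rintro (e | e | r') r
    · exact norm_scale (hp r e)
    · exact norm_scale (hd r e)
    · simp only [Sum.elim_inr]
      split_ifs <;> simp
  · rintro k (e | e | r')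
    · simp only [Sum.elim_inl]
      rw [norm_mul, norm_two_zpow, neg_neg]
      refine (mul_le_mul_of_nonneg_right (hA k e) (by positivity)).trans ?_
      rw [mul_assoc, ← zpow_add₀ two_ne_zero]
      exact weight_le hT (by omega)
    · simp only [Sum.elim_inl, Sum.elim_inr]
      rw [norm_mul, norm_two_zpow, neg_neg]
      refine (mul_le_mul_of_nonneg_right (hB k e e.2) (by positivity)).trans ?_
      exact weight_le hT (by omega)
    · simp only [Sum.elim_inr]
      refine (hS r' k).trans ?_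
      have := weight_le hT (z := -16 * N) (a := 16 * N) (b := 20 * N - k) (c := 0) (by omega)
      rwa [pow_zero] at this
  · rintro (e | e | r')
    · exact one_le_pow₀ one_le_two
    · exact one_le_pow₀ one_le_two
    · exact le_rfl
  · intro k
    positivity

theorem det_bound (hS : SeriesStmt) (hC : CancelStmt) (hP : PoolStmt) (x : ℚ) :
    ∃ C : ℝ, 0 ≤ C ∧ ∀ N : ℕ, 1 ≤ N → ‖(((mat x N).det : ℚ) : ℚ_[2])‖ ≤
      (C * (N : ℝ) ^ 2) ^ (36 * N) *
        Real.exp ((529 / 4 * (N : ℝ) ^ 2 + 48 * N) * Real.log 2) := by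
  obtain ⟨C0, hC0, hMs⟩ := exists_Ms_bound
  have hV := V_eq hS hC x
  generalize (x : ℚ_[2]) - Ms ℚ_[2] 0 0 / 2 = g at hV
  generalize 4 / 3 * Ms ℚ_[2] 0 1 = z at hV
  generalize (-(3 / 4) : ℚ_[2]) = w at hV
  refine ⟨‖g‖ + ‖w‖ * (2500 + ‖z‖) + 2500 * C0, by positivity, fun N hN => ?_⟩
  have hN' : (1 : ℝ) ≤ N := by exact_mod_cast hN
  have hN2 : (1 : ℝ) ≤ (N : ℝ) ^ 2 := one_le_pow₀ hN'
  have hu : ∀ r : Fin (36 * N), (((r : ℕ) : ℤ) - 3 * N).natAbs < 47 * N := fun r => by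
    have := r.2
    omega
  choose Pt Dt hPt hDt dP dD cP cD using fun r : Fin (36 * N) =>
    rows (47 * N) (2 * N) (((r : ℕ) : ℤ) - 3 * N) (hu r)
  have hdet : (((mat x N).det : ℚ) : ℚ_[2]) = ((Rat.castHom ℚ_[2]).mapMatrix (mat x N)).det :=
    (Rat.castHom ℚ_[2]).map_det _
  rw [hdet]
  have g0 := norm_nonneg g
  have w0 := norm_nonneg w
  have z0 := norm_nonneg z
  have wz0 : 0 ≤ ‖w‖ * (2500 + ‖z‖) := by positivity
  refine pool3 hP N (by positivity) _
    (Matrix.of fun r k => lin (fun j => lin (fun i => Ms ℚ_[2] i j) ((1 - X) ^ (2 * N) * Pt r))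
      (colQ N k))
    (fun r e => ((Pt r).coeff e : ℚ_[2])) (fun r e => ((Dt r).coeff e : ℚ_[2]))
    (fun k e => lin (fun j => lin (fun i => g * (tG i j : ℚ_[2])) ((1 - X) ^ (2 * N) * X ^ e))
      (colQ N k))
    (fun k e => lin (fun j => lin (fun l => w * ((tZ l j : ℚ_[2]) + if l = j then z else 0))
      ((1 - X) ^ (2 * N) * X ^ e)) (colQ N k)) ?_ (fun r => cP r) (fun r => cD r) ?_ ?_ ?_
  · intro r k
    change ((ent x N (((r : ℕ) : ℤ) - 3 * N) k : ℚ) : ℚ_[2]) = _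
    simp only [Matrix.of_apply, ← lin_fun_mul, ← lin_fun_sum, ← lin_fun_add]
    rw [ent, lin_cast]
    refine lin_congr fun j hj => ?_
    have h1 := colQ_supp hj
    have h2 := k.2
    rw [hV _ _ _ j (hu r) (by omega), hPt, hDt, lin_mul (fun i => g * _), lin_mul (fun l => w * _),
      lin_eq_range _ _ (dP r), lin_eq_range _ _ (dD r)]
    simp only [lin_fun_mul]
  · intro k e
    refine norm_lin_le' (by positivity) fun j hj => norm_lin_le' (by positivity) fun i hi => ?_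
    have h1 := colQ_supp hj
    have h2 := le_of_coeff_mul hi
    rw [natDegree_X_pow] at h2
    rw [norm_mul]
    refine mul_le_mul (by nlinarith) ((norm_tG i j).trans ?_) (norm_nonneg _) (by positivity)
    exact zpow_le_zpow_right₀ one_le_two (by omega)
  · intro k e he
    refine norm_lin_le' (by positivity) fun j hj => norm_lin_le' (by positivity) fun l hl => ?_
    have h1 := colQ_supp hj
    have h2 := le_of_coeff_mul hl
    have h3 := k.2
    rw [natDegree_X_pow] at h2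
    have h4 := norm_tZ (M := 50 * N) l j (by omega) (by omega)
    have h5 : ‖(tZ l j : ℚ_[2]) + if l = j then z else 0‖ ≤ (2500 + ‖z‖) * (N : ℝ) ^ 2 := by
      refine norm_add_le (h4.trans ?_) ?_
      · push_cast
        nlinarith
      · split_ifs
        · nlinarith
        · rw [norm_zero]; positivity
    rw [norm_mul]
    refine (mul_le_mul_of_nonneg_left h5 w0).trans ?_
    rw [← mul_assoc]
    exact mul_le_mul_of_nonneg_right (by nlinarith) (by positivity)
  · intro r k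
    refine norm_lin_le' (by positivity) fun j hj => norm_lin_le (by positivity) fun i hi => ?_
    have h1 := colQ_supp hj
    have h2 := le_of_coeff_mul hi
    have h3 := k.2
    have h4 := dP r
    have h5 : (i : ℝ) + 1 ≤ 50 * N := by exact_mod_cast (by omega : i + 1 ≤ 50 * N)
    have h6 : (j : ℝ) + 1 ≤ 50 * N := by exact_mod_cast (by omega : j + 1 ≤ 50 * N)
    rw [norm_mul]
    refine (mul_le_mul ((cP r).mul_left _ i) (hMs i j) (norm_nonneg _) (by positivity)).trans ?_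
    rw [mul_left_comm, ← zpow_add₀ two_ne_zero]
    refine mul_le_mul ?_ (zpow_le_zpow_right₀ one_le_two (by omega)) (by positivity)
      (by positivity)
    calc C0 * (((i : ℝ) + 1) * ((j : ℝ) + 1)) ≤ C0 * ((50 * N) * (50 * N)) := by gcongr
      _ = (2500 * C0) * (N : ℝ) ^ 2 := by ring
      _ ≤ _ := mul_le_mul_of_nonneg_right (by linarith) (by positivity)

end Two

theorem two : SeriesStmt → CancelStmt → PoolStmt → TwoStmt := by
  intro hS hC hP x ε hε
  obtain ⟨C, hC0, h⟩ := Two.det_bound hS hC hP x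
  have hδ : 0 < (ε / 72) ^ 3 / 6 := by positivity
  have t := tendsto_natCast_atTop_atTop (R := ℝ)
  filter_upwards [eventually_ge_atTop 1, t.eventually_ge_atTop (C / ((ε / 72) ^ 3 / 6)),
    t.eventually_ge_atTop (96 * Real.log 2 / ε)] with N h1 h2 h3
  refine (h N h1).trans ?_
  have hN : (0 : ℝ) ≤ N := Nat.cast_nonneg N
  rw [div_le_iff₀ hδ] at h2
  rw [div_le_iff₀ hε] at h3
  have a1 : C * (N : ℝ) ^ 2 ≤ Real.exp (ε / 72 * N) := by
    refine le_trans ?_ (Real.pow_div_factorial_le_exp _ (by positivity) 3)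
    calc C * (N : ℝ) ^ 2 ≤ (N * ((ε / 72) ^ 3 / 6)) * (N : ℝ) ^ 2 := by gcongr
      _ = _ := by norm_num [Nat.factorial]; ring
  refine (mul_le_mul_of_nonneg_right (pow_le_pow_left₀ (by positivity) a1 _)
    (Real.exp_pos _).le).trans ?_
  rw [← Real.exp_nat_mul, ← Real.exp_add]
  refine Real.exp_le_exp.2 ?_
  push_cast
  nlinarith [mul_le_mul_of_nonneg_right h3 hN]

end Crest.Agent.R6
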