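import Crest.Agent.R6.Defs

/-! Row 6: 2-adic bounds for the rational tables. -/

set_option autoImplicit false

namespace Crest.Agent.R6

open Polynomial Finset Filter Topology

namespace Two

theorem norm_two_zpow (z : ℤ) : ‖(2 : ℚ_[2]) ^ z‖ = (2 : ℝ) ^ (-z) := by
  simpa using Padic.norm_p_zpow (p := 2) z

theorem norm_two : ‖(2 : ℚ_[2])‖ = (2 : ℝ) ^ (-1 : ℤ) := by
  simpa using norm_two_zpow 1

theorem norm_sub_le {a b : ℚ_[2]} {B : ℝ} (ha : ‖a‖ ≤ B) (hb : ‖b‖ ≤ B) : ‖a - b‖ ≤ B := by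
  rw [sub_eq_add_neg]
  exact (IsUltrametricDist.norm_add_le_max _ _).trans (max_le ha (by rwa [norm_neg]))

theorem norm_add_le {a b : ℚ_[2]} {B : ℝ} (ha : ‖a‖ ≤ B) (hb : ‖b‖ ≤ B) : ‖a + b‖ ≤ B :=
  (IsUltrametricDist.norm_add_le_max _ _).trans (max_le ha hb)

theorem norm_inv_nat_eq {m : ℕ} (hm : m ≠ 0) :
    ‖((m : ℚ_[2]))⁻¹‖ = ((2 ^ m.factorization 2 : ℕ) : ℝ) := by
  rw [norm_inv, Padic.norm_eq_zpow_neg_valuation (Nat.cast_ne_zero.2 hm), Padic.valuation_natCast,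
    Nat.factorization_def _ Nat.prime_two]
  simp

theorem norm_inv_nat (m : ℕ) : ‖((m : ℚ_[2]))⁻¹‖ ≤ m := by
  rcases eq_or_ne m 0 with rfl | hm
  · simp
  · rw [norm_inv_nat_eq hm]
    exact_mod_cast Nat.ordProj_le 2 hm

theorem be_two_mul (a : ℕ) : be (2 * a) = (a.centralBinom : ℚ) / 4 ^ a := by
  induction a with
  | zero => simp
  | succ a ih =>
    have h : (((a + 1) * (a + 1).centralBinom : ℕ) : ℚ) = (2 * (2 * a + 1) * a.centralBinom : ℕ) :=
      congrArg _ (Nat.succ_mul_centralBinom_succ a)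
    push_cast at h
    rw [show 2 * (a + 1) = 2 * a + 2 from rfl, be_add_two, ih, pow_succ]
    push_cast
    field_simp
    linear_combination (-2 : ℚ) * h

theorem be_mul_be (k : ℕ) : ((k : ℚ) + 1) * be (k + 1) * be k = 1 := by
  induction k with
  | zero => simp
  | succ k ih =>
    rw [show k + 1 + 1 = k + 2 from rfl, be_add_two]
    push_cast
    field_simp
    linear_combination ((k : ℚ) + 2) * ih

theorem norm_four_pow (a : ℕ) : ‖(4 : ℚ_[2]) ^ a‖ = (2 : ℝ) ^ (-((2 * a : ℕ) : ℤ)) := by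
  rw [← norm_two_zpow, zpow_natCast, pow_mul]
  norm_num

theorem norm_be_even (a : ℕ) : ‖((be (2 * a) : ℚ) : ℚ_[2])‖ ≤ (2 : ℝ) ^ ((2 * a : ℕ) : ℤ) := by
  rw [be_two_mul]
  push_cast
  rw [norm_div, norm_four_pow, zpow_neg, div_inv_eq_mul]
  push_cast
  exact mul_le_of_le_one_left (by positivity) (IsUltrametricDist.norm_natCast_le_one _ _)

theorem norm_al (n : ℕ) : ‖((al n : ℚ) : ℚ_[2])‖ ≤ (n + 1) * (1 / 2 : ℝ) ^ n := by
  unfold al
  split_ifs with h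
  · obtain ⟨a, rfl⟩ : ∃ a, n = 2 * a := ⟨n / 2, by omega⟩
    have h0 : (a.centralBinom : ℚ) ≠ 0 := Nat.cast_ne_zero.2 a.centralBinom_ne_zero
    have e : be (2 * a + 1) = 4 ^ a * ((2 * a + 1 : ℕ) : ℚ)⁻¹ * (a.centralBinom : ℚ)⁻¹ := by
      have := be_mul_be (2 * a)
      rw [be_two_mul] at this
      push_cast at this ⊢
      field_simp at this ⊢
      linear_combination this
    have h1 : ‖((2 * a + 1 : ℕ) : ℚ_[2])‖ = 1 :=
      Padic.norm_natCast_eq_one_iff.2 (by simp)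
    have h2 : ‖((a.centralBinom : ℕ) : ℚ_[2])⁻¹‖ ≤ ((2 * a : ℕ) : ℝ) + 1 := by
      rw [norm_inv_nat_eq a.centralBinom_ne_zero]
      rcases Nat.eq_zero_or_pos a with rfl | ha
      · simp
      · have : 2 ^ (a.centralBinom.factorization 2) ≤ 2 * a :=
          Nat.pow_factorization_choose_le (by omega)
        exact_mod_cast this.trans (Nat.le_succ _)
    rw [e, Rat.cast_mul, Rat.cast_mul, Rat.cast_inv, Rat.cast_inv, Rat.cast_natCast,
      Rat.cast_natCast, Rat.cast_pow, Rat.cast_ofNat, norm_mul, norm_mul, norm_inv, h1,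
      norm_four_pow, inv_one, mul_one, zpow_neg, zpow_natCast, one_div, inv_pow, mul_comm]
    exact mul_le_mul_of_nonneg_right h2 (by positivity)
  · rw [Rat.cast_zero, norm_zero]
    positivity

theorem norm_tG (i j : ℕ) : ‖((tG i j : ℚ) : ℚ_[2])‖ ≤ (2 : ℝ) ^ ((i : ℤ) - j) := by
  unfold tG
  split_ifs with h
  · obtain ⟨a, ha⟩ : ∃ a, i - j = 2 * a := ⟨(i - j) / 2, by omega⟩
    rw [ha, Rat.cast_mul, norm_mul, show (i : ℤ) - j = ((2 * a : ℕ) : ℤ) by omega]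
    refine (mul_le_of_le_one_left (norm_nonneg _) ?_).trans (norm_be_even a)
    exact_mod_cast IsUltrametricDist.norm_natCast_le_one ℚ_[2] 2
  · rw [Rat.cast_zero, norm_zero]
    positivity

theorem norm_harmonic (l : ℕ) : ‖((harmonic l : ℚ) : ℚ_[2])‖ ≤ l := by
  induction l with
  | zero => simp
  | succ l ih =>
    rw [harmonic_succ, Rat.cast_add, Rat.cast_inv, Rat.cast_natCast]
    exact norm_add_le (ih.trans (by push_cast; linarith)) (norm_inv_nat _)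

theorem norm_harmonic_div {M : ℕ} (l : ℕ) (h : l ≤ M) :
    ‖((harmonic l / l : ℚ) : ℚ_[2])‖ ≤ (M : ℝ) ^ 2 := by
  have h' : (l : ℝ) ≤ M := by exact_mod_cast h
  rw [Rat.cast_div, Rat.cast_natCast, div_eq_mul_inv, norm_mul, sq]
  exact mul_le_mul ((norm_harmonic l).trans h') ((norm_inv_nat l).trans h') (norm_nonneg _)
    (by positivity)

theorem norm_tZ {M : ℕ} (l j : ℕ) (hl : l ≤ M) (hj : j ≤ M) :
    ‖((tZ l j : ℚ) : ℚ_[2])‖ ≤ (M : ℝ) ^ 2 := by
  induction j generalizing l with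
  | zero => rw [tZ_zero_right]; exact norm_harmonic_div l hl
  | succ j ih =>
    rcases l with _ | l
    · rw [tZ_zero_succ]
      exact_mod_cast norm_harmonic_div (j + 1) hj
    · rw [tZ_succ_succ, Rat.cast_sub]
      refine norm_sub_le (ih l (by omega) (by omega)) ?_
      have e : ((1 / ((l + 1) * (j + 1)) : ℚ) : ℚ_[2]) =
          ((l + 1 : ℕ) : ℚ_[2])⁻¹ * ((j + 1 : ℕ) : ℚ_[2])⁻¹ := by
        push_cast
        rw [one_div, mul_inv]
      rw [e, norm_mul, sq]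
      exact mul_le_mul ((norm_inv_nat _).trans (by exact_mod_cast hl))
        ((norm_inv_nat _).trans (by exact_mod_cast hj)) (norm_nonneg _) (by positivity)

theorem summable_aux : Summable fun k : ℕ => ((k : ℝ) + 1) ^ 2 * (1 / 2 : ℝ) ^ k := by
  have h := (summable_nat_add_iff 1).2
    (summable_pow_mul_geometric_of_norm_lt_one 2 (r := (1 / 2 : ℝ)) (by norm_num))
  refine (h.mul_left 2).congr fun k => ?_
  push_cast
  ring

theorem norm_term (i j k : ℕ) : ‖((al (i + k) / ((j + k + 1 : ℕ) : ℚ) : ℚ) : ℚ_[2])‖ ≤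
    ((i + 1) * (j + 1) * (1 / 2 : ℝ) ^ i) * (((k : ℝ) + 1) ^ 2 * (1 / 2 : ℝ) ^ k) := by
  rw [Rat.cast_div, Rat.cast_natCast, div_eq_mul_inv, norm_mul]
  refine (mul_le_mul (norm_al _) (norm_inv_nat _) (norm_nonneg _) (by positivity)).trans ?_
  have h1 : ((i + k : ℕ) : ℝ) + 1 ≤ (i + 1) * (k + 1) := by
    push_cast
    nlinarith [mul_nonneg (Nat.cast_nonneg (α := ℝ) i) (Nat.cast_nonneg (α := ℝ) k)]
  have h2 : ((j + k + 1 : ℕ) : ℝ) ≤ (j + 1) * (k + 1) := by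
    push_cast
    nlinarith [mul_nonneg (Nat.cast_nonneg (α := ℝ) j) (Nat.cast_nonneg (α := ℝ) k)]
  calc (((i + k : ℕ) : ℝ) + 1) * (1 / 2 : ℝ) ^ (i + k) * ((j + k + 1 : ℕ) : ℝ)
      ≤ ((i + 1) * (k + 1)) * (1 / 2 : ℝ) ^ (i + k) * ((j + 1) * (k + 1)) := by gcongr
    _ = _ := by rw [pow_add]; ring

theorem summable_term (i j : ℕ) :
    Summable fun k : ℕ => ((al (i + k) / ((j + k + 1 : ℕ) : ℚ) : ℚ) : ℚ_[2]) :=
  Summable.of_norm_bounded (summable_aux.mul_left _) (norm_term i j)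

theorem tendsto_al : Tendsto (fun n : ℕ => ((al n : ℚ) : ℚ_[2])) atTop (𝓝 0) := by
  refine squeeze_zero_norm (fun n => (norm_al n).trans ?_) summable_aux.tendsto_atTop_zero
  have : (0 : ℝ) ≤ n := Nat.cast_nonneg n
  gcongr
  nlinarith

theorem exists_Ms_bound : ∃ C : ℝ, 0 ≤ C ∧ ∀ i j : ℕ,
    ‖Ms ℚ_[2] i j‖ ≤ C * ((i + 1) * (j + 1)) * (2 : ℝ) ^ (-(i : ℤ)) := by
  refine ⟨∑' k : ℕ, ((k : ℝ) + 1) ^ 2 * (1 / 2 : ℝ) ^ k, tsum_nonneg fun k => by positivity,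
    fun i j => ?_⟩
  refine (tsum_of_norm_bounded (summable_aux.hasSum.mul_left _) (norm_term i j)).trans_eq ?_
  rw [zpow_neg, zpow_natCast, one_div, inv_pow]
  ring

end Two

end Crest.Agent.R6
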