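import Crest.Agent.R6.TwoA

/-! Row 6: 2-adic structure of the rows. -/

set_option autoImplicit false

namespace Crest.Agent.R6

open Polynomial Finset

namespace Two

section lin
variable {K : Type} [CommRing K]

theorem lin_def (a : ℕ → K) (P : ℤ[X]) : lin a P = ∑ i ∈ P.support, (P.coeff i : K) * a i := rfl

theorem lin_add (a : ℕ → K) (P Q : ℤ[X]) : lin a (P + Q) = lin a P + lin a Q :=
  Polynomial.sum_add_index P Q _ (by simp) (by simp [add_mul])

theorem lin_monomial (a : ℕ → K) (n : ℕ) (c : ℤ) : lin a (monomial n c) = c * a n :=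
  Polynomial.sum_monomial_index c _ (by simp)

theorem lin_C_mul (a : ℕ → K) (c : ℤ) (P : ℤ[X]) : lin a (C c * P) = c * lin a P := by
  rw [lin_eq_range a P (Nat.lt_succ_self _),
    lin_eq_range a _ ((natDegree_C_mul_le c P).trans_lt (Nat.lt_succ_self _)), mul_sum]
  exact sum_congr rfl fun i _ => by rw [coeff_C_mul, Int.cast_mul, mul_assoc]

theorem lin_mul (a : ℕ → K) (H P : ℤ[X]) :
    lin a (H * P) = lin (fun e => lin a (H * X ^ e)) P := by
  induction P using Polynomial.induction_on' with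
  | add P Q hP hQ => rw [mul_add, lin_add, lin_add, hP, hQ]
  | monomial n c => rw [lin_monomial, ← C_mul_X_pow_eq_monomial, mul_left_comm, lin_C_mul]

theorem lin_congr {a b : ℕ → K} {P : ℤ[X]} (h : ∀ i, P.coeff i ≠ 0 → a i = b i) :
    lin a P = lin b P := by
  rw [lin_def, lin_def]
  exact sum_congr rfl fun i hi => by rw [h i (mem_support_iff.1 hi)]

theorem lin_fun_add (a b : ℕ → K) (P : ℤ[X]) :
    lin (fun i => a i + b i) P = lin a P + lin b P := by
  simp only [lin_def, mul_add, sum_add_distrib]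

theorem lin_fun_mul (c : K) (a : ℕ → K) (P : ℤ[X]) : lin (fun i => c * a i) P = c * lin a P := by
  simp only [lin_def, mul_sum, mul_left_comm]

theorem lin_fun_sum {ι : Type} (s : Finset ι) (a : ι → ℕ → K) (P : ℤ[X]) :
    lin (fun i => ∑ e ∈ s, a e i) P = ∑ e ∈ s, lin (a e) P := by
  simp only [lin_def, mul_sum]
  exact sum_comm

theorem lin_ite (j : ℕ) (z : K) (P : ℤ[X]) :
    lin (fun l => if l = j then z else 0) P = P.coeff j * z := by
  simp only [lin_def, mul_ite, mul_zero, sum_ite_eq', mem_support_iff]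
  split_ifs with h
  · rfl
  · rw [not_not.1 h, Int.cast_zero, zero_mul]

end lin

theorem lin_cast (a : ℕ → ℚ) (P : ℤ[X]) :
    ((lin a P : ℚ) : ℚ_[2]) = lin (fun i => (a i : ℚ_[2])) P := by
  simp only [lin_def, Rat.cast_sum, Rat.cast_mul, Rat.cast_intCast]

theorem norm_lin_le {a : ℕ → ℚ_[2]} {P : ℤ[X]} {B : ℝ} (hB : 0 ≤ B)
    (h : ∀ i, P.coeff i ≠ 0 → ‖(P.coeff i : ℚ_[2]) * a i‖ ≤ B) : ‖lin a P‖ ≤ B :=
  IsUltrametricDist.norm_sum_le_of_forall_le_of_nonneg hB fun i hi => h i (mem_support_iff.1 hi)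

theorem norm_lin_le' {a : ℕ → ℚ_[2]} {P : ℤ[X]} {B : ℝ} (hB : 0 ≤ B)
    (h : ∀ i, P.coeff i ≠ 0 → ‖a i‖ ≤ B) : ‖lin a P‖ ≤ B :=
  norm_lin_le hB fun i hi => by
    rw [norm_mul]
    exact (mul_le_of_le_one_left (norm_nonneg _) (Padic.norm_int_le_one _)).trans (h i hi)

/-- The coefficient of `X ^ d` has 2-adic norm at most `2 ^ (d + z)`. -/
def Dec (z : ℤ) (P : ℤ[X]) : Prop := ∀ d : ℕ, ‖(P.coeff d : ℚ_[2])‖ ≤ (2 : ℝ) ^ ((d : ℤ) + z)

theorem Dec.mul_left {z : ℤ} {P : ℤ[X]} (h : Dec z P) (H : ℤ[X]) : Dec z (H * P) := by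
  intro d
  rw [coeff_mul, Int.cast_sum]
  refine IsUltrametricDist.norm_sum_le_of_forall_le_of_nonneg (by positivity) fun x hx => ?_
  rw [Int.cast_mul, norm_mul]
  refine (mul_le_of_le_one_left (norm_nonneg _) (Padic.norm_int_le_one _)).trans ((h _).trans ?_)
  have := mem_antidiagonal.1 hx
  exact zpow_le_zpow_right₀ one_le_two (by omega)

theorem Dec.X_pow_mul {z : ℤ} {P : ℤ[X]} (h : Dec z P) (n : ℕ) : Dec (z - n) (X ^ n * P) := by
  intro d
  rw [coeff_X_pow_mul']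
  split_ifs with hd
  · exact (h _).trans_eq (by congr 1; omega)
  · rw [Int.cast_zero, norm_zero]
    positivity

theorem Dec.two_mul {z : ℤ} {P : ℤ[X]} (h : Dec z P) : Dec (z - 1) (2 * P) := by
  intro d
  rw [show (2 : ℤ[X]) = C 2 from rfl, coeff_C_mul, Int.cast_mul, Int.cast_ofNat, norm_mul, norm_two,
    show (d : ℤ) + (z - 1) = -1 + (d + z) by ring, zpow_add₀ two_ne_zero]
  exact mul_le_mul_of_nonneg_left (h d) (by positivity)

theorem Dec.sub {z : ℤ} {P Q : ℤ[X]} (h : Dec z P) (h' : Dec z Q) : Dec z (P - Q) := by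
  intro d
  rw [coeff_sub, Int.cast_sub]
  exact norm_sub_le (h d) (h' d)

theorem dec_of_nonneg {z : ℤ} (hz : 0 ≤ z) (P : ℤ[X]) : Dec z P := fun d =>
  (Padic.norm_int_le_one _).trans (one_le_zpow₀ one_le_two (by omega))

theorem rec_facts (q : ℕ → ℤ[X]) (s : ℤ) (hq : ∀ u, q (u + 2) = 2 * q (u + 1) - X ^ 2 * q u)
    (h0 : Dec s (q 0) ∧ (q 0).natDegree ≤ 0) (h1 : Dec (s - 1) (q 1) ∧ (q 1).natDegree ≤ 1)
    (u : ℕ) : Dec (s - u) (q u) ∧ (q u).natDegree ≤ u := by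
  induction u using Nat.twoStepInduction with
  | zero => simpa using h0
  | one => simpa using h1
  | more u ih ih' =>
    rw [hq]
    refine ⟨Dec.sub ?_ ?_, (natDegree_sub_le _ _).trans (max_le ?_ ?_)⟩
    · convert ih'.1.two_mul using 1
      push_cast; ring
    · convert ih.1.X_pow_mul 2 using 1
      push_cast; ring
    · exact (natDegree_C_mul_le 2 _).trans (ih'.2.trans (Nat.le_succ _))
    · refine natDegree_mul_le.trans ?_
      rw [natDegree_X_pow]
      omega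

theorem pp_facts (u : ℕ) : Dec (1 - u) (pp u) ∧ (pp u).natDegree ≤ u := by
  refine rec_facts pp 1 (fun u => ?_) ⟨dec_of_nonneg zero_le_one _, by simp⟩
    ⟨dec_of_nonneg (by simp) _, by simp [pp_succ]⟩ u
  rw [pp_succ (u + 1), dd_succ u, pp_succ u]
  ring

theorem dd_facts (u : ℕ) : Dec (0 - u) (X * dd u) ∧ (X * dd u).natDegree ≤ u := by
  refine rec_facts (fun u => X * dd u) 0 (fun u => ?_) ⟨dec_of_nonneg le_rfl _, by simp⟩
    ⟨?_, by simp [dd_succ]⟩ u
  · rw [dd_succ (u + 1), dd_succ u, pp_succ u]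
    ring
  · have := (dec_of_nonneg le_rfl (dd 1)).X_pow_mul 1
    simpa using this

theorem rows (c h : ℕ) (u : ℤ) (hu : u.natAbs < c) : ∃ Pt Dt : ℤ[X],
    rowP c h u = (1 - X) ^ h * Pt ∧ rowD c h u = (1 - X) ^ h * Dt ∧ Pt.natDegree < c ∧
      Dt.natDegree < c ∧ Dec (2 - c) Pt ∧ Dec (1 - c) Dt := by
  refine ⟨X ^ (c - 1 - u.natAbs) * pp u.natAbs,
    C u.sign * (X ^ (c - 1 - u.natAbs) * (X * dd u.natAbs)), ?_, ?_, ?_, ?_, ?_, ?_⟩
  · rw [rowP]; ring
  · rw [rowD, show c - u.natAbs = c - 1 - u.natAbs + 1 by omega]; ring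
  · refine natDegree_mul_le.trans_lt ?_
    have := (pp_facts u.natAbs).2
    rw [natDegree_X_pow]
    omega
  · refine (natDegree_C_mul_le _ _).trans_lt (natDegree_mul_le.trans_lt ?_)
    have := (dd_facts u.natAbs).2
    rw [natDegree_X_pow]
    omega
  · convert (pp_facts u.natAbs).1.X_pow_mul (c - 1 - u.natAbs) using 1
    omega
  · refine Dec.mul_left ?_ _
    convert (dd_facts u.natAbs).1.X_pow_mul (c - 1 - u.natAbs) using 1
    omega

theorem natDegree_one_sub_pow (h : ℕ) : ((1 - X : ℤ[X]) ^ h).natDegree ≤ h := by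
  refine natDegree_pow_le.trans ?_
  have : (1 - X : ℤ[X]).natDegree ≤ 1 := (natDegree_sub_le _ _).trans (by simp)
  simpa using Nat.mul_le_mul_left h this

theorem le_of_coeff_mul {h i : ℕ} {P : ℤ[X]} (hi : ((1 - X) ^ h * P).coeff i ≠ 0) :
    i ≤ h + P.natDegree :=
  (le_natDegree_of_ne_zero hi).trans
    (natDegree_mul_le.trans (Nat.add_le_add_right (natDegree_one_sub_pow h) _))

theorem colQ_supp {N k j : ℕ} (h : (colQ N k).coeff j ≠ 0) : 6 * N + k ≤ j ∧ j ≤ 8 * N + k := by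
  constructor
  · rw [colQ, coeff_X_pow_mul'] at h
    by_contra hc
    exact h (if_neg hc)
  · rw [colQ, mul_comm] at h
    have := le_of_coeff_mul h
    rw [natDegree_X_pow] at this
    omega

theorem V_eq (hS : SeriesStmt) (hC : CancelStmt) (x : ℚ) (c h : ℕ) (u : ℤ) (j : ℕ)
    (hu : u.natAbs < c) (hj : (j : ℤ) < c + u) :
    ((V x (rowP c h u) (rowD c h u) j : ℚ) : ℚ_[2]) =
      lin (fun i => Ms ℚ_[2] i j) (rowP c h u) +
      lin (fun i => ((x : ℚ_[2]) - Ms ℚ_[2] 0 0 / 2) * (tG i j : ℚ_[2])) (rowP c h u) +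
      lin (fun l => -(3 / 4) * ((tZ l j : ℚ_[2]) + if l = j then 4 / 3 * Ms ℚ_[2] 0 1 else 0))
        (rowD c h u) := by
  have h1 := hS ℚ_[2] summable_term tendsto_al
  have h2 := congrArg (fun q : ℚ => (q : ℚ_[2])) (hC c h u j hu hj)
  simp only [lin_cast, Rat.cast_mul, Rat.cast_div, Rat.cast_ofNat, Rat.cast_intCast] at h2
  have h3 : lin (fun i => Ms ℚ_[2] i j) (rowP c h u) =
      lin (fun i => (tA i j : ℚ_[2])) (rowP c h u) +
        Ms ℚ_[2] 0 0 / 2 * lin (fun i => (tG i j : ℚ_[2])) (rowP c h u) +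
        4 / 3 * Ms ℚ_[2] 0 1 * lin (fun i => (tZe i j : ℚ_[2])) (rowP c h u) := by
    rw [← lin_fun_mul, ← lin_fun_mul, ← lin_fun_add, ← lin_fun_add]
    exact lin_congr fun i _ => by rw [h1 i j]; ring
  rw [h3, h2, V]
  simp only [lin_cast, Rat.cast_mul, Rat.cast_div, Rat.cast_ofNat, Rat.cast_add, Rat.cast_sub,
    lin_fun_add, lin_fun_mul, lin_ite]
  ring

end Two

end Crest.Agent.R6
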