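import Crest.Agent.R6.Defs

/-! Row 6: the real values `M(0,0) = 2G`, `M(0,1) = 3/4 ζ(2)` and the moment integrals. -/

set_option autoImplicit false

namespace Crest.Agent.R6
namespace Values

open Filter Topology MeasureTheory Set

theorem termwise {I : Set ℝ} (hI : MeasurableSet I) {F : ℕ → ℝ → ℝ} {g : ℝ → ℝ}
    (hF : ∀ k, IntegrableOn (F k) I) (hs : Summable fun k => ∫ x in I, ‖F k x‖)
    (hg : ∀ x ∈ I, HasSum (fun k => F k x) (g x)) :
    IntegrableOn g I ∧ HasSum (fun k => ∫ x in I, F k x) (∫ x in I, g x) := by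
  have hae : (fun x => ∑' k, F k x) =ᵐ[volume.restrict I] g :=
    (ae_restrict_iff' hI).2 (Eventually.of_forall fun x hx => (hg x hx).tsum_eq)
  refine ⟨Integrable.congr ⟨?_, ?_⟩ hae, ?_⟩
  · exact (AEMeasurable.tsum fun k => (hF k).aemeasurable).aestronglyMeasurable
  · have h1 : ∀ k, ∫⁻ a in I, ‖F k a‖ₑ = ‖∫ a in I, ‖F k a‖‖ₑ := fun k => by
      rw [← ofReal_integral_norm_eq_lintegral_enorm (hF k), Real.enorm_of_nonneg
        (integral_nonneg fun a => norm_nonneg _)]
    calc ∫⁻ a in I, ‖∑' k, F k a‖ₑ ≤ ∫⁻ a in I, ∑' k, ‖F k a‖ₑ :=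
          lintegral_mono fun a => enorm_tsum_le_tsum_enorm
      _ = ∑' k, ∫⁻ a in I, ‖F k a‖ₑ := lintegral_tsum fun k => (hF k).1.enorm
      _ < ⊤ := by
          rw [funext h1]
          exact (tsum_enorm_ne_top_iff_summable_norm.2 hs.norm).lt_top
  · rw [← integral_congr_ae hae]
    exact hasSum_integral_of_summable_integral_norm hF hs

theorem hsc {f g : ℕ → ℝ} {a b : ℝ} (h : HasSum f a) (h1 : ∀ k, g k = f k) (h2 : b = a) :
    HasSum g b := by rw [funext h1, h2]; exact h

theorem intOn {f : ℝ → ℝ} (hc : Continuous f) (a b : ℝ) : IntegrableOn f (Ioo a b) :=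
  hc.integrableOn_Icc.mono_set Ioo_subset_Icc_self

theorem toInt (f : ℝ → ℝ) {a b : ℝ} (h : a ≤ b) : ∫ x in Ioo a b, f x = ∫ x in a..b, f x := by
  rw [← integral_Ioc_eq_integral_Ioo, intervalIntegral.integral_of_le h]

theorem ftc {f f' : ℝ → ℝ} (hd : ∀ x, HasDerivAt f (f' x) x) (hc : Continuous f') :
    ∫ x in Ioo (0 : ℝ) 1, f' x = f 1 - f 0 := by
  rw [toInt _ zero_le_one]
  exact intervalIntegral.integral_eq_sub_of_hasDerivAt (fun x _ => hd x) (hc.intervalIntegrable _ _)

theorem pw (m : ℕ) : ∫ s in Ioo (0 : ℝ) 1, s ^ m = 1 / (m + 1) := by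
  rw [toInt _ zero_le_one, integral_pow]; simp

theorem symm {g : ℝ → ℝ} (hc : Continuous g) :
    ∫ x in Ioo (-1 : ℝ) 1, g x = ∫ x in Ioo (0 : ℝ) 1, (g x + g (-x)) := by
  rw [toInt _ zero_le_one, toInt _ (by norm_num), intervalIntegral.integral_add
    (hc.intervalIntegrable _ _) ((by fun_prop : Continuous fun x => g (-x)).intervalIntegrable _ _),
    intervalIntegral.integral_comp_neg, neg_zero, add_comm,
    intervalIntegral.integral_add_adjacent_intervals (hc.intervalIntegrable _ _)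
      (hc.intervalIntegrable _ _)]

noncomputable def ff (x : ℝ) : ℝ := (1 - x ^ 2) / (1 + x ^ 2)
noncomputable def ww (x : ℝ) : ℝ := 2 / (1 + x ^ 2)

theorem den (x : ℝ) : 0 < 1 + x ^ 2 := by positivity
theorem ww_pos (x : ℝ) : 0 < ww x := div_pos two_pos (den x)
@[fun_prop] theorem c_ww : Continuous ww := continuous_const.div (by fun_prop) fun x => (den x).ne'
@[fun_prop] theorem c_tt : Continuous tt := Continuous.div (by fun_prop) (by fun_prop) fun x => (den x).ne'
@[fun_prop] theorem c_ff : Continuous ff := Continuous.div (by fun_prop) (by fun_prop) fun x => (den x).ne'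

theorem d_den (x : ℝ) : HasDerivAt (fun x : ℝ => 1 + x ^ 2) (2 * x) x := by
  simpa using (hasDerivAt_pow 2 x).const_add 1

theorem d_tt (x : ℝ) : HasDerivAt tt (1 * (ff x * ww x)) x := by
  refine (((hasDerivAt_id x).const_mul 2).div (d_den x) (den x).ne').congr_deriv ?_
  have := (den x).ne'
  simp only [ff, ww, id]; field_simp; ring

theorem d_ff (x : ℝ) : HasDerivAt ff (-1 * (tt x * ww x)) x := by
  have h : HasDerivAt (fun x : ℝ => 1 - x ^ 2) (-(2 * x)) x := by
    simpa using (hasDerivAt_pow 2 x).const_sub 1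
  refine (h.div (d_den x) (den x).ne').congr_deriv ?_
  have := (den x).ne'
  simp only [tt, ww]; field_simp; ring

theorem sq_add (x : ℝ) : tt x ^ 2 + ff x ^ 2 = 1 := by
  have := (den x).ne'
  simp only [tt, ff]; field_simp; ring

theorem tt_neg (x : ℝ) : tt (-x) = -tt x := by simp [tt, neg_div]
theorem ww_neg (x : ℝ) : ww (-x) = ww x := by simp [ww]
theorem tt_pos {x : ℝ} (h : 0 < x) : 0 < tt x := div_pos (by linarith) (den x)

theorem ff_pos {x : ℝ} (h : x ∈ Ioo (-1 : ℝ) 1) : 0 < ff x :=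
  div_pos (by nlinarith [h.1, h.2]) (den x)

theorem tt_lt {x : ℝ} (h : x ∈ Ioo (-1 : ℝ) 1) : |tt x| < 1 := by
  have := ff_pos h
  have := sq_add x
  rw [← sq_lt_one_iff_abs_lt_one]; nlinarith

theorem recur {u v : ℝ → ℝ} {ε : ℝ} (hε : ε ≠ 0) (hu : ∀ x, HasDerivAt u (ε * (v x * ww x)) x)
    (hv : ∀ x, HasDerivAt v (-ε * (u x * ww x)) x) (h : ∀ x, u x ^ 2 + v x ^ 2 = 1)
    (h0 : u 0 * v 0 = 0) (h1 : u 1 * v 1 = 0) (n : ℕ) :
    ∫ x in Ioo (0 : ℝ) 1, u x ^ (n + 2) * ww x =
      (∫ x in Ioo (0 : ℝ) 1, u x ^ n * ww x) * (n + 1) / (n + 2) := by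
  have cu : Continuous u := continuous_iff_continuousAt.2 fun x => (hu x).continuousAt
  have key := ftc (f := fun x => u x ^ (n + 1) * v x)
    (f' := fun x => ε * ((n + 1) * (u x ^ n * ww x) - (n + 2) * (u x ^ (n + 2) * ww x)))
    (fun x => by
      refine (((hu x).pow (n + 1)).mul (hv x)).congr_deriv ?_
      simp only [Pi.pow_apply, Nat.add_sub_cancel]
      push_cast
      linear_combination (ε * (n + 1) * u x ^ n * ww x) * h x) (by fun_prop)
  rw [integral_const_mul, integral_sub (intOn (by fun_prop) _ _) (intOn (by fun_prop) _ _),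
    integral_const_mul, integral_const_mul] at key
  simp only [pow_succ _ n, mul_assoc, h0, h1, mul_zero, sub_zero, mul_eq_zero, hε, false_or] at key
  rw [eq_div_iff (by positivity)]
  linarith

theorem odd {W : ℕ → ℝ} (h : ∀ n, W (n + 2) = W n * (n + 1) / (n + 2)) (h1 : W 1 = 1) (a : ℕ) :
    W (2 * a + 1) = be (2 * a + 1) := by
  induction a with
  | zero => simpa using h1
  | succ a ih =>
    rw [show 2 * (a + 1) + 1 = 2 * a + 1 + 2 by ring, h, be_add_two, ih]
    push_cast; rfl

noncomputable def W (n : ℕ) : ℝ := ∫ x in Ioo (0 : ℝ) 1, tt x ^ n * ww x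

theorem W_rec (n : ℕ) : W (n + 2) = W n * (n + 1) / (n + 2) :=
  recur one_ne_zero d_tt d_ff sq_add (by simp [tt]) (by simp [ff]) n

theorem W_odd (a : ℕ) : W (2 * a + 1) = be (2 * a + 1) := by
  refine odd W_rec ?_ a
  have := ftc (f := fun x => -ff x) (f' := fun x => tt x ^ 1 * ww x)
    (fun x => (d_ff x).neg.congr_deriv (by ring)) (by fun_prop)
  rw [W, this]; simp [ff]

theorem W'_odd (a : ℕ) : ∫ x in Ioo (0 : ℝ) 1, ff x ^ (2 * a + 1) * ww x = be (2 * a + 1) := by
  refine odd (W := fun n => ∫ x in Ioo (0 : ℝ) 1, ff x ^ n * ww x)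
    (recur (ε := -1) (v := tt) (by norm_num) d_ff (by simpa using d_tt)
      (fun x => by rw [add_comm, sq_add]) (by simp [tt]) (by simp [ff])) ?_ a
  have := ftc (f := tt) (f' := fun x => ff x ^ 1 * ww x)
    (fun x => (d_tt x).congr_deriv (by ring)) (by fun_prop)
  simp only [this]; norm_num [tt]

theorem W_nonneg (n : ℕ) : 0 ≤ W n :=
  setIntegral_nonneg measurableSet_Ioo fun x hx =>
    mul_nonneg (pow_nonneg (tt_pos hx.1).le _) (ww_pos x).le

theorem W_sum : Summable fun n : ℕ => W n / (n + 2) := by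
  refine summable_of_sum_range_le (c := W 0 + W 1)
    (fun n => div_nonneg (W_nonneg n) (by positivity)) fun N => ?_
  have : ∑ n ∈ Finset.range N, W n / (n + 2) = W 0 + W 1 - W N - W (N + 1) := by
    induction N with
    | zero => simp
    | succ N ih => rw [Finset.sum_range_succ, ih, W_rec]; field_simp; ring
  linarith [W_nonneg N, W_nonneg (N + 1)]

theorem W_sum' (i j : ℕ) : Summable fun k : ℕ => W (i + k + 1) / ((j : ℝ) + k + 1) := by
  have h := ((summable_nat_add_iff (i + 1)).2 W_sum).mul_left ((i : ℝ) + 3)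
  refine h.of_nonneg_of_le (fun k => div_nonneg (W_nonneg _) (by positivity)) fun k => ?_
  rw [show k + (i + 1) = i + k + 1 by ring, ← mul_div_assoc, div_le_div_iff₀ (by positivity) (by positivity)]
  have := W_nonneg (i + k + 1)
  push_cast
  have h2 : (i : ℝ) + k + 1 + 2 ≤ (i + 3) * (j + k + 1) := by
    have : (0 : ℝ) ≤ i * j + i * k + 3 * j + 2 * k := by positivity
    nlinarith
  nlinarith

theorem al_eq (n : ℕ) : (al n : ℝ) = (1 + (-1) ^ n) / 2 * W (n + 1) := by
  rcases Nat.even_or_odd' n with ⟨a, rfl | rfl⟩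
  · simp [al, W_odd]
  · simp [al, pow_succ]

theorem al_le (n : ℕ) : |(al n : ℝ)| ≤ W (n + 1) := by
  rw [al_eq]
  rcases neg_one_pow_eq_or ℝ n with h | h <;> simp [h, W_nonneg, abs_of_nonneg]

theorem termwise' {I : Set ℝ} (hI : MeasurableSet I) {F : ℕ → ℝ → ℝ} {g : ℝ → ℝ} {c : ℕ → ℝ}
    (hF : ∀ k, Continuous (F k)) (hI' : I ⊆ Icc 0 1) (h0 : ∀ k, ∀ x ∈ I, 0 ≤ F k x)
    (hc : ∀ k, ∫ x in I, F k x = c k) (hs : Summable c)
    (hg : ∀ x ∈ I, HasSum (fun k => F k x) (g x)) :
    IntegrableOn g I ∧ HasSum c (∫ x in I, g x) := by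
  rw [← funext hc] at hs ⊢
  refine termwise hI (fun k => (hF k).integrableOn_Icc.mono_set hI') (hs.congr fun k => ?_) hg
  exact setIntegral_congr_fun hI fun x hx => (Real.norm_of_nonneg (h0 k x hx)).symm

theorem sub01 {x : ℝ} (hx : x ∈ Ioo (0 : ℝ) 1) : x ∈ Ioo (-1 : ℝ) 1 := ⟨by linarith [hx.1], hx.2⟩

theorem inner {x : ℝ} (hx : x ∈ Ioo (-1 : ℝ) 1) (j : ℕ) :
    HasSum (fun k : ℕ => tt x ^ k * ww x / ((j : ℝ) + k + 1))
      (∫ s in Ioo (0 : ℝ) 1, ker x s * s ^ j) := by
  have ht := tt_lt hx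
  have e : ∀ k : ℕ, ∫ s in Ioo (0 : ℝ) 1, tt x ^ k * ww x * s ^ (j + k) =
      tt x ^ k * ww x / (j + k + 1) := by
    intro k; rw [integral_const_mul, pw]; push_cast; ring
  rw [← funext e]
  refine (termwise measurableSet_Ioo (fun k => intOn (by fun_prop) _ _) ?_ fun s hs => ?_).2
  · refine ((summable_geometric_of_lt_one (abs_nonneg _) ht).mul_right (ww x)).of_nonneg_of_le
      (fun k => integral_nonneg fun _ => norm_nonneg _) fun k => ?_
    rw [setIntegral_congr_fun measurableSet_Ioo (g := fun s => |tt x| ^ k * ww x * s ^ (j + k))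
      fun s hs => by simp [abs_of_pos (ww_pos x), abs_of_pos hs.1], integral_const_mul, pw]
    refine mul_le_of_le_one_right (mul_nonneg (by positivity) (ww_pos x).le) ?_
    rw [div_le_one (by positivity)]
    exact le_add_of_nonneg_left (by positivity)
  · have h1 : |tt x * s| < 1 := by
      rw [abs_mul, abs_of_pos hs.1]
      exact mul_lt_one_of_nonneg_of_lt_one_left (abs_nonneg _) ht hs.2.le
    have h2 : ker x s * s ^ j = ww x * s ^ j * (1 - tt x * s)⁻¹ := by
      have := (den x).ne'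
      rw [show 1 - tt x * s = (1 + x ^ 2 - 2 * x * s) / (1 + x ^ 2) by rw [tt]; field_simp,
        inv_div, ker, ww]
      field_simp
    rw [h2]
    exact hsc ((hasSum_geometric_of_abs_lt_one h1).mul_left (ww x * s ^ j)) (fun k => by ring) rfl

theorem intA (n : ℕ) : ∫ x in Ioo (-1 : ℝ) 1, |tt x| / 2 * tt x ^ n * ww x = al n := by
  rw [symm (by fun_prop), al_eq, W, ← integral_const_mul]
  refine setIntegral_congr_fun measurableSet_Ioo fun x hx => ?_
  simp only [tt_neg, ww_neg, abs_neg, abs_of_pos (tt_pos hx.1), neg_pow (tt x)]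
  ring

theorem intB (n : ℕ) : ∫ x in Ioo (-1 : ℝ) 1, |tt x| / 2 * |tt x| ^ n * ww x = W (n + 1) := by
  rw [symm (by fun_prop), W]
  refine setIntegral_congr_fun measurableSet_Ioo fun x hx => ?_
  simp only [tt_neg, ww_neg, abs_neg, abs_of_pos (tt_pos hx.1)]
  ring

theorem intC (n : ℕ) : ∫ x in Ioo (0 : ℝ) 1, ff x * tt x ^ n * ww x = 1 / (n + 1) := by
  rw [ftc (f := fun x => tt x ^ (n + 1) / (n + 1)) (fun x =>
    (((d_tt x).pow (n + 1)).div_const _).congr_deriv (by simp; field_simp)) (by fun_prop)]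
  norm_num [tt]

theorem sumZ (i j : ℕ) : Summable fun k : ℕ => 1 / (((i : ℝ) + k + 1) * ((j : ℝ) + k + 1)) := by
  refine ((summable_nat_add_iff 1).2 (Real.summable_one_div_nat_pow.2 one_lt_two)).of_nonneg_of_le
    (fun k => by positivity) fun k => ?_
  push_cast
  rw [sq]
  gcongr <;> exact le_add_of_nonneg_left (by positivity)

theorem intL (m : ℕ) : IntegrableOn (fun y : ℝ => -(y ^ m * Real.log y)) (Ioo 0 1) ∧
    ∫ y in Ioo (0 : ℝ) 1, -(y ^ m * Real.log y) = 1 / (m + 1) ^ 2 := by
  have h : IntervalIntegrable (fun y : ℝ => -(y ^ m * Real.log y)) volume 0 1 :=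
    (intervalIntegral.intervalIntegrable_log'.continuousOn_mul (by fun_prop)).neg
  refine ⟨(intervalIntegrable_iff_integrableOn_Ioo_of_le zero_le_one).1 h, ?_⟩
  rw [toInt _ zero_le_one, intervalIntegral.integral_eq_sub_of_hasDerivAt_of_le zero_le_one
    (f := fun y => y ^ (m + 1) / (m + 1) ^ 2 - y ^ m * (y * Real.log y) / (m + 1))
    (by have := Real.continuous_mul_log; fun_prop) (fun y hy => ?_) h]
  · simp
  · refine (((hasDerivAt_pow (m + 1) y).div_const _).sub (((hasDerivAt_pow m y).mul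
      (Real.hasDerivAt_mul_log hy.1.ne')).div_const _)).congr_deriv ?_
    rcases m with _ | m
    · simp
    · simp only [Nat.add_sub_cancel]
      push_cast
      field_simp
      ring

theorem summ (i j : ℕ) :
    Summable fun k : ℕ => ((al (i + k) / ((j + k + 1 : ℕ) : ℚ) : ℚ) : ℝ) := by
  refine (W_sum' i j).of_norm_bounded fun k => ?_
  push_cast
  rw [Real.norm_eq_abs, abs_div, abs_of_pos (by positivity : (0 : ℝ) < j + k + 1)]
  gcongr
  exact al_le _

theorem Ms_eq {j : ℕ} {c : ℝ} (h : HasSum (fun a : ℕ => (be (2 * a + 1) : ℝ) / (j + 2 * a + 1)) c) :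
    Ms ℝ 0 j = c := by
  rw [← add_zero c]
  refine HasSum.tsum_eq (HasSum.even_add_odd ?_ ?_)
  · simpa [al] using h
  · simp [al]

theorem sumbe (j : ℕ) : Summable fun a : ℕ => (be (2 * a + 1) : ℝ) / (j + 2 * a + 1) := by
  simpa [al, Function.comp_def] using (summ 0 j).comp_injective (mul_right_injective₀ two_ne_zero)

theorem sumO : Summable fun k : ℕ => 1 / (2 * (k : ℝ) + 1) ^ 2 := by
  simpa [Function.comp_def, sq] using (sumZ 0 0).comp_injective (mul_right_injective₀ two_ne_zero)

theorem M00 : Ms ℝ 0 0 = 2 * cat := by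
  have h1 := (termwise' measurableSet_Ioo (g := fun y => -Real.log y * ww y)
    (F := fun a y => ff y ^ (2 * a + 1) * ww y / (2 * a + 1)) (fun a => by fun_prop)
    Ioo_subset_Icc_self (fun a y hy => by have := ff_pos (sub01 hy); have := ww_pos y; positivity)
    (fun a => by rw [integral_div, W'_odd]; simp) (sumbe 0) fun y hy => by
      have hf : |ff y| < 1 := by
        have := tt_pos hy.1
        have := sq_add y
        rw [← sq_lt_one_iff_abs_lt_one]; nlinarith
      have h := (Real.hasSum_log_sub_log_of_abs_lt_one hf).mul_right (ww y / 2)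
      have e : Real.log (1 + ff y) - Real.log (1 - ff y) = -2 * Real.log y := by
        have := (den y).ne'
        have := hy.1.ne'
        rw [show 1 - ff y = (1 + ff y) * y ^ 2 by rw [ff]; field_simp; ring,
          Real.log_mul (by linarith [ff_pos (sub01 hy)]) (by positivity), Real.log_pow]
        push_cast; ring
      rw [e] at h
      exact hsc h (fun a => by ring) (by ring)).2
  have h2 := (termwise measurableSet_Ioo (g := fun y => -Real.log y * ww y)
    (F := fun j y => 2 * (-1) ^ j * -(y ^ (2 * j) * Real.log y))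
    (fun j => (intL _).1.const_mul _) ((sumO.mul_left 2).congr fun j => by
      rw [setIntegral_congr_fun measurableSet_Ioo (g := fun y => 2 * -(y ^ (2 * j) * Real.log y))
        fun y hy => ?_, integral_const_mul, (intL _).2]
      · push_cast; rfl
      · have : 0 ≤ -(y ^ (2 * j) * Real.log y) := neg_nonneg.2
          (mul_nonpos_of_nonneg_of_nonpos (pow_nonneg hy.1.le _) (Real.log_nonpos hy.1.le hy.2.le))
        rw [norm_mul, Real.norm_of_nonneg this]; simp) fun y hy => by
      have h := (hasSum_geometric_of_abs_lt_one (r := -y ^ 2)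
        (by rw [abs_neg, abs_of_nonneg (sq_nonneg y)]; nlinarith [hy.1, hy.2])).mul_left
          (-2 * Real.log y)
      exact hsc h (fun j => by rw [neg_pow (y ^ 2), ← pow_mul]; ring)
        (by rw [ww, sub_neg_eq_add]; ring)).2
  rw [Ms_eq h1, ← h2.tsum_eq, cat, ← tsum_mul_left]
  refine tsum_congr fun j => ?_
  rw [integral_const_mul, (intL _).2]
  push_cast; ring

theorem M01 : Ms ℝ 0 1 = 3 / 4 * Zs 0 0 := by
  have h1 := (termwise' measurableSet_Ioo (g := fun x => -Real.log (ff x) / x)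
    (F := fun a x => tt x ^ (2 * a + 1) * ww x / ((1 : ℕ) + 2 * a + 1)) (fun a => by fun_prop)
    Ioo_subset_Icc_self (fun a x hx => by have := tt_pos hx.1; have := ww_pos x; positivity)
    (fun a => by rw [integral_div, ← W_odd, W]) (sumbe 1) fun x hx => by
      have ht := tt_lt (sub01 hx)
      have h := (Real.hasSum_pow_div_log_of_abs_lt_one (x := tt x ^ 2)
        (by rw [abs_pow]; exact pow_lt_one₀ (abs_nonneg _) ht two_ne_zero)).mul_right (1 / (2 * x))
      rw [show 1 - tt x ^ 2 = ff x ^ 2 by linarith [sq_add x], Real.log_pow] at h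
      have := (den x).ne'
      have := hx.1.ne'
      have e : ww x = tt x / x := by rw [ww, tt]; field_simp
      exact hsc h (fun a => by rw [e]; push_cast; field_simp; ring) (by push_cast; field_simp)).2
  have h2 := (termwise' measurableSet_Ioo (g := fun x => -Real.log (ff x) / x)
    (F := fun k x => 2 * (1 / (2 * k + 1)) * x ^ (4 * k + 1)) (fun a => by fun_prop)
    Ioo_subset_Icc_self (fun a x hx => by have := hx.1; positivity)
    (fun k => by rw [integral_const_mul, pw]; push_cast; field_simp; ring) sumO fun x hx => by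
      have hx2 : x ^ 2 < 1 := by nlinarith [hx.1, hx.2]
      have h := (Real.hasSum_log_sub_log_of_abs_lt_one (x := x ^ 2)
        (by rwa [abs_of_nonneg (sq_nonneg x)])).div_const x
      have := hx.1.ne'
      exact hsc h (fun k => by field_simp; ring)
        (by rw [ff, Real.log_div (by linarith) (den x).ne', neg_sub])).2
  have h3 := (sumZ 0 0).hasSum
  have h4 : HasSum (fun k : ℕ => 1 / ((((0 : ℕ) : ℝ) + k + 1) * (((0 : ℕ) : ℝ) + k + 1)))
      ((∫ x in Ioo (0 : ℝ) 1, -Real.log (ff x) / x) + Zs 0 0 / 4) := by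
    refine HasSum.even_add_odd ?_ ?_
    · simpa [sq] using h2
    · exact hsc (h3.div_const 4) (fun k => by push_cast; field_simp; ring) rfl
  have h5 : Zs 0 0 = _ := h4.tsum_eq
  rw [Ms_eq h1]
  linarith

theorem al_tendsto : Tendsto (fun n : ℕ => ((al n : ℚ) : ℝ)) atTop (𝓝 0) := by
  have h1 : ∀ a : ℕ, (be (2 * a + 1) : ℝ) ^ 2 ≤ 1 / (a + 1) := by
    intro a
    induction a with
    | zero => simp
    | succ a ih =>
      rw [show 2 * (a + 1) + 1 = 2 * a + 1 + 2 by ring, be_add_two]
      push_cast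
      rw [div_pow, mul_pow, div_le_iff₀ (by positivity)]
      refine (mul_le_mul_of_nonneg_right ih (by positivity)).trans ?_
      rw [div_mul_eq_mul_div, div_mul_eq_mul_div, div_le_div_iff₀ (by positivity) (by positivity)]
      have : (0 : ℝ) ≤ a := by positivity
      nlinarith
  have h2 : ∀ n : ℕ, (al n : ℝ) ^ 2 ≤ 2 * (1 / (n + 1)) := by
    intro n
    rcases Nat.even_or_odd' n with ⟨a, rfl | rfl⟩
    · simp only [al, Nat.mul_mod_right, if_true]
      refine (h1 a).trans ?_
      rw [mul_one_div, div_le_div_iff₀ (by positivity) (by positivity)]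
      push_cast; linarith
    · simp [al]; positivity
  have h3 : Tendsto (fun n : ℕ => ((al n : ℚ) : ℝ) ^ 2) atTop (𝓝 0) :=
    squeeze_zero (fun n => sq_nonneg _) h2
      (by simpa using (tendsto_one_div_add_atTop_nhds_zero_nat (𝕜 := ℝ)).const_mul 2)
  rw [tendsto_zero_iff_abs_tendsto_zero]
  simpa [Function.comp_def, Real.sqrt_sq_eq_abs] using h3.sqrt

end Values

open Values MeasureTheory Set

theorem values : ValuesStmt := ⟨summ, al_tendsto, M00, M01⟩

theorem mom : MomStmt := by
  intro i j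
  have h1 := termwise measurableSet_Ioo
    (g := fun x => |tt x| / 2 * tt x ^ i * ∫ s in Ioo (0 : ℝ) 1, ker x s * s ^ j)
    (F := fun k x => |tt x| / 2 * tt x ^ (i + k) * ww x / ((j : ℝ) + k + 1))
    (fun k => intOn (by fun_prop) (-1) 1) ((W_sum' i j).congr fun k => by
      rw [← intB, ← integral_div]
      refine setIntegral_congr_fun measurableSet_Ioo fun x _ => ?_
      simp [abs_of_pos (ww_pos x), abs_of_pos (by positivity : (0 : ℝ) < j + k + 1)])
    fun x hx => hsc ((Values.inner hx j).mul_left (|tt x| / 2 * tt x ^ i)) (fun k => by ring) rfl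
  have h2 := termwise' measurableSet_Ioo
    (g := fun x => (1 - x ^ 2) / (1 + x ^ 2) * tt x ^ i * ∫ s in Ioo (0 : ℝ) 1, ker x s * s ^ j)
    (F := fun k x => ff x * tt x ^ (i + k) * ww x / ((j : ℝ) + k + 1)) (fun k => by fun_prop)
    Ioo_subset_Icc_self (fun k x hx => by
      have := ff_pos (sub01 hx); have := tt_pos hx.1; have := ww_pos x; positivity)
    (fun k => by rw [integral_div, intC, div_div]; push_cast; rfl) (sumZ i j)
    fun x hx => hsc ((Values.inner (sub01 hx) j).mul_left (ff x * tt x ^ i)) (fun k => by ring) rfl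
  refine ⟨h1.1, ?_, h2.1, h2.2.tsum_eq.symm⟩
  rw [← h1.2.tsum_eq, Ms]
  refine tsum_congr fun k => ?_
  rw [integral_div, intA]
  push_cast; rfl

end Crest.Agent.R6
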